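import Vale.Agent.Lib.P113.Defs

/-!
Uniqueness of classical solutions of the forced incompressible Navier-Stokes system on the
three-dimensional torus: the energy method.
-/

open MeasureTheory Set Filter
open scoped Topology BigOperators

namespace Vale.Agent.P113

namespace Unique

/-- the unit cube -/
abbrev cube : Set V3 := Icc (0 : V3) 1

/-- If `g` has a continuous partial derivative `g'` in direction `i` and is periodic in this
direction, the integral of `g'` over the unit cube vanishes. -/
lemma integral_partial_eq_zero (i : Fin 3) (g g' : V3 → ℝ)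
    (hg : ∀ x, HasDerivAt (fun s : ℝ => g (Function.update x i s)) (g' x) (x i))
    (hg' : Continuous g') (hper : ∀ x, g (Function.update x i (x i + 1)) = g x) :
    ∫ x in cube, g' x = 0 := by
  set e : ℝ × (Fin 2 → ℝ) ≃ᵐ (Fin 3 → ℝ) :=
    (MeasurableEquiv.piFinSuccAbove (fun _ => ℝ) i).symm with he_def
  have he : MeasurePreserving e :=
    (volume_preserving_piFinSuccAbove (fun _ : Fin 3 => ℝ) i).symm _
  have heval : ∀ (s : ℝ) (y : Fin 2 → ℝ), e (s, y) = i.insertNth s y := by
    intro s y
    rw [he_def, MeasurableEquiv.piFinSuccAbove_symm_apply]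
    rfl
  have hpre : e ⁻¹' cube = (Icc (0 : ℝ) 1) ×ˢ (Icc (0 : Fin 2 → ℝ) 1) := by
    ext ⟨s, y⟩
    rw [mem_preimage, heval]
    simp only [cube, Fin.insertNth_mem_Icc, mem_prod]
    rfl
  have hderiv : ∀ (y : Fin 2 → ℝ) (s : ℝ),
      HasDerivAt (fun s : ℝ => g (e (s, y))) (g' (e (s, y))) s := by
    intro y s
    have h1 := hg (e (s, y))
    have h2 : ∀ r : ℝ, Function.update (e (s, y)) i r = e (r, y) := by
      intro r
      rw [heval, heval]
      simp
    have h3 : (e (s, y)) i = s := by rw [heval]; simp
    simp only [h2, h3] at h1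
    exact h1
  have hcont_e : Continuous fun p : ℝ × (Fin 2 → ℝ) => e p := by
    have : (fun p : ℝ × (Fin 2 → ℝ) => e p) = fun p => i.insertNth p.1 p.2 := by
      ext p : 1
      exact heval p.1 p.2
    rw [this]
    exact Continuous.finInsertNth i continuous_fst continuous_snd
  have hint : IntegrableOn (fun p : ℝ × (Fin 2 → ℝ) => g' (e p))
      ((Icc (0 : ℝ) 1) ×ˢ (Icc (0 : Fin 2 → ℝ) 1)) (volume.prod volume) := by
    refine ContinuousOn.integrableOn_compact (isCompact_Icc.prod isCompact_Icc) ?_
    exact (hg'.comp hcont_e).continuousOn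
  calc ∫ x in cube, g' x = ∫ p in e ⁻¹' cube, g' (e p) := by
        rw [he.setIntegral_preimage_emb e.measurableEmbedding]
    _ = ∫ p in (Icc (0 : ℝ) 1) ×ˢ (Icc (0 : Fin 2 → ℝ) 1), g' (e p) ∂(volume.prod volume) := by
        rw [hpre]; rfl
    _ = ∫ y in Icc (0 : Fin 2 → ℝ) 1, ∫ s in Icc (0 : ℝ) 1, g' (e (s, y)) := by
        have hint' := hint
        rw [IntegrableOn, ← Measure.prod_restrict] at hint'
        rw [← Measure.prod_restrict]
        exact integral_prod_symm _ hint'
    _ = 0 := by
        refine setIntegral_eq_zero_of_forall_eq_zero fun y _ => ?_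
        rw [integral_Icc_eq_integral_Ioc, ← intervalIntegral.integral_of_le zero_le_one]
        rw [intervalIntegral.integral_eq_sub_of_hasDerivAt (fun s _ => hderiv y s)]
        · have h2 := hper (e (0, y))
          have h3 : Function.update (e (0, y)) i ((e (0, y)) i + 1) = e (1, y) := by
            rw [heval, heval]
            simp
          rw [h3] at h2
          rw [h2, sub_self]
        · refine Continuous.intervalIntegrable ?_ _ _
          exact hg'.comp (hcont_e.comp (by fun_prop))

lemma periodic_update {α : Type*} {g : V3 → α} (h : Periodic3 g) (i : Fin 3) (x : V3) :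
    g (Function.update x i (x i + 1)) = g x := by
  have := h x (Pi.single i 1)
  rw [← this]
  congr 1
  ext j
  by_cases hj : j = i
  · subst hj; simp
  · simp [Function.update_of_ne hj, Pi.single_eq_of_ne hj]

/-- continuity in space at a fixed time -/
lemma cont_space {α : Type*} [TopologicalSpace α] {T : ℝ} {F : ℝ → V3 → α}
    (h : ContinuousOn (fun z : ℝ × V3 => F z.1 z.2) (Icc 0 T ×ˢ univ)) {t : ℝ}
    (ht : t ∈ Icc 0 T) : Continuous (F t) := by
  have h1 : ContinuousOn (fun x : V3 => ((t, x) : ℝ × V3)) univ := by fun_prop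
  have h2 := h.comp h1 (fun x _ => ⟨ht, mem_univ _⟩)
  rw [continuousOn_univ] at h2
  exact h2

/-- continuity in time of a parameter integral over the cube -/
lemma continuousOn_integral {T : ℝ} {F : ℝ → V3 → ℝ}
    (h : ContinuousOn (fun z : ℝ × V3 => F z.1 z.2) (Icc 0 T ×ˢ univ)) :
    ContinuousOn (fun t => ∫ x in cube, F t x) (Icc 0 T) := by
  rw [continuousOn_iff_continuous_domRestrict]
  have hF : Continuous (Function.uncurry fun (t : Icc (0 : ℝ) T) (x : V3) => F t x) := by
    have h1 : Continuous fun z : (Icc (0 : ℝ) T) × V3 => (((z.1 : ℝ), z.2) : ℝ × V3) := by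
      fun_prop
    have := h.comp_continuous h1 (fun z => ⟨z.1.2, mem_univ _⟩)
    exact this
  exact continuous_parametric_integral_of_continuous hF isCompact_Icc

/-- differentiation of a parameter integral over the cube -/
lemma hasDerivAt_integral {T : ℝ} {F F' : ℝ → V3 → ℝ}
    (h : ContinuousOn (fun z : ℝ × V3 => F z.1 z.2) (Icc 0 T ×ˢ univ))
    (h' : ContinuousOn (fun z : ℝ × V3 => F' z.1 z.2) (Icc 0 T ×ˢ univ))
    (hd : ∀ t ∈ Icc 0 T, ∀ x, HasDerivWithinAt (fun s => F s x) (F' t x) (Icc 0 T) t)
    {t : ℝ} (ht : t ∈ Ioo 0 T) :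
    HasDerivAt (fun t => ∫ x in cube, F t x) (∫ x in cube, F' t x) t := by
  have hcomp : IsCompact ((Icc (0 : ℝ) T) ×ˢ cube) := isCompact_Icc.prod isCompact_Icc
  obtain ⟨B, hB⟩ := hcomp.exists_bound_of_continuousOn
    (h'.mono (prod_mono_right (subset_univ cube)))
  have hIoo : Ioo (0 : ℝ) T ∈ 𝓝 t := Ioo_mem_nhds ht.1 ht.2
  have htI : t ∈ Icc 0 T := Ioo_subset_Icc_self ht
  refine (hasDerivAt_integral_of_dominated_loc_of_deriv_le (μ := volume.restrict cube)
    (F := F) (F' := F') (bound := fun _ => B) hIoo ?_ ?_ ?_ ?_ ?_ ?_).2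
  · filter_upwards [hIoo] with s hs
    exact (cont_space h (Ioo_subset_Icc_self hs)).aestronglyMeasurable
  · exact (cont_space h htI).continuousOn.integrableOn_compact isCompact_Icc
  · exact (cont_space h' htI).aestronglyMeasurable
  · filter_upwards [ae_restrict_mem measurableSet_Icc] with x hx s hs
    exact hB (s, x) ⟨Ioo_subset_Icc_self hs, hx⟩
  · exact (continuousOn_const (c := B)).integrableOn_compact isCompact_Icc
  · refine Eventually.of_forall fun x s hs => ?_
    exact (hd s (Ioo_subset_Icc_self hs) x).hasDerivAt (Icc_mem_nhds hs.1 hs.2)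

/-- The pointwise algebraic identity behind the energy estimate, and the resulting bound. -/
lemma pointwise (ν M : ℝ) (hν : 0 < ν) (U V W : Fin 3 → ℝ) (wt : Fin 3 → ℝ)
    (DU DV DW : Fin 3 → Fin 3 → ℝ) (DDW : Fin 3 → Fin 3 → ℝ) (r : ℝ) (Dr : Fin 3 → ℝ)
    (hW : ∀ i, W i = U i - V i) (hDW : ∀ j i, DW j i = DU j i - DV j i)
    (heq : ∀ i, wt i = - (∑ j, U j * DU j i - ∑ j, V j * DV j i) - Dr i
      + ν * ∑ j, DDW j i)
    (hdivU : ∑ j, DU j j = 0) (hdivV : ∑ j, DV j j = 0)
    (hM : ∀ j i, |DV j i| ≤ M) :
    ∑ i, W i * wt i ≤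
      - (∑ j, (DU j j * (∑ i, W i ^ 2) / 2 + U j * (∑ i, W i * DW j i)
          + DW j j * r + W j * Dr j
          - ν * ∑ i, (DW j i ^ 2 + W i * DDW j i)))
      + 3 * M * ∑ i, W i ^ 2 := by
  have key : ∑ i, W i * wt i =
      - (∑ j, (DU j j * (∑ i, W i ^ 2) / 2 + U j * (∑ i, W i * DW j i)
          + DW j j * r + W j * Dr j
          - ν * ∑ i, (DW j i ^ 2 + W i * DDW j i)))
      + (∑ j, DU j j) * ((∑ i, W i ^ 2) / 2) + (∑ j, DU j j - ∑ j, DV j j) * r
      - ν * ∑ j, ∑ i, DW j i ^ 2
      - ∑ i, ∑ j, W i * W j * DV j i := by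
    simp only [heq, hDW, hW, Fin.sum_univ_three]
    ring
  have h1 : 0 ≤ ν * ∑ j, ∑ i, DW j i ^ 2 := by positivity
  have h2 : - ∑ i, ∑ j, W i * W j * DV j i ≤ 3 * M * ∑ i, W i ^ 2 := by
    have h3 : ∀ i j, - (W i * W j * DV j i) ≤ M * ((W i ^ 2 + W j ^ 2) / 2) := by
      intro i j
      have hM0 : 0 ≤ M := (abs_nonneg _).trans (hM j i)
      calc - (W i * W j * DV j i) ≤ |W i * W j * DV j i| := neg_le_abs _
        _ = |W i| * |W j| * |DV j i| := by rw [abs_mul, abs_mul]
        _ ≤ |W i| * |W j| * M := by
            exact mul_le_mul_of_nonneg_left (hM j i) (by positivity)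
        _ ≤ ((W i ^ 2 + W j ^ 2) / 2) * M := by
            refine mul_le_mul_of_nonneg_right ?_ hM0
            nlinarith [sq_nonneg (|W i| - |W j|), sq_abs (W i), sq_abs (W j)]
        _ = M * ((W i ^ 2 + W j ^ 2) / 2) := by ring
    calc - ∑ i, ∑ j, W i * W j * DV j i = ∑ i, ∑ j, - (W i * W j * DV j i) := by
          simp only [Finset.sum_neg_distrib]
      _ ≤ ∑ i : Fin 3, ∑ j : Fin 3, M * ((W i ^ 2 + W j ^ 2) / 2) :=
          Finset.sum_le_sum fun i _ => Finset.sum_le_sum fun j _ => h3 i j
      _ = 3 * M * ∑ i, W i ^ 2 := by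
          simp only [Fin.sum_univ_three]
          ring
  rw [key, hdivU, hdivV]
  linarith

/-- a nonnegative continuous function with zero integral over the cube vanishes on the cube -/
lemma eq_zero_of_integral_eq_zero {g : V3 → ℝ} (hg : Continuous g) (h0 : ∀ x, 0 ≤ g x)
    (hi : ∫ x in cube, g x = 0) : ∀ x ∈ cube, g x = 0 := by
  have hint : IntegrableOn g cube := hg.continuousOn.integrableOn_compact isCompact_Icc
  have h1 : g =ᵐ[volume.restrict cube] 0 :=
    (setIntegral_eq_zero_iff_of_nonneg_ae (Eventually.of_forall h0) hint).1 hi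
  have h2 : EqOn g 0 cube := by
    refine Measure.eqOn_of_ae_eq (μ := volume) h1 hg.continuousOn continuousOn_const ?_
    have h3 : cube = univ.pi fun _ : Fin 3 => Icc (0 : ℝ) 1 :=
      (pi_univ_Icc (0 : V3) 1).symm
    rw [h3, interior_pi_set finite_univ, closure_pi_set]
    refine pi_mono fun i _ => ?_
    rw [interior_Icc, closure_Ioo zero_ne_one]
  intro x hx
  exact h2 hx

/-- a periodic function is determined by its values on the cube -/
lemma exists_cube {α : Type*} {g : V3 → α} (h : Periodic3 g) (x : V3) :
    ∃ y ∈ cube, g x = g y := by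
  refine ⟨fun i => Int.fract (x i), ⟨fun i => Int.fract_nonneg _,
    fun i => (Int.fract_lt_one _).le⟩, ?_⟩
  have := h x (fun i => - ⌊x i⌋)
  rw [← this]
  congr 1
  ext i
  rw [Int.fract]
  push_cast
  ring

end Unique

open _root_.Vale.Agent.P113.Unique in
theorem classical_unique {ν T : ℝ} (hν : 0 < ν) (hT : 0 < T) {f u v : ℝ → V3 → V3}
    {p q : ℝ → V3 → ℝ} (hu : IsClassicalSolution ν f T u p)
    (hv : IsClassicalSolution ν f T v q) :
    ∀ t ∈ Set.Icc 0 T, ∀ x, v t x = u t x ∧ q t x = p t x := by
  obtain ⟨ut, du, ddu, dp, cut, cdu, cddu, cdp, Hu⟩ := hu.equations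
  obtain ⟨vt, dv, ddv, dq, cvt, cdv, cddv, cdq, Hv⟩ := hv.equations
  -- a bound for the gradient of `v`
  have hcomp : IsCompact ((Icc (0 : ℝ) T) ×ˢ cube) := isCompact_Icc.prod isCompact_Icc
  have hMex : ∃ M : ℝ, ∀ t ∈ Icc 0 T, ∀ x ∈ cube, ∀ j i, |dv j t x i| ≤ M := by
    have : ∀ j, ∃ M : ℝ, ∀ z ∈ (Icc (0 : ℝ) T) ×ˢ cube, ‖dv j z.1 z.2‖ ≤ M := fun j =>
      hcomp.exists_bound_of_continuousOn ((cdv j).mono (prod_mono_right (subset_univ cube)))
    choose M hM using this
    refine ⟨∑ j, |M j|, fun t ht x hx j i => ?_⟩
    calc |dv j t x i| = ‖dv j t x i‖ := rfl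
      _ ≤ ‖dv j t x‖ := norm_le_pi_norm _ i
      _ ≤ M j := hM j (t, x) ⟨ht, hx⟩
      _ ≤ |M j| := le_abs_self _
      _ ≤ ∑ j, |M j| := Finset.single_le_sum (f := fun j => |M j|)
          (fun j _ => abs_nonneg _) (Finset.mem_univ j)
  obtain ⟨M, hM⟩ := hMex
  -- the energy and its formal derivative
  set F : ℝ → V3 → ℝ := fun t x => ∑ i, (u t x i - v t x i) ^ 2 with hF
  set F' : ℝ → V3 → ℝ := fun t x => ∑ i, 2 * (u t x i - v t x i) * (ut t x i - vt t x i) with hF'
  have cF : ContinuousOn (fun z : ℝ × V3 => F z.1 z.2) (Icc 0 T ×ˢ univ) := by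
    have h1 := hu.cont_u
    have h2 := hv.cont_u
    rw [continuousOn_pi] at h1 h2
    refine continuousOn_finsetSum _ fun i _ => ?_
    exact ((h1 i).sub (h2 i)).pow 2
  have cF' : ContinuousOn (fun z : ℝ × V3 => F' z.1 z.2) (Icc 0 T ×ˢ univ) := by
    have h1 := hu.cont_u
    have h2 := hv.cont_u
    rw [continuousOn_pi] at h1 h2 cut cvt
    refine continuousOn_finsetSum _ fun i _ => ?_
    exact (continuousOn_const.mul ((h1 i).sub (h2 i))).mul ((cut i).sub (cvt i))
  have dF : ∀ t ∈ Icc 0 T, ∀ x, HasDerivWithinAt (fun s => F s x) (F' t x) (Icc 0 T) t := by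
    intro t ht x
    have h1 := (Hu t ht x).1
    have h2 := (Hv t ht x).1
    rw [hasDerivWithinAt_pi] at h1 h2
    refine HasDerivWithinAt.fun_sum fun i _ => ?_
    have h3 := ((h1 i).sub (h2 i)).pow 2
    refine h3.congr_deriv ?_
    simp
  set E : ℝ → ℝ := fun t => ∫ x in cube, F t x with hE
  have cE : ContinuousOn E (Icc 0 T) := continuousOn_integral cF
  have dE : ∀ t ∈ Ioo 0 T, HasDerivAt E (∫ x in cube, F' t x) t := fun t ht =>
    hasDerivAt_integral cF cF' dF ht
  have E0 : E 0 = 0 := by
    simp only [hE, hF]
    have : ∀ x : V3, ∑ i, (u 0 x i - v 0 x i) ^ 2 = 0 := by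
      intro x
      rw [hu.initial x, hv.initial x]; simp
    simp [this]
  have Enn : ∀ t, 0 ≤ E t := fun t =>
    setIntegral_nonneg measurableSet_Icc fun x _ => Finset.sum_nonneg fun i _ => sq_nonneg _
  -- the energy inequality
  have hEineq : ∀ t ∈ Ioo 0 T, ∫ x in cube, F' t x ≤ 6 * M * E t := by
    intro t ht
    have htI : t ∈ Icc 0 T := Ioo_subset_Icc_self ht
    -- spatial continuity at time `t`
    have ku : ∀ i, Continuous fun x => u t x i := fun i =>
      (continuous_apply i).comp (cont_space hu.cont_u htI)
    have kv : ∀ i, Continuous fun x => v t x i := fun i =>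
      (continuous_apply i).comp (cont_space hv.cont_u htI)
    have kdu : ∀ j i, Continuous fun x => du j t x i := fun j i =>
      (continuous_apply i).comp (cont_space (cdu j) htI)
    have kdv : ∀ j i, Continuous fun x => dv j t x i := fun j i =>
      (continuous_apply i).comp (cont_space (cdv j) htI)
    have kddu : ∀ j k i, Continuous fun x => ddu j k t x i := fun j k i =>
      (continuous_apply i).comp (cont_space (cddu j k) htI)
    have kddv : ∀ j k i, Continuous fun x => ddv j k t x i := fun j k i =>
      (continuous_apply i).comp (cont_space (cddv j k) htI)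
    have kp : Continuous fun x => p t x := cont_space hu.cont_p htI
    have kq : Continuous fun x => q t x := cont_space hv.cont_p htI
    have kdp : ∀ j, Continuous fun x => dp j t x := fun j => cont_space (cdp j) htI
    have kdq : ∀ j, Continuous fun x => dq j t x := fun j => cont_space (cdq j) htI
    set G : Fin 3 → V3 → ℝ := fun j x =>
      u t x j * (∑ i, (u t x i - v t x i) ^ 2) / 2 + (u t x j - v t x j) * (p t x - q t x)
        - ν * ∑ i, (u t x i - v t x i) * (du j t x i - dv j t x i) with hG
    set G' : Fin 3 → V3 → ℝ := fun j x =>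
      du j t x j * (∑ i, (u t x i - v t x i) ^ 2) / 2
        + u t x j * (∑ i, (u t x i - v t x i) * (du j t x i - dv j t x i))
        + (du j t x j - dv j t x j) * (p t x - q t x)
        + (u t x j - v t x j) * (dp j t x - dq j t x)
        - ν * ∑ i, ((du j t x i - dv j t x i) ^ 2
            + (u t x i - v t x i) * (ddu j j t x i - ddv j j t x i)) with hG'
    have kG' : ∀ j, Continuous (G' j) := by
      intro j
      simp only [hG']
      fun_prop
    have kF : Continuous (F t) := cont_space cF htI
    have kF' : Continuous (F' t) := cont_space cF' htI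
    have dG : ∀ j x, HasDerivAt (fun s : ℝ => G j (Function.update x j s)) (G' j x) (x j) := by
      intro j x
      obtain ⟨-, hu1, hu2, hu3, -, -⟩ := Hu t htI x
      obtain ⟨-, hv1, hv2, hv3, -, -⟩ := Hv t htI x
      have a1 : ∀ i, HasDerivAt (fun s => u t (Function.update x j s) i) (du j t x i) (x j) :=
        fun i => (hasDerivAt_pi.1 (hu1 j)) i
      have a2 : ∀ i, HasDerivAt (fun s => v t (Function.update x j s) i) (dv j t x i) (x j) :=
        fun i => (hasDerivAt_pi.1 (hv1 j)) i
      have a3 : ∀ i, HasDerivAt (fun s => du j t (Function.update x j s) i)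
          (ddu j j t x i) (x j) := fun i => (hasDerivAt_pi.1 (hu2 j j)) i
      have a4 : ∀ i, HasDerivAt (fun s => dv j t (Function.update x j s) i)
          (ddv j j t x i) (x j) := fun i => (hasDerivAt_pi.1 (hv2 j j)) i
      have b1 : HasDerivAt (fun s => ∑ i, (u t (Function.update x j s) i
          - v t (Function.update x j s) i) ^ 2)
          (∑ i, 2 * (u t x i - v t x i) * (du j t x i - dv j t x i)) (x j) := by
        refine HasDerivAt.fun_sum fun i _ => ?_
        refine (((a1 i).sub (a2 i)).pow 2).congr_deriv ?_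
        simp
      have b2 : HasDerivAt (fun s => ∑ i, (u t (Function.update x j s) i
          - v t (Function.update x j s) i) * (du j t (Function.update x j s) i
          - dv j t (Function.update x j s) i))
          (∑ i, ((du j t x i - dv j t x i) ^ 2
            + (u t x i - v t x i) * (ddu j j t x i - ddv j j t x i))) (x j) := by
        refine HasDerivAt.fun_sum fun i _ => ?_
        refine (((a1 i).sub (a2 i)).mul ((a3 i).sub (a4 i))).congr_deriv ?_
        simp
        ring
      have c1 := ((a1 j).mul b1).div_const 2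
      have c2 := ((a1 j).sub (a2 j)).mul ((hu3 j).sub (hv3 j))
      have c3 := b2.const_mul ν
      have c4 := (c1.add c2).sub c3
      refine c4.congr_deriv ?_
      simp only [Function.update_eq_self, Pi.sub_apply, hG']
      have e1 : ∑ i, 2 * (u t x i - v t x i) * (du j t x i - dv j t x i)
          = 2 * ∑ i, (u t x i - v t x i) * (du j t x i - dv j t x i) := by
        rw [Finset.mul_sum]
        exact Finset.sum_congr rfl fun i _ => by ring
      rw [e1]
      ring
    have pG : ∀ j x, G j (Function.update x j (x j + 1)) = G j x := by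
      intro j x
      have hpu : u t (Function.update x j (x j + 1)) = u t x :=
        periodic_update (hu.periodic_u t htI) j x
      have hpv : v t (Function.update x j (x j + 1)) = v t x :=
        periodic_update (hv.periodic_u t htI) j x
      have hpp : p t (Function.update x j (x j + 1)) = p t x :=
        periodic_update (hu.periodic_p t htI) j x
      have hpq : q t (Function.update x j (x j + 1)) = q t x :=
        periodic_update (hv.periodic_p t htI) j x
      -- the derivatives are periodic as well
      have hdper : ∀ (g : V3 → V3) (dg : V3 → V3), Periodic3 g →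
          (∀ x, HasDerivAt (fun s => g (Function.update x j s)) (dg x) (x j)) →
          dg (Function.update x j (x j + 1)) = dg x := by
        intro g dg hg hdg
        have h1 := hdg (Function.update x j (x j + 1))
        simp only [Function.update_idem, Function.update_self] at h1
        have h2 : HasDerivAt (fun s => g (Function.update x j (s + 1))) 
            (dg (Function.update x j (x j + 1))) (x j) := by
          have h3 : HasDerivAt (fun s : ℝ => s + 1) 1 (x j) := (hasDerivAt_id _).add_const 1
          have := HasDerivAt.scomp (x j) h1 h3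
          simpa [Function.comp_def] using this
        have h4 : (fun s => g (Function.update x j (s + 1))) 
            = fun s => g (Function.update x j s) := by
          ext1 s
          have := periodic_update hg j (Function.update x j s)
          simpa using this
        rw [h4] at h2
        exact h2.unique (hdg x)
      have hpdu : du j t (Function.update x j (x j + 1)) = du j t x :=
        hdper (u t) (du j t) (hu.periodic_u t htI) fun x => (Hu t htI x).2.1 j
      have hpdv : dv j t (Function.update x j (x j + 1)) = dv j t x :=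
        hdper (v t) (dv j t) (hv.periodic_u t htI) fun x => (Hv t htI x).2.1 j
      simp only [hG, hpu, hpv, hpp, hpq, hpdu, hpdv]
    have iG : ∀ j, ∫ x in cube, G' j x = 0 := fun j =>
      integral_partial_eq_zero j (G j) (G' j) (dG j) (kG' j) (pG j)
    have hpt : ∀ x ∈ cube, F' t x ≤ - 2 * (∑ j, G' j x) + 6 * M * F t x := by
      intro x hx
      obtain ⟨-, -, -, -, hu5, hu6⟩ := Hu t htI x
      obtain ⟨-, -, -, -, hv5, hv6⟩ := Hv t htI x
      have := pointwise ν M hν (u t x) (v t x) (fun i => u t x i - v t x i)
        (fun i => ut t x i - vt t x i) (fun j i => du j t x i) (fun j i => dv j t x i)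
        (fun j i => du j t x i - dv j t x i) (fun j i => ddu j j t x i - ddv j j t x i)
        (p t x - q t x) (fun j => dp j t x - dq j t x) (fun _ => rfl) (fun _ _ => rfl)
        ?_ hu6 hv6 (hM t htI x hx)
      · simp only [hF, hF', hG']
        have e1 : ∑ i, 2 * (u t x i - v t x i) * (ut t x i - vt t x i)
            = 2 * ∑ i, (u t x i - v t x i) * (ut t x i - vt t x i) := by
          rw [Finset.mul_sum]
          exact Finset.sum_congr rfl fun i _ => by ring
        rw [e1]
        linarith
      · intro i
        have h1 := hu5 i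
        have h2 := hv5 i
        have e1 : ∑ j, (ddu j j t x i - ddv j j t x i)
            = ∑ j, ddu j j t x i - ∑ j, ddv j j t x i := Finset.sum_sub_distrib _ _
        simp only [e1]
        linarith
    have ksum : Continuous fun x => - 2 * (∑ j, G' j x) := by fun_prop
    calc ∫ x in cube, F' t x ≤ ∫ x in cube, (- 2 * (∑ j, G' j x) + 6 * M * F t x) := by
          refine setIntegral_mono_on ?_ ?_ measurableSet_Icc hpt
          · exact kF'.continuousOn.integrableOn_compact isCompact_Icc
          · exact (ksum.add (continuous_const.mul kF)).continuousOn.integrableOn_compact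
              isCompact_Icc
      _ = (∫ x in cube, - 2 * (∑ j, G' j x)) + ∫ x in cube, 6 * M * F t x := by
          refine integral_add ?_ ?_
          · exact ksum.continuousOn.integrableOn_compact isCompact_Icc
          · exact (continuous_const.mul kF).continuousOn.integrableOn_compact isCompact_Icc
      _ = 6 * M * E t := by
          rw [integral_const_mul, integral_const_mul, integral_finsetSum]
          · simp [iG, hE]
          · exact fun j _ => (kG' j).continuousOn.integrableOn_compact isCompact_Icc
  -- Gronwall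
  have hEzero : ∀ t ∈ Icc 0 T, E t = 0 := by
    intro t ht
    have hanti : AntitoneOn (fun t => Real.exp (-(6 * M) * t) * E t) (Icc 0 T) := by
      refine antitoneOn_of_deriv_nonpos (convex_Icc 0 T) ?_ ?_ ?_
      · exact (by fun_prop : Continuous fun t : ℝ => Real.exp (-(6 * M) * t)).continuousOn.mul cE
      · rw [interior_Icc]
        intro s hs
        have h1 : HasDerivAt (fun t : ℝ => Real.exp (-(6 * M) * t))
            (Real.exp (-(6 * M) * s) * (-(6 * M) * 1)) s :=
          ((hasDerivAt_id s).const_mul (-(6 * M))).exp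
        exact (h1.mul (dE s hs)).differentiableAt.differentiableWithinAt
      · rw [interior_Icc]
        intro s hs
        have h1 : HasDerivAt (fun t : ℝ => Real.exp (-(6 * M) * t))
            (Real.exp (-(6 * M) * s) * (-(6 * M) * 1)) s :=
          ((hasDerivAt_id s).const_mul (-(6 * M))).exp
        have h2 := (h1.mul (dE s hs)).deriv
        rw [show (fun t => Real.exp (-(6 * M) * t) * E t)
          = (fun t : ℝ => Real.exp (-(6 * M) * t)) * E from rfl, h2]
        have h3 := hEineq s hs
        have h4 := Real.exp_pos (-(6 * M) * s)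
        nlinarith [mul_le_mul_of_nonneg_left h3 h4.le]
    have h1 := hanti (left_mem_Icc.2 hT.le) ht ht.1
    simp only [E0, mul_zero] at h1
    have h2 := Real.exp_pos (-(6 * M) * t)
    have h3 := Enn t
    by_contra hne
    have h4 : 0 < E t := lt_of_le_of_ne h3 (Ne.symm hne)
    have := mul_pos h2 h4
    linarith
  -- velocities agree
  have huv : ∀ t ∈ Icc 0 T, ∀ x, u t x = v t x := by
    intro t ht x
    have h1 := eq_zero_of_integral_eq_zero (cont_space cF ht)
      (fun x => Finset.sum_nonneg fun i _ => sq_nonneg _) (hEzero t ht)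
    have hper : Periodic3 fun x => u t x - v t x := by
      intro y n
      have h2 := hu.periodic_u t ht y n
      have h3 := hv.periodic_u t ht y n
      simp only [h2, h3]
    obtain ⟨y, hy, hxy⟩ := exists_cube hper x
    have h4 := h1 y hy
    simp only [hF] at h4
    rw [Finset.sum_eq_zero_iff_of_nonneg (fun i _ => sq_nonneg _)] at h4
    have h5 : u t y - v t y = 0 := by
      ext i
      have := h4 i (Finset.mem_univ i)
      simpa using this
    have h6 : u t x - v t x = 0 := hxy.trans h5
    exact sub_eq_zero.1 h6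
  intro t ht x
  refine ⟨(huv t ht x).symm, ?_⟩
  -- all derivatives agree
  have hdu : ∀ j, ∀ s ∈ Icc 0 T, ∀ y, du j s y = dv j s y := by
    intro j s hs y
    have h1 := (Hu s hs y).2.1 j
    have h2 := (Hv s hs y).2.1 j
    have h3 : (fun r => u s (Function.update y j r)) = fun r => v s (Function.update y j r) := by
      ext1 r; exact huv s hs _
    rw [h3] at h1
    exact h1.unique h2
  have hddu : ∀ j k, ∀ s ∈ Icc 0 T, ∀ y, ddu j k s y = ddv j k s y := by
    intro j k s hs y
    have h1 := (Hu s hs y).2.2.1 j k
    have h2 := (Hv s hs y).2.2.1 j k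
    have h3 : (fun r => du j s (Function.update y k r))
        = fun r => dv j s (Function.update y k r) := by
      ext1 r; exact hdu j s hs _
    rw [h3] at h1
    exact h1.unique h2
  have hut : ∀ s ∈ Icc 0 T, ∀ y, ut s y = vt s y := by
    intro s hs y
    have h1 := (Hu s hs y).1
    have h2 := (Hv s hs y).1
    have h3 : HasDerivWithinAt (fun r => v r y) (ut s y) (Icc 0 T) s :=
      h1.congr (fun r hr => (huv r hr y).symm) (huv s hs y).symm
    exact (uniqueDiffOn_Icc hT s hs).eq_deriv _ h3 h2
  have hdp : ∀ j y, dp j t y = dq j t y := by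
    intro j y
    have h1 := (Hu t ht y).2.2.2.2.1 j
    have h2 := (Hv t ht y).2.2.2.2.1 j
    simp only [huv t ht, hut t ht, hdu _ t ht, hddu _ _ t ht] at h1
    linarith
  -- the difference of the pressures is constant in space
  set r : V3 → ℝ := fun y => p t y - q t y with hr
  have hconst : ∀ j y s, r (Function.update y j s) = r y := by
    intro j y s
    have h1 : ∀ s, HasDerivAt (fun s => r (Function.update y j s)) 0 s := by
      intro s
      have h2 := (Hu t ht (Function.update y j s)).2.2.2.1 j
      have h3 := (Hv t ht (Function.update y j s)).2.2.2.1 j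
      simp only [Function.update_idem, Function.update_self] at h2 h3
      have h4 := h2.sub h3
      rw [hdp j, sub_self] at h4
      exact h4
    have h5 := is_const_of_deriv_eq_zero (fun s => (h1 s).differentiableAt)
      (fun s => (h1 s).deriv) s (y j)
    simpa using h5
  have hr0 : ∀ y, r y = r 0 := by
    intro y
    have h1 : y = Function.update (Function.update (Function.update (0 : V3) 0 (y 0)) 1 (y 1))
        2 (y 2) := by
      ext i
      fin_cases i <;> simp
    rw [h1, hconst, hconst, hconst]
  have hint : ∫ y in cube, r y = 0 := by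
    have h1 := hu.mean_zero t ht
    have h2 := hv.mean_zero t ht
    simp only [hr]
    rw [integral_sub]
    · rw [h1, h2, sub_zero]
    · exact (cont_space hu.cont_p ht).continuousOn.integrableOn_compact isCompact_Icc
    · exact (cont_space hv.cont_p ht).continuousOn.integrableOn_compact isCompact_Icc
  have hvol : (volume : Measure V3).real cube = 1 := by
    rw [measureReal_def, Real.volume_Icc_pi]
    simp
  simp only [hr0] at hint
  rw [setIntegral_const, hvol, one_smul] at hint
  have := hr0 x
  rw [hint] at this
  simp only [hr] at this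
  linarith

end Vale.Agent.P113
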