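import Vale.Agent.Lib.P113.ShearComp
import Vale.Agent.Lib.P113.Unique

/-!
# Assembly
-/

open scoped ContDiff Topology
open Filter

namespace Vale.Agent.P113

theorem Simulates.good {M : Machine} {K : ℕ} {rules : List Rule} {hs : List ℕ}
    {ini : List (Fin (M.m + 1)) → List ℕ × List ℕ} (h : Simulates M K rules hs ini) :
    GoodRules K rules hs where
  pos := h.pos
  dig := fun r hr => h.digits_lt r hr
  hdig := h.halt_lt
  nodup := h.halt_nodup
  dom := h.dom_disjoint
  img := h.img_disjoint
  nh := by
    intro r hr d hd hc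
    obtain ⟨e, t, he, hne⟩ := h.not_halt r hr
    rw [he] at hc
    rcases hc with h1 | h1
    · have := (List.cons_prefix_cons.1 h1).1
      rw [this] at hne; exact hne hd
    · have := (List.cons_prefix_cons.1 h1).1
      rw [← this] at hne; exact hne hd

/-! ## Periodicity in time and dependence on the machine only -/

theorem shearSeq_period (K : ℕ) (rules : List Rule) (hs : List ℕ) (A B : List ℕ) {m : ℕ}
    (hm : 2 ≤ m) : shearSeq K rules hs A B (m + 8) = shearSeq K rules hs A B m := by
  unfold shearSeq
  rw [if_neg (by omega), if_neg (by omega), if_neg (by omega), if_neg (by omega)]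
  congr 1
  omega

theorem shearSeq_indep (K : ℕ) (rules : List Rule) (hs : List ℕ) (A B A' B' : List ℕ) {m : ℕ}
    (hm : 2 ≤ m) : shearSeq K rules hs A B m = shearSeq K rules hs A' B' m := by
  unfold shearSeq
  rw [if_neg (by omega), if_neg (by omega), if_neg (by omega), if_neg (by omega)]

theorem floor_add_eight {t : ℝ} (ht : 0 ≤ t) : ⌊t + 8⌋₊ = ⌊t⌋₊ + 8 := by
  have := Nat.floor_add_natCast ht 8
  exact_mod_cast this

theorem two_le_floor {t : ℝ} (ht : 2 ≤ t) : 2 ≤ ⌊t⌋₊ := Nat.le_floor (by exact_mod_cast ht)

theorem force_period (ν : ℝ) (K : ℕ) (rules : List Rule) (hs : List ℕ) (A B : List ℕ) {t : ℝ}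
    (ht : 2 ≤ t) (x : V3) :
    force ν (shearSeq K rules hs A B) (t + 8) x = force ν (shearSeq K rules hs A B) t x := by
  have h1 := floor_add_eight (t := t) (by linarith)
  have h2 : t + 8 - ((⌊t⌋₊ + 8 : ℕ) : ℝ) = t - (⌊t⌋₊ : ℝ) := by push_cast; ring
  unfold force
  rw [h1, shearSeq_period _ _ _ _ _ (two_le_floor ht), h2]

theorem velocity_period (K : ℕ) (rules : List Rule) (hs : List ℕ) (A B : List ℕ) {t : ℝ}
    (ht : 2 ≤ t) (x : V3) :
    velocity (shearSeq K rules hs A B) (t + 8) x = velocity (shearSeq K rules hs A B) t x := by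
  have h1 := floor_add_eight (t := t) (by linarith)
  have h2 : t + 8 - ((⌊t⌋₊ + 8 : ℕ) : ℝ) = t - (⌊t⌋₊ : ℝ) := by push_cast; ring
  unfold velocity
  rw [h1, shearSeq_period _ _ _ _ _ (two_le_floor ht), h2]

theorem force_indep (ν : ℝ) (K : ℕ) (rules : List Rule) (hs : List ℕ) (A B A' B' : List ℕ)
    {t : ℝ} (ht : 2 ≤ t) :
    force ν (shearSeq K rules hs A B) t = force ν (shearSeq K rules hs A' B') t := by
  funext x
  unfold force
  rw [shearSeq_indep _ _ _ _ _ A' B' (two_le_floor ht)]

theorem velocity_indep (K : ℕ) (rules : List Rule) (hs : List ℕ) (A B A' B' : List ℕ)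
    {t : ℝ} (ht : 2 ≤ t) :
    velocity (shearSeq K rules hs A B) t = velocity (shearSeq K rules hs A' B') t := by
  funext x
  unfold velocity
  rw [shearSeq_indep _ _ _ _ _ A' B' (two_le_floor ht)]

/-! ## The loading phase -/

theorem profileLap_constShear (d : Fin 3) (c : RatCode) (x : V3) :
    profileLap (constShear d c) x = 0 := by
  unfold profileLap
  apply Finset.sum_eq_zero
  intro j _
  have : (fun s => profile (constShear d c) (Function.update x j s)) = fun _ => ratVal c := by
    funext s; exact profile_constShear d c _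
  rw [this, iteratedDeriv_succ, iteratedDeriv_one]
  simp

/-- The time factor of the loading force. -/
noncomputable def loadProfile (t : ℝ) : V3 :=
  ![deriv (deriv theta) t, deriv (deriv theta) (t - 1), 0]

theorem ddtheta_zero_of_le {t : ℝ} (ht : t < 1 / 4) : deriv (deriv theta) t = 0 :=
  slotFun_ddtheta.1 t ht

theorem ddtheta_zero_of_ge {t : ℝ} (ht : 3 / 4 < t) : deriv (deriv theta) t = 0 :=
  slotFun_ddtheta.2 t ht

theorem force_load (ν : ℝ) (K : ℕ) (rules : List Rule) (hs : List ℕ) (A B : List ℕ) {t : ℝ}
    (ht : t ≤ 2) (x : V3) :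
    force ν (shearSeq K rules hs A B) t x =
      fun i => loadProfile t i * ![ratVal (encC K A), ratVal (encC K B), 0] i := by
  rcases lt_or_ge t 1 with h1 | h1
  · have hfl : ⌊t⌋₊ = 0 := Nat.floor_eq_zero.2 h1
    have e : shearSeq K rules hs A B 0 = constShear 0 (encC K A) := rfl
    unfold force
    rw [hfl, e, profile_constShear, profileLap_constShear]
    have h2 : deriv (deriv theta) (t - 1) = 0 := ddtheta_zero_of_le (by linarith)
    funext i
    fin_cases i <;> simp [constShear, loadProfile, h2]
  · rcases ht.lt_or_eq with h2 | h2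
    · have hfl : ⌊t⌋₊ = 1 := by
        rw [Nat.floor_eq_iff (by linarith)]
        push_cast
        constructor <;> linarith
      have e : shearSeq K rules hs A B 1 = constShear 1 (encC K B) := rfl
      unfold force
      rw [hfl, e, profile_constShear, profileLap_constShear]
      have h3 : deriv (deriv theta) t = 0 := ddtheta_zero_of_ge (by linarith)
      funext i
      fin_cases i <;> simp [constShear, loadProfile, h3]
    · subst h2
      have hfl : ⌊(2 : ℝ)⌋₊ = 2 := by norm_num
      unfold force
      rw [hfl]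
      have h3 : deriv (deriv theta) (2 - ((2 : ℕ) : ℝ)) = 0 :=
        ddtheta_zero_of_le (by norm_num)
      have h4 : deriv theta (2 - ((2 : ℕ) : ℝ)) = 0 := slotFun_dtheta.1 _ (by norm_num)
      have h5 : deriv (deriv theta) 2 = 0 := ddtheta_zero_of_ge (by norm_num)
      have h6 : deriv (deriv theta) (2 - 1) = 0 := ddtheta_zero_of_ge (by norm_num)
      rw [h3, h4]
      funext i
      fin_cases i <;> simp [loadProfile, h5, h6]

theorem velocity_two (K : ℕ) (rules : List Rule) (hs : List ℕ) (A B : List ℕ) (x : V3) :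
    velocity (shearSeq K rules hs A B) 2 x = 0 := by
  unfold velocity
  have hfl : ⌊(2 : ℝ)⌋₊ = 2 := by norm_num
  rw [hfl]
  have h4 : deriv theta (2 - ((2 : ℕ) : ℝ)) = 0 := slotFun_dtheta.1 _ (by norm_num)
  rw [h4]
  simp

theorem traj_two {K : ℕ} (rules : List Rule) (hs : List ℕ) (A B : List ℕ) :
    traj (shearSeq K rules hs A B) aStar 2 =
      fun i => aStar i + ![ratVal (encC K A), ratVal (encC K B), 0] i := by
  have h0 := traj_nat (shearSeq K rules hs A B) aStar 2
  have h0' : traj (shearSeq K rules hs A B) aStar 2 =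
      positions (shearSeq K rules hs A B) aStar 2 := by exact_mod_cast h0
  rw [h0']
  have e0 : shearSeq K rules hs A B 0 = constShear 0 (encC K A) := rfl
  have e1 : shearSeq K rules hs A B 1 = constShear 1 (encC K B) := rfl
  have p : positions (shearSeq K rules hs A B) aStar 2 =
      aStar + shearField (constShear 0 (encC K A)) aStar +
        shearField (constShear 1 (encC K B))
          (aStar + shearField (constShear 0 (encC K A)) aStar) := rfl
  rw [p]
  unfold shearField
  rw [profile_constShear, profile_constShear]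
  funext i
  fin_cases i <;> simp [constShear]

end Vale.Agent.P113
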