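import Vale.Agent.Lib.P113.CratBasic

/-!
# Closure properties of computable families of rational numbers (P113)
-/

namespace Vale.Agent.P113

variable {α β : Type*} [Primcodable α] [Primcodable β]

theorem CRat.intro {f : α → ℝ} (g : α → RatCode) (hg : Computable g)
    (h : ∀ a, f a = ratVal (g a)) : CRat f := ⟨g, hg, h⟩

theorem crat_ratVal {h : α → RatCode} (hh : Computable h) : CRat fun a => ratVal (h a) :=
  ⟨h, hh, fun _ => rfl⟩

theorem CRat.comp {f : β → ℝ} (hf : CRat f) {h : α → β} (hh : Computable h) :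
    CRat fun a => f (h a) := by
  obtain ⟨g, hg, e⟩ := hf
  exact ⟨fun a => g (h a), hg.comp hh, fun a => e (h a)⟩

theorem CRat.of_eq {f g : α → ℝ} (hf : CRat f) (h : ∀ a, f a = g a) : CRat g := by
  have : f = g := funext h
  rwa [← this]

theorem crat_natCast {n : α → ℕ} (hn : Computable n) : CRat fun a => (n a : ℝ) :=
  ⟨fun a => RC.ofNat (n a), RC.primrec_ofNat.to_comp.comp hn, fun _ => (RC.ratVal_ofNat _).symm⟩

theorem crat_nat (n : ℕ) : CRat fun _ : α => (n : ℝ) := crat_natCast (Computable.const n)

theorem crat_ofNat (n : ℕ) [n.AtLeastTwo] : CRat fun _ : α => (OfNat.ofNat n : ℝ) :=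
  (crat_nat n).of_eq fun _ => rfl

theorem crat_zero : CRat fun _ : α => (0 : ℝ) := (crat_nat 0).of_eq fun _ => by simp

theorem crat_one : CRat fun _ : α => (1 : ℝ) := (crat_nat 1).of_eq fun _ => by simp

theorem crat_const_ratVal (q : RatCode) : CRat fun _ : α => ratVal q :=
  crat_ratVal (Computable.const q)

theorem CRat.add {f g : α → ℝ} (hf : CRat f) (hg : CRat g) : CRat fun a => f a + g a := by
  obtain ⟨F, hF, eF⟩ := hf
  obtain ⟨G, hG, eG⟩ := hg
  exact CRat.intro (fun a => RC.add (F a) (G a)) (RC.primrec_add.to_comp.comp hF hG)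
    fun a => by rw [RC.ratVal_add, eF, eG]

theorem CRat.mul {f g : α → ℝ} (hf : CRat f) (hg : CRat g) : CRat fun a => f a * g a := by
  obtain ⟨F, hF, eF⟩ := hf
  obtain ⟨G, hG, eG⟩ := hg
  exact CRat.intro (fun a => RC.mul (F a) (G a)) (RC.primrec_mul.to_comp.comp hF hG)
    fun a => by rw [RC.ratVal_mul, eF, eG]

theorem CRat.neg {f : α → ℝ} (hf : CRat f) : CRat fun a => - f a := by
  obtain ⟨F, hF, eF⟩ := hf
  exact CRat.intro (fun a => RC.neg (F a)) (RC.primrec_neg.to_comp.comp hF)
    fun a => by rw [RC.ratVal_neg, eF]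

theorem CRat.sub {f g : α → ℝ} (hf : CRat f) (hg : CRat g) : CRat fun a => f a - g a :=
  (hf.add hg.neg).of_eq fun a => by ring

theorem CRat.inv {f : α → ℝ} (hf : CRat f) : CRat fun a => (f a)⁻¹ := by
  obtain ⟨F, hF, eF⟩ := hf
  exact CRat.intro (fun a => RC.inv (F a)) (RC.primrec_inv.to_comp.comp hF)
    fun a => by rw [RC.ratVal_inv, eF]

theorem CRat.div {f g : α → ℝ} (hf : CRat f) (hg : CRat g) : CRat fun a => f a / g a :=
  (hf.mul hg.inv).of_eq fun a => by rw [div_eq_mul_inv]

theorem CRat.fract {f : α → ℝ} (hf : CRat f) : CRat fun a => Int.fract (f a) := by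
  obtain ⟨F, hF, eF⟩ := hf
  exact CRat.intro (fun a => RC.fract (F a)) (RC.primrec_fract.to_comp.comp hF)
    fun a => by rw [RC.ratVal_fract, eF]

/-- Comparison of computable families of rationals, as a Boolean function. -/
theorem CRat.exists_le {f g : α → ℝ} (hf : CRat f) (hg : CRat g) :
    ∃ c : α → Bool, Computable c ∧ ∀ a, c a = true ↔ f a ≤ g a := by
  obtain ⟨F, hF, eF⟩ := hf
  obtain ⟨G, hG, eG⟩ := hg
  exact ⟨fun a => RC.le (F a) (G a), RC.primrec_le.to_comp.comp hF hG,
    fun a => by rw [RC.le_iff, eF, eG]⟩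

open Classical in
theorem CRat.decide_le {f g : α → ℝ} (hf : CRat f) (hg : CRat g) :
    Computable fun a => decide (f a ≤ g a) := by
  obtain ⟨c, hc, h⟩ := hf.exists_le hg
  refine hc.of_eq fun a => ?_
  by_cases hh : f a ≤ g a
  · simp [hh, (h a).2 hh]
  · have : c a = false := by
      by_contra h'
      exact hh ((h a).1 (by simpa using h'))
    simp [hh, this]

open Classical in
theorem CRat.decide_lt {f g : α → ℝ} (hf : CRat f) (hg : CRat g) :
    Computable fun a => decide (f a < g a) :=
  (computable_not (hg.decide_le hf)).of_eq fun a => by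
    by_cases h : g a ≤ f a
    · simp [h, not_lt.2 h]
    · simp [h, not_le.1 h]

open Classical in
theorem CRat.decide_eq {f g : α → ℝ} (hf : CRat f) (hg : CRat g) :
    Computable fun a => decide (f a = g a) :=
  (computable_and (hf.decide_le hg) (hg.decide_le hf)).of_eq fun a => by
    by_cases h : f a = g a
    · simp [h]
    · by_cases h1 : f a ≤ g a
      · by_cases h2 : g a ≤ f a
        · exact absurd (le_antisymm h1 h2) h
        · simp [h, h2]
      · simp [h, h1]

/-- Case distinction on a computable Boolean. -/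
theorem CRat.ite {c : α → Bool} (hc : Computable c) {f g : α → ℝ} (hf : CRat f) (hg : CRat g) :
    CRat fun a => if c a = true then f a else g a := by
  obtain ⟨F, hF, eF⟩ := hf
  obtain ⟨G, hG, eG⟩ := hg
  refine CRat.intro (fun a => if c a = true then F a else G a) (computable_ite hc hF hG) fun a => ?_
  by_cases h : c a = true <;> simp [h, eF, eG]

/-- Case distinction on a computably decidable proposition. -/
theorem CRat.ite_prop {p : α → Prop} [DecidablePred p] (hp : Computable fun a => decide (p a))
    {f g : α → ℝ} (hf : CRat f) (hg : CRat g) :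
    CRat fun a => if p a then f a else g a :=
  (CRat.ite hp hf hg).of_eq fun a => by by_cases h : p a <;> simp [h]

/-- Case distinction on an optional computable value. -/
theorem CRat.option_elim {h : α → Option β} (hh : Computable h) {f : α → ℝ} (hf : CRat f)
    {g : α × β → ℝ} (hg : CRat g) :
    CRat fun a => (h a).elim (f a) fun b => g (a, b) := by
  obtain ⟨F, hF, eF⟩ := hf
  obtain ⟨G, hG, eG⟩ := hg
  have hc : Computable fun a => (Option.casesOn (h a) (F a) fun b => G (a, b) : RatCode) :=
    Computable.option_casesOn (f := F) (g := fun a b => G (a, b)) hh hF hG.to₂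
  refine CRat.intro _ hc fun a => ?_
  cases h a with
  | none => simp [eF]
  | some b => simp [eG]

theorem CRat.abs {f : α → ℝ} (hf : CRat f) : CRat fun a => |f a| := by
  classical
  refine (CRat.ite_prop (hf.decide_le crat_zero) hf.neg hf).of_eq fun a => ?_
  split_ifs with h
  · rw [abs_of_nonpos h]
  · rw [abs_of_pos (not_le.1 h)]

theorem CRat.pow {f : α → ℝ} (hf : CRat f) {n : α → ℕ} (hn : Computable n) :
    CRat fun a => f a ^ n a := by
  obtain ⟨F, hF, eF⟩ := hf
  refine CRat.intro (fun a => Nat.rec (motive := fun _ => RatCode) (RC.ofNat 1)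
    (fun _ IH => RC.mul IH (F a)) (n a)) ?_ ?_
  · exact Computable.nat_rec (h := fun a p => RC.mul p.2 (F a)) hn
      (Computable.const (RC.ofNat 1))
      (RC.primrec_mul.to_comp.comp (Computable.snd.comp Computable.snd)
        (hF.comp Computable.fst)).to₂
  · intro a
    induction n a with
    | zero => simp [RC.ratVal_ofNat]
    | succ m ih =>
      rw [pow_succ, ih, RC.ratVal_mul, eF]

theorem CRat.sum_range {n : α → ℕ} (hn : Computable n) {f : α × ℕ → ℝ} (hf : CRat f) :
    CRat fun a => ∑ i ∈ Finset.range (n a), f (a, i) := by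
  obtain ⟨F, hF, eF⟩ := hf
  refine CRat.intro (fun a => Nat.rec (motive := fun _ => RatCode) (RC.ofNat 0)
    (fun i IH => RC.add IH (F (a, i))) (n a)) ?_ ?_
  · exact Computable.nat_rec (h := fun a p => RC.add p.2 (F (a, p.1))) hn
      (Computable.const (RC.ofNat 0))
      (RC.primrec_add.to_comp.comp (Computable.snd.comp Computable.snd)
        (hF.comp (Computable.pair Computable.fst (Computable.fst.comp Computable.snd)))).to₂
  · intro a
    induction n a with
    | zero => simp [RC.ratVal_ofNat]
    | succ m ih =>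
      rw [Finset.sum_range_succ, ih, RC.ratVal_add, eF]

/-- The natural floor of a computable rational is computable. -/
theorem CRat.natFloor {f : α → ℝ} (hf : CRat f) : Computable fun a => ⌊f a⌋₊ := by
  obtain ⟨F, hF, eF⟩ := hf
  have h : Computable fun a => ((F a).1 - (F a).2.1) / ((F a).2.2 + 1) :=
    computable_nat_div
      (computable_nat_sub (Computable.fst.comp hF) (Computable.fst.comp (Computable.snd.comp hF)))
      (computable_nat_succ (Computable.snd.comp (Computable.snd.comp hF)))
  refine h.of_eq fun a => ?_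
  rw [eF]
  set p := F a
  simp only [ratVal]
  rcases le_or_gt p.2.1 p.1 with hle | hlt
  · have : ((p.1 : ℝ) - p.2.1) / (p.2.2 + 1) = ((p.1 - p.2.1 : ℕ) : ℝ) / ((p.2.2 + 1 : ℕ) : ℝ) := by
      rw [Nat.cast_sub hle]
      push_cast
      ring
    rw [this, Nat.floor_div_natCast, Nat.floor_natCast]
  · have h1 : p.1 - p.2.1 = 0 := by omega
    rw [h1, Nat.zero_div, eq_comm, Nat.floor_eq_zero]
    have h2 : (p.1 : ℝ) < p.2.1 := by exact_mod_cast hlt
    have h3 : (0 : ℝ) < (p.2.2 : ℝ) + 1 := by positivity
    have : ((p.1 : ℝ) - p.2.1) / (p.2.2 + 1) ≤ 0 :=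
      div_nonpos_of_nonpos_of_nonneg (by linarith) h3.le
    linarith

/-- A computable natural number above the absolute value. -/
theorem CRat.exists_bound {f : α → ℝ} (hf : CRat f) :
    ∃ B : α → ℕ, Computable B ∧ ∀ a, |f a| ≤ B a := by
  obtain ⟨F, hF, eF⟩ := hf
  exact ⟨fun a => (F a).1 + (F a).2.1,
    computable_nat_add (Computable.fst.comp hF) (Computable.fst.comp (Computable.snd.comp hF)),
    fun a => by rw [eF]; exact RC.abs_ratVal_le _⟩

end Vale.Agent.P113
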