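import Vale.Agent.Lib.P113.Iface

/-!
# Computable families of rational numbers (P113)
-/

namespace Vale.Agent.P113

/-! ## Arithmetic on codes of rational numbers -/

namespace RC

def add (p q : RatCode) : RatCode :=
  (p.1 * (q.2.2 + 1) + q.1 * (p.2.2 + 1), p.2.1 * (q.2.2 + 1) + q.2.1 * (p.2.2 + 1),
    p.2.2 * q.2.2 + p.2.2 + q.2.2)

def neg (p : RatCode) : RatCode := (p.2.1, p.1, p.2.2)

def mul (p q : RatCode) : RatCode :=
  (p.1 * q.1 + p.2.1 * q.2.1, p.1 * q.2.1 + p.2.1 * q.1, p.2.2 * q.2.2 + p.2.2 + q.2.2)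

def inv (p : RatCode) : RatCode :=
  if p.2.1 < p.1 then (p.2.2 + 1, 0, p.1 - p.2.1 - 1)
  else if p.1 < p.2.1 then (0, p.2.2 + 1, p.2.1 - p.1 - 1)
  else (0, 0, 0)

def ofNat (n : ℕ) : RatCode := (n, 0, 0)

def fract (p : RatCode) : RatCode := ((p.1 + p.2.1 * p.2.2) % (p.2.2 + 1), 0, p.2.2)

def le (p q : RatCode) : Bool :=
  decide (p.1 * (q.2.2 + 1) + q.2.1 * (p.2.2 + 1) ≤ q.1 * (p.2.2 + 1) + p.2.1 * (q.2.2 + 1))

theorem ratVal_add (p q : RatCode) : ratVal (add p q) = ratVal p + ratVal q := by
  have h1 : (p.2.2 : ℝ) + 1 ≠ 0 := by positivity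
  have h2 : (q.2.2 : ℝ) + 1 ≠ 0 := by positivity
  have h3 : (p.2.2 : ℝ) * q.2.2 + p.2.2 + q.2.2 + 1 = ((p.2.2 : ℝ) + 1) * (q.2.2 + 1) := by ring
  simp only [ratVal, add]
  push_cast
  rw [h3]
  field_simp
  ring

theorem ratVal_neg (p : RatCode) : ratVal (neg p) = - ratVal p := by
  simp only [ratVal, neg]
  ring

theorem ratVal_mul (p q : RatCode) : ratVal (mul p q) = ratVal p * ratVal q := by
  have h1 : (p.2.2 : ℝ) + 1 ≠ 0 := by positivity
  have h2 : (q.2.2 : ℝ) + 1 ≠ 0 := by positivity
  have h3 : (p.2.2 : ℝ) * q.2.2 + p.2.2 + q.2.2 + 1 = ((p.2.2 : ℝ) + 1) * (q.2.2 + 1) := by ring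
  simp only [ratVal, mul]
  push_cast
  rw [h3]
  field_simp
  ring

theorem ratVal_ofNat (n : ℕ) : ratVal (ofNat n) = n := by
  simp [ratVal, ofNat]

theorem ratVal_inv (p : RatCode) : ratVal (inv p) = (ratVal p)⁻¹ := by
  have h1 : (p.2.2 : ℝ) + 1 ≠ 0 := by positivity
  unfold inv
  split_ifs with h h'
  · have hc : ((p.1 - p.2.1 - 1 : ℕ) : ℝ) = (p.1 : ℝ) - p.2.1 - 1 := by
      rw [Nat.cast_sub (by omega), Nat.cast_sub (by omega)]
      simp
    have h2 : (p.1 : ℝ) - p.2.1 ≠ 0 := by
      have : (p.2.1 : ℝ) < p.1 := by exact_mod_cast h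
      linarith
    simp only [ratVal, hc]
    push_cast
    rw [inv_div]
    congr 1 <;> ring
  · have hc : ((p.2.1 - p.1 - 1 : ℕ) : ℝ) = (p.2.1 : ℝ) - p.1 - 1 := by
      rw [Nat.cast_sub (by omega), Nat.cast_sub (by omega)]
      simp
    have h2 : (p.2.1 : ℝ) - p.1 ≠ 0 := by
      have : (p.1 : ℝ) < p.2.1 := by exact_mod_cast h'
      linarith
    have h3 : (p.1 : ℝ) - p.2.1 ≠ 0 := by
      intro h; apply h2; linarith
    simp only [ratVal, hc]
    push_cast
    rw [inv_div, div_eq_div_iff (by simpa using h2) h3]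
    ring
  · have : p.1 = p.2.1 := by omega
    simp [ratVal, this]

theorem ratVal_fract (p : RatCode) : ratVal (fract p) = Int.fract (ratVal p) := by
  have h1 : (0 : ℝ) < (p.2.2 : ℝ) + 1 := by positivity
  set r := (p.1 + p.2.1 * p.2.2) % (p.2.2 + 1) with hr
  set d := (p.1 + p.2.1 * p.2.2) / (p.2.2 + 1) with hd
  have hdm : (p.2.2 + 1) * d + r = p.1 + p.2.1 * p.2.2 := Nat.div_add_mod _ _
  have hrlt : r < p.2.2 + 1 := Nat.mod_lt _ (by omega)
  have hdm' : ((p.2.2 : ℝ) + 1) * d + r = p.1 + p.2.1 * p.2.2 := by exact_mod_cast hdm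
  have e : ratVal p = ((d : ℤ) - (p.2.1 : ℤ) : ℤ) + (r : ℝ) / ((p.2.2 : ℝ) + 1) := by
    simp only [ratVal]
    push_cast
    field_simp
    nlinarith [hdm']
  have e2 : ratVal (fract p) = (r : ℝ) / ((p.2.2 : ℝ) + 1) := by
    simp [ratVal, fract, ← hr]
  rw [e2, e, Int.fract_intCast_add, eq_comm, Int.fract_eq_self]
  constructor
  · positivity
  · rw [div_lt_one h1]
    exact_mod_cast hrlt

theorem le_iff (p q : RatCode) : le p q = true ↔ ratVal p ≤ ratVal q := by
  have h1 : (0 : ℝ) < (p.2.2 : ℝ) + 1 := by positivity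
  have h2 : (0 : ℝ) < (q.2.2 : ℝ) + 1 := by positivity
  simp only [le, decide_eq_true_eq, ratVal]
  rw [div_le_div_iff₀ h1 h2]
  constructor
  · intro h
    have h' : (p.1 : ℝ) * (q.2.2 + 1) + q.2.1 * (p.2.2 + 1)
        ≤ q.1 * (p.2.2 + 1) + p.2.1 * (q.2.2 + 1) := by exact_mod_cast h
    nlinarith [h']
  · intro h
    have h' : (p.1 : ℝ) * (q.2.2 + 1) + q.2.1 * (p.2.2 + 1)
        ≤ q.1 * (p.2.2 + 1) + p.2.1 * (q.2.2 + 1) := by nlinarith [h]
    exact_mod_cast h'

theorem abs_ratVal_le (p : RatCode) : |ratVal p| ≤ (p.1 + p.2.1 : ℕ) := by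
  have h1 : (1 : ℝ) ≤ (p.2.2 : ℝ) + 1 := by
    have : (0 : ℝ) ≤ p.2.2 := by positivity
    linarith
  simp only [ratVal]
  rw [abs_div, abs_of_pos (by linarith : (0 : ℝ) < (p.2.2 : ℝ) + 1)]
  have h2 : |(p.1 : ℝ) - p.2.1| ≤ p.1 + p.2.1 := by
    rw [abs_le]
    have : (0 : ℝ) ≤ p.1 := by positivity
    have : (0 : ℝ) ≤ p.2.1 := by positivity
    constructor <;> linarith
  push_cast
  have h3 : (0 : ℝ) ≤ (p.1 : ℝ) + p.2.1 := by positivity
  rw [div_le_iff₀ (by linarith)]
  nlinarith

/-! ### Primitive recursiveness -/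

open Primrec in
theorem primrec_add : Primrec₂ add :=
  pair
    (nat_add.comp
      (nat_mul.comp (fst.comp fst) (succ.comp (snd.comp (snd.comp snd))))
      (nat_mul.comp (fst.comp snd) (succ.comp (snd.comp (snd.comp fst)))))
    (pair
      (nat_add.comp
        (nat_mul.comp (fst.comp (snd.comp fst)) (succ.comp (snd.comp (snd.comp snd))))
        (nat_mul.comp (fst.comp (snd.comp snd)) (succ.comp (snd.comp (snd.comp fst)))))
      (nat_add.comp
        (nat_add.comp
          (nat_mul.comp (snd.comp (snd.comp fst)) (snd.comp (snd.comp snd)))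
          (snd.comp (snd.comp fst)))
        (snd.comp (snd.comp snd))))

open Primrec in
theorem primrec_neg : Primrec neg :=
  pair (fst.comp snd) (pair fst (snd.comp snd))

open Primrec in
theorem primrec_mul : Primrec₂ mul :=
  pair
    (nat_add.comp
      (nat_mul.comp (fst.comp fst) (fst.comp snd))
      (nat_mul.comp (fst.comp (snd.comp fst)) (fst.comp (snd.comp snd))))
    (pair
      (nat_add.comp
        (nat_mul.comp (fst.comp fst) (fst.comp (snd.comp snd)))
        (nat_mul.comp (fst.comp (snd.comp fst)) (fst.comp snd)))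
      (nat_add.comp
        (nat_add.comp
          (nat_mul.comp (snd.comp (snd.comp fst)) (snd.comp (snd.comp snd)))
          (snd.comp (snd.comp fst)))
        (snd.comp (snd.comp snd))))

open Primrec in
theorem primrec_inv : Primrec inv :=
  ite (nat_lt.comp (fst.comp snd) fst)
    (pair (succ.comp (snd.comp snd))
      (pair (const 0) (nat_sub.comp (nat_sub.comp fst (fst.comp snd)) (const 1))))
    (ite (nat_lt.comp fst (fst.comp snd))
      (pair (const 0)
        (pair (succ.comp (snd.comp snd)) (nat_sub.comp (nat_sub.comp (fst.comp snd) fst) (const 1))))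
      (const (0, 0, 0)))

open Primrec in
theorem primrec_ofNat : Primrec ofNat :=
  pair Primrec.id (const (0, 0))

open Primrec in
theorem primrec_fract : Primrec fract :=
  pair
    (nat_mod.comp
      (nat_add.comp fst (nat_mul.comp (fst.comp snd) (snd.comp snd)))
      (succ.comp (snd.comp snd)))
    (pair (const 0) (snd.comp snd))

open Primrec in
theorem primrec_le : Primrec₂ le :=
  (nat_le.comp
    (nat_add.comp
      (nat_mul.comp (fst.comp fst) (succ.comp (snd.comp (snd.comp snd))))
      (nat_mul.comp (fst.comp (snd.comp snd)) (succ.comp (snd.comp (snd.comp fst)))))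
    (nat_add.comp
      (nat_mul.comp (fst.comp snd) (succ.comp (snd.comp (snd.comp fst))))
      (nat_mul.comp (fst.comp (snd.comp fst)) (succ.comp (snd.comp (snd.comp snd)))))).decide

end RC

/-! ## Some computability lemmas -/

section Comp

variable {α β : Type*} [Primcodable α] [Primcodable β]

theorem computable_nat_add {f g : α → ℕ} (hf : Computable f) (hg : Computable g) :
    Computable fun a => f a + g a := Primrec.nat_add.to_comp.comp hf hg

theorem computable_nat_mul {f g : α → ℕ} (hf : Computable f) (hg : Computable g) :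
    Computable fun a => f a * g a := Primrec.nat_mul.to_comp.comp hf hg

theorem computable_nat_sub {f g : α → ℕ} (hf : Computable f) (hg : Computable g) :
    Computable fun a => f a - g a := Primrec.nat_sub.to_comp.comp hf hg

theorem computable_nat_div {f g : α → ℕ} (hf : Computable f) (hg : Computable g) :
    Computable fun a => f a / g a := Primrec.nat_div.to_comp.comp hf hg

theorem computable_nat_mod {f g : α → ℕ} (hf : Computable f) (hg : Computable g) :
    Computable fun a => f a % g a := Primrec.nat_mod.to_comp.comp hf hg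

theorem computable_nat_pow {f g : α → ℕ} (hf : Computable f) (hg : Computable g) :
    Computable fun a => f a ^ g a :=
  (Primrec₂.unpaired'.1 Nat.Primrec.pow).to_comp.comp hf hg

theorem computable_nat_succ {f : α → ℕ} (hf : Computable f) :
    Computable fun a => f a + 1 := Computable.succ.comp hf

theorem computable_nat_factorial {f : α → ℕ} (hf : Computable f) :
    Computable fun a => (f a).factorial := by
  have h : Computable fun n : ℕ => n.factorial := by
    have := Computable.nat_rec (α := ℕ) (σ := ℕ) (f := id) (g := fun _ => 1)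
      (h := fun _ p => (p.1 + 1) * p.2) Computable.id (Computable.const 1)
      (computable_nat_mul (computable_nat_succ (Computable.fst.comp Computable.snd))
        (Computable.snd.comp Computable.snd))
    refine this.of_eq fun n => ?_
    induction n with
    | zero => rfl
    | succ n ih =>
      simp only [id] at ih ⊢
      rw [Nat.factorial_succ]
      simp [ih]
  exact h.comp hf

theorem computable_decide_le {f g : α → ℕ} (hf : Computable f) (hg : Computable g) :
    Computable fun a => decide (f a ≤ g a) :=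
  (Primrec.nat_le.decide.to_comp).comp hf hg

theorem computable_decide_lt {f g : α → ℕ} (hf : Computable f) (hg : Computable g) :
    Computable fun a => decide (f a < g a) :=
  (Primrec.nat_lt.decide.to_comp).comp hf hg

theorem computable_decide_eq [DecidableEq β] {f g : α → β} (hf : Computable f)
    (hg : Computable g) : Computable fun a => decide (f a = g a) :=
  ((Primrec.eq (α := β)).decide.to_comp).comp hf hg

theorem computable_not {c : α → Bool} (hc : Computable c) : Computable fun a => !c a :=
  Primrec.not.to_comp.comp hc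

theorem computable_and {c d : α → Bool} (hc : Computable c) (hd : Computable d) :
    Computable fun a => c a && d a :=
  Primrec.and.to_comp.comp hc hd

theorem computable_or {c d : α → Bool} (hc : Computable c) (hd : Computable d) :
    Computable fun a => c a || d a :=
  Primrec.or.to_comp.comp hc hd

theorem computable_ite {c : α → Bool} (hc : Computable c) {f g : α → β} (hf : Computable f)
    (hg : Computable g) : Computable fun a => if c a = true then f a else g a :=
  (Computable.cond hc hf hg).of_eq fun a => by cases c a <;> rfl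

theorem computable_ite_decide {p : α → Prop} [DecidablePred p]
    (hp : Computable fun a => decide (p a)) {f g : α → β} (hf : Computable f)
    (hg : Computable g) : Computable fun a => if p a then f a else g a :=
  (Computable.cond hp hf hg).of_eq fun a => by by_cases h : p a <;> simp [h]

end Comp

end Vale.Agent.P113
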