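import Vale.Agent.Lib.P113.CrealBasic

/-!
# The exponential function and the derivatives of the smooth transition function (P113)
-/

open scoped ContDiff

namespace Vale.Agent.P113

variable {α β : Type*} [Primcodable α] [Primcodable β]

/-! ## The exponential function -/

theorem creal_exp_small :
    CReal fun q : RatCode => Real.exp (ratVal q / ((q.1 + q.2.1 + 1 : ℕ) : ℝ)) := by
  have hB : Computable fun q : RatCode => q.1 + q.2.1 + 1 :=
    computable_nat_succ (computable_nat_add Computable.fst (Computable.fst.comp Computable.snd))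
  have hx : CRat fun q : RatCode => ratVal q / ((q.1 + q.2.1 + 1 : ℕ) : ℝ) :=
    (crat_ratVal Computable.id).div (crat_natCast hB)
  have hterm : CRat fun p : (RatCode × ℕ) × ℕ =>
      (ratVal p.1.1 / ((p.1.1.1 + p.1.1.2.1 + 1 : ℕ) : ℝ)) ^ p.2 / ((p.2.factorial : ℕ) : ℝ) :=
    ((hx.comp (Computable.fst.comp Computable.fst)).pow Computable.snd).div
      (crat_natCast (computable_nat_factorial Computable.snd))
  refine CReal.intro _ (CRat.sum_range (computable_nat_succ Computable.snd) hterm)
    (fun _ => 2) (Computable.const 2) fun q k => ?_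
  have habs : |ratVal q / ((q.1 + q.2.1 + 1 : ℕ) : ℝ)| ≤ 1 := by
    have h1 := RC.abs_ratVal_le q
    have h2 : (0 : ℝ) < ((q.1 + q.2.1 + 1 : ℕ) : ℝ) := by positivity
    rw [abs_div, abs_of_pos h2, div_le_one h2]
    refine h1.trans ?_
    push_cast
    linarith
  refine (Real.exp_bound habs (Nat.succ_pos k)).trans ?_
  have h1 : |ratVal q / ((q.1 + q.2.1 + 1 : ℕ) : ℝ)| ^ k.succ ≤ 1 := pow_le_one₀ (abs_nonneg _) habs
  have hf : (k : ℝ) + 1 ≤ ((k.succ.factorial : ℕ) : ℝ) := by
    exact_mod_cast Nat.self_le_factorial k.succ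
  have hk : (0 : ℝ) ≤ k := by positivity
  have h2 : ((k.succ.succ : ℕ) : ℝ) / (((k.succ.factorial : ℕ) : ℝ) * ((k.succ : ℕ) : ℝ))
      ≤ 2 / ((k : ℝ) + 1) := by
    push_cast
    rw [div_le_div_iff₀ (by positivity) (by positivity)]
    nlinarith
  calc _ ≤ 1 * (((k.succ.succ : ℕ) : ℝ) / (((k.succ.factorial : ℕ) : ℝ) * ((k.succ : ℕ) : ℝ))) :=
        mul_le_mul_of_nonneg_right h1 (by positivity)
    _ ≤ _ := by rw [one_mul]; simpa using h2

theorem creal_exp_rat : CReal fun q : RatCode => Real.exp (ratVal q) := by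
  have hB : Computable fun q : RatCode => q.1 + q.2.1 + 1 :=
    computable_nat_succ (computable_nat_add Computable.fst (Computable.fst.comp Computable.snd))
  refine (creal_exp_small.pow hB).of_eq fun q => ?_
  rw [← Real.exp_nat_mul]
  congr 1
  have h2 : ((q.1 + q.2.1 + 1 : ℕ) : ℝ) ≠ 0 := by positivity
  field_simp

theorem abs_exp_sub_exp_le {x y : ℝ} {M : ℕ} (hx : |x| ≤ M) (hy : |y| ≤ M) :
    |Real.exp x - Real.exp y| ≤ (3 : ℝ) ^ M * |x - y| := by
  have key : ∀ u v : ℝ, |u| ≤ M → v ≤ u →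
      |Real.exp u - Real.exp v| ≤ (3 : ℝ) ^ M * |u - v| := by
    intro u v hu hvu
    have h1 : Real.exp v ≤ Real.exp u := Real.exp_le_exp.2 hvu
    rw [abs_of_nonneg (by linarith), abs_of_nonneg (by linarith)]
    have h2 : Real.exp v = Real.exp u * Real.exp (v - u) := by
      rw [← Real.exp_add]; congr 1; ring
    have h3 : v - u + 1 ≤ Real.exp (v - u) := Real.add_one_le_exp _
    have h4 : Real.exp u - Real.exp v ≤ Real.exp u * (u - v) := by
      rw [h2]
      have := mul_le_mul_of_nonneg_left h3 (Real.exp_pos u).le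
      nlinarith
    have h5 : Real.exp u ≤ (3 : ℝ) ^ M := by
      calc Real.exp u ≤ Real.exp M := Real.exp_le_exp.2 ((le_abs_self u).trans hu)
        _ = Real.exp 1 ^ M := by rw [← Real.exp_nat_mul]; simp
        _ ≤ 3 ^ M := pow_le_pow_left₀ (Real.exp_pos _).le
            (by have := Real.exp_one_lt_d9; linarith) M
    exact h4.trans (mul_le_mul_of_nonneg_right h5 (by linarith))
  rcases le_total y x with h | h
  · exact key x y hx h
  · rw [abs_sub_comm, abs_sub_comm x y]
    exact key y x hy h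

theorem CReal.exp {f : α → ℝ} (hf : CReal f) : CReal fun a => Real.exp (f a) := by
  obtain ⟨B, hB, b⟩ := hf.exists_bound
  refine hf.subst (φ := fun _ x => Real.exp x) (creal_exp_rat.comp Computable.snd) b
    (C := fun a => 3 ^ (B a + 1)) (computable_nat_pow (Computable.const 3)
      (computable_nat_succ hB)) fun a x y hx hy => ?_
  have := abs_exp_sub_exp_le (M := B a + 1) (x := x) (y := y) (by push_cast; exact hx)
    (by push_cast; exact hy)
  simpa using this

/-! ## Symbolic derivatives of the smooth transition function -/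

/-- `((p, n), a, b, d)` stands for `(p - n) S ^ a X ^ b Y ^ d`. -/
abbrev Mono := (ℕ × ℕ) × ℕ × ℕ × ℕ

/-- The derivative of a monomial, when `S' = S (1 - S) (X ^ 2 + Y ^ 2)`, `X' = - X ^ 2`,
`Y' = Y ^ 2`. -/
def dMono (m : Mono) : List Mono :=
  [((m.2.1 * m.1.1, m.2.1 * m.1.2), m.2.1, m.2.2.1 + 2, m.2.2.2),
   ((m.2.1 * m.1.1, m.2.1 * m.1.2), m.2.1, m.2.2.1, m.2.2.2 + 2),
   ((m.2.1 * m.1.2, m.2.1 * m.1.1), m.2.1 + 1, m.2.2.1 + 2, m.2.2.2),
   ((m.2.1 * m.1.2, m.2.1 * m.1.1), m.2.1 + 1, m.2.2.1, m.2.2.2 + 2),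
   ((m.2.2.1 * m.1.2, m.2.2.1 * m.1.1), m.2.1, m.2.2.1 + 1, m.2.2.2),
   ((m.2.2.2 * m.1.1, m.2.2.2 * m.1.2), m.2.1, m.2.2.1, m.2.2.2 + 1)]

def smPoly (k : ℕ) : List Mono :=
  Nat.rec [((1, 0), 1, 0, 0)] (fun _ l => l.flatMap dMono) k

noncomputable def monoEval (s x y : ℝ) (m : Mono) : ℝ :=
  ((m.1.1 : ℝ) - (m.1.2 : ℝ)) * s ^ m.2.1 * x ^ m.2.2.1 * y ^ m.2.2.2

section Primrec
open Primrec

theorem primrec_dMono : Primrec dMono := by
  have hp : Primrec fun m : Mono => m.1.1 := fst.comp fst
  have hn : Primrec fun m : Mono => m.1.2 := snd.comp fst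
  have ha : Primrec fun m : Mono => m.2.1 := fst.comp snd
  have hb : Primrec fun m : Mono => m.2.2.1 := fst.comp (snd.comp snd)
  have hd : Primrec fun m : Mono => m.2.2.2 := snd.comp (snd.comp snd)
  have hap := nat_mul.comp ha hp
  have han := nat_mul.comp ha hn
  have hbp := nat_mul.comp hb hp
  have hbn := nat_mul.comp hb hn
  have hdp := nat_mul.comp hd hp
  have hdn := nat_mul.comp hd hn
  have ha1 := succ.comp ha
  have hb1 := succ.comp hb
  have hd1 := succ.comp hd
  have hb2 := succ.comp hb1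
  have hd2 := succ.comp hd1
  exact list_cons.comp (pair (pair hap han) (pair ha (pair hb2 hd)))
    (list_cons.comp (pair (pair hap han) (pair ha (pair hb hd2)))
    (list_cons.comp (pair (pair han hap) (pair ha1 (pair hb2 hd)))
    (list_cons.comp (pair (pair han hap) (pair ha1 (pair hb hd2)))
    (list_cons.comp (pair (pair hbn hbp) (pair ha (pair hb1 hd)))
    (list_cons.comp (pair (pair hdp hdn) (pair ha (pair hb hd1)))
      (Primrec.const []))))))

theorem primrec_smPoly : Primrec smPoly := by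
  have h : Primrec₂ fun (_ : ℕ) (l : List Mono) => l.flatMap dMono :=
    list_flatMap snd (primrec_dMono.comp snd).to₂
  exact (Primrec.nat_rec₁ [((1, 0), 1, 0, 0)] h).of_eq fun k => rfl

end Primrec

theorem smoothTransition_eq {t : ℝ} (h0 : 0 < t) (h1 : t < 1) :
    Real.smoothTransition t = (1 + Real.exp (t⁻¹ - (1 - t)⁻¹))⁻¹ := by
  have h2 : ¬ t ≤ 0 := not_le.2 h0
  have h3 : ¬ 1 - t ≤ 0 := by linarith
  simp only [Real.smoothTransition, expNegInvGlue, if_neg h2, if_neg h3]
  have e1 : Real.exp (t⁻¹ - (1 - t)⁻¹) = Real.exp (-(1 - t)⁻¹) / Real.exp (-t⁻¹) := by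
    rw [← Real.exp_sub]; congr 1; ring
  have h4 := Real.exp_pos (-t⁻¹)
  have h5 := Real.exp_pos (-(1 - t)⁻¹)
  rw [e1]
  field_simp

theorem hasDerivAt_smoothTransition {t : ℝ} (h0 : 0 < t) (h1 : t < 1) :
    HasDerivAt Real.smoothTransition
      (Real.smoothTransition t * (1 - Real.smoothTransition t) *
        ((t⁻¹) ^ 2 + ((1 - t)⁻¹) ^ 2)) t := by
  have ht : t ≠ 0 := h0.ne'
  have ht1 : (1 - t) ≠ 0 := by linarith
  have hE : HasDerivAt (fun s : ℝ => s⁻¹ - (1 - s)⁻¹) (-(t⁻¹) ^ 2 - ((1 - t)⁻¹) ^ 2) t := by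
    have e1 := hasDerivAt_inv ht
    have e2 := ((hasDerivAt_id t).const_sub 1).inv ht1
    have e3 := e1.sub e2
    refine e3.congr_deriv ?_
    simp only [id]
    field_simp
  have hS : HasDerivAt (fun s : ℝ => (1 + Real.exp (s⁻¹ - (1 - s)⁻¹))⁻¹)
      (Real.smoothTransition t * (1 - Real.smoothTransition t) *
        ((t⁻¹) ^ 2 + ((1 - t)⁻¹) ^ 2)) t := by
    have hpos : (1 : ℝ) + Real.exp (t⁻¹ - (1 - t)⁻¹) ≠ 0 := by positivity
    have e4 := ((hE.exp).const_add 1).inv hpos
    refine e4.congr_deriv ?_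
    rw [smoothTransition_eq h0 h1]
    set E := Real.exp (t⁻¹ - (1 - t)⁻¹) with hEdef
    have hEp : (1 : ℝ) + E ≠ 0 := hpos
    field_simp
    ring
  refine hS.congr_of_eventuallyEq ?_
  filter_upwards [Ioo_mem_nhds h0 h1] with s hs
  exact smoothTransition_eq hs.1 hs.2

theorem hasDerivAt_monoEval (m : Mono) {t : ℝ} (h0 : 0 < t) (h1 : t < 1) :
    HasDerivAt (fun s => monoEval (Real.smoothTransition s) s⁻¹ (1 - s)⁻¹ m)
      ((dMono m).map (monoEval (Real.smoothTransition t) t⁻¹ (1 - t)⁻¹)).sum t := by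
  obtain ⟨⟨p, n⟩, a, b, d⟩ := m
  have ht : t ≠ 0 := h0.ne'
  have ht1 : (1 - t) ≠ 0 := by linarith
  have hS := hasDerivAt_smoothTransition h0 h1
  have hX := hasDerivAt_inv ht
  have hY := ((hasDerivAt_id t).const_sub 1).inv ht1
  have h := (((hS.pow a).const_mul ((p : ℝ) - n)).mul (hX.pow b)).mul (hY.pow d)
  refine (h.congr_deriv ?_)
  set S := Real.smoothTransition t
  simp only [id, dMono, List.map_cons, List.map_nil, List.sum_cons, List.sum_nil, monoEval]
  have ea : (a : ℝ) * S ^ (a - 1) * (S * (1 - S) * ((t⁻¹) ^ 2 + ((1 - t)⁻¹) ^ 2))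
      = a * S ^ a * ((1 - S) * ((t⁻¹) ^ 2 + ((1 - t)⁻¹) ^ 2)) := by
    rcases a with _ | a
    · simp
    · simp only [Nat.add_sub_cancel]
      ring
  have eb : (b : ℝ) * (t⁻¹) ^ (b - 1) * (-(t ^ 2)⁻¹) = - (b * (t⁻¹) ^ (b + 1)) := by
    rcases b with _ | b
    · simp
    · simp only [Nat.add_sub_cancel]
      rw [← inv_pow]
      ring
  have ed : (d : ℝ) * ((1 - t)⁻¹) ^ (d - 1) * (-(-1) / (1 - t) ^ 2)
      = d * ((1 - t)⁻¹) ^ (d + 1) := by
    rcases d with _ | d
    · simp
    · simp only [Nat.add_sub_cancel]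
      rw [div_eq_mul_inv, ← inv_pow]
      ring
  push_cast
  simp only [Pi.pow_apply, Pi.inv_apply, Pi.mul_apply]
  rw [ea, eb, ed]
  ring

theorem hasDerivAt_polyEval (l : List Mono) {t : ℝ} (h0 : 0 < t) (h1 : t < 1) :
    HasDerivAt (fun s => (l.map (monoEval (Real.smoothTransition s) s⁻¹ (1 - s)⁻¹)).sum)
      ((l.flatMap dMono).map (monoEval (Real.smoothTransition t) t⁻¹ (1 - t)⁻¹)).sum t := by
  induction l with
  | nil => simpa using hasDerivAt_const t (0 : ℝ)
  | cons m l ih =>
    simp only [List.map_cons, List.sum_cons, List.flatMap_cons, List.map_append, List.sum_append]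
    exact (hasDerivAt_monoEval m h0 h1).add ih

theorem iteratedDeriv_smoothTransition_Ioo (k : ℕ) {t : ℝ} (h0 : 0 < t) (h1 : t < 1) :
    iteratedDeriv k Real.smoothTransition t
      = ((smPoly k).map (monoEval (Real.smoothTransition t) t⁻¹ (1 - t)⁻¹)).sum := by
  induction k generalizing t with
  | zero => simp [smPoly, monoEval]
  | succ k ih =>
    rw [iteratedDeriv_succ]
    have hev : iteratedDeriv k Real.smoothTransition =ᶠ[nhds t]
        fun s => ((smPoly k).map (monoEval (Real.smoothTransition s) s⁻¹ (1 - s)⁻¹)).sum := by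
      filter_upwards [Ioo_mem_nhds h0 h1] with s hs
      exact ih hs.1 hs.2
    rw [hev.deriv_eq]
    exact (hasDerivAt_polyEval (smPoly k) h0 h1).deriv

theorem contDiff_smoothTransition : ContDiff ℝ ∞ Real.smoothTransition :=
  Real.smoothTransition.contDiff

theorem continuous_iteratedDeriv_smoothTransition (k : ℕ) :
    Continuous (iteratedDeriv k Real.smoothTransition) :=
  contDiff_smoothTransition.continuous_iteratedDeriv k (by exact_mod_cast le_top)

theorem iteratedDeriv_smoothTransition_nonpos (k : ℕ) {t : ℝ} (h : t ≤ 0) :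
    iteratedDeriv k Real.smoothTransition t = 0 := by
  have hcl : IsClosed {s : ℝ | iteratedDeriv k Real.smoothTransition s = 0} :=
    isClosed_eq (continuous_iteratedDeriv_smoothTransition k) continuous_const
  have hsub : Set.Iio (0 : ℝ) ⊆ {s : ℝ | iteratedDeriv k Real.smoothTransition s = 0} := by
    intro s hs
    have hev : Real.smoothTransition =ᶠ[nhds s] fun _ => (0 : ℝ) := by
      filter_upwards [Iio_mem_nhds hs] with u hu
      exact Real.smoothTransition.zero_of_nonpos (le_of_lt hu)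
    have := hev.iteratedDeriv_eq k
    change iteratedDeriv k Real.smoothTransition s = 0
    rw [this]
    simp
  have h2 := closure_minimal hsub hcl
  rw [closure_Iio] at h2
  exact h2 h

theorem iteratedDeriv_smoothTransition_one_le (k : ℕ) {t : ℝ} (h : 1 ≤ t) :
    iteratedDeriv k Real.smoothTransition t = if k = 0 then 1 else 0 := by
  have hcl : IsClosed {s : ℝ | iteratedDeriv k Real.smoothTransition s
      = if k = 0 then 1 else 0} :=
    isClosed_eq (continuous_iteratedDeriv_smoothTransition k) continuous_const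
  have hsub : Set.Ioi (1 : ℝ) ⊆ {s : ℝ | iteratedDeriv k Real.smoothTransition s
      = if k = 0 then 1 else 0} := by
    intro s hs
    have hev : Real.smoothTransition =ᶠ[nhds s] fun _ => (1 : ℝ) := by
      filter_upwards [Ioi_mem_nhds hs] with u hu
      exact Real.smoothTransition.one_of_one_le (le_of_lt hu)
    have := hev.iteratedDeriv_eq k
    change iteratedDeriv k Real.smoothTransition s = if k = 0 then 1 else 0
    rw [this]
    simp [iteratedDeriv_const]
  have h2 := closure_minimal hsub hcl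
  rw [closure_Ioi] at h2
  exact h2 h

theorem creal_smoothTransition :
    CReal fun p : ℕ × RatCode => iteratedDeriv p.1 Real.smoothTransition (ratVal p.2) := by
  classical
  have hq : CRat fun q : RatCode => ratVal q := crat_ratVal Computable.id
  have hX : CRat fun q : RatCode => (ratVal q)⁻¹ := hq.inv
  have hY : CRat fun q : RatCode => (1 - ratVal q)⁻¹ := (crat_one.sub hq).inv
  have hS : CReal fun q : RatCode => (1 + Real.exp ((ratVal q)⁻¹ - (1 - ratVal q)⁻¹))⁻¹ :=
    (creal_one.add (hX.creal.sub hY.creal).exp).inv fun q => by positivity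
  have hm : CReal fun p : (ℕ × RatCode) × Mono =>
      monoEval (1 + Real.exp ((ratVal p.1.2)⁻¹ - (1 - ratVal p.1.2)⁻¹))⁻¹ (ratVal p.1.2)⁻¹
        (1 - ratVal p.1.2)⁻¹ p.2 := by
    have hc : Computable fun p : (ℕ × RatCode) × Mono => p.1.2 :=
      Computable.snd.comp Computable.fst
    have h1 : Computable fun p : (ℕ × RatCode) × Mono => p.2.1.1 :=
      Computable.fst.comp (Computable.fst.comp Computable.snd)
    have h2 : Computable fun p : (ℕ × RatCode) × Mono => p.2.1.2 :=
      Computable.snd.comp (Computable.fst.comp Computable.snd)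
    have h3 : Computable fun p : (ℕ × RatCode) × Mono => p.2.2.1 :=
      Computable.fst.comp (Computable.snd.comp Computable.snd)
    have h4 : Computable fun p : (ℕ × RatCode) × Mono => p.2.2.2.1 :=
      Computable.fst.comp (Computable.snd.comp (Computable.snd.comp Computable.snd))
    have h5 : Computable fun p : (ℕ × RatCode) × Mono => p.2.2.2.2 :=
      Computable.snd.comp (Computable.snd.comp (Computable.snd.comp Computable.snd))
    exact ((((creal_natCast h1).sub (creal_natCast h2)).mul ((hS.comp hc).pow h3)).mul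
      ((hX.creal.comp hc).pow h4)).mul ((hY.creal.comp hc).pow h5)
  have hsum := CReal.sum_list (primrec_smPoly.to_comp.comp
    (Computable.fst : Computable fun p : ℕ × RatCode => p.1)) hm
  have hc0 : Computable fun p : ℕ × RatCode => decide (ratVal p.2 ≤ 0) :=
    (hq.comp Computable.snd).decide_le crat_zero
  have hc1 : Computable fun p : ℕ × RatCode => decide (1 ≤ ratVal p.2) :=
    crat_one.decide_le (hq.comp Computable.snd)
  have hck : Computable fun p : ℕ × RatCode => decide (p.1 = 0) :=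
    computable_decide_eq Computable.fst (Computable.const 0)
  have hfin := CReal.ite_prop hc0 creal_zero
    (CReal.ite_prop hc1 (CReal.ite_prop hck creal_one creal_zero) hsum)
  refine hfin.of_eq fun p => ?_
  split_ifs with h1 h2 h3
  · rw [iteratedDeriv_smoothTransition_nonpos p.1 h1]
  · rw [iteratedDeriv_smoothTransition_one_le p.1 h2, if_pos h3]
  · rw [iteratedDeriv_smoothTransition_one_le p.1 h2, if_neg h3]
  · rw [iteratedDeriv_smoothTransition_Ioo p.1 (not_le.1 h1) (not_le.1 h2),
      smoothTransition_eq (not_le.1 h1) (not_le.1 h2)]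

end Vale.Agent.P113
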