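import Vale.Agent.Lib.P113.Crat

/-!
# Closure properties of computable families of real numbers (P113)
-/

namespace Vale.Agent.P113

variable {α β : Type*} [Primcodable α] [Primcodable β]

/-- It suffices to approximate with error `C a / (k + 1)` for a computable `C`. -/
theorem CReal.intro {f : α → ℝ} (F : α × ℕ → ℝ) (hF : CRat F) (C : α → ℕ) (hC : Computable C)
    (h : ∀ a k, |f a - F (a, k)| ≤ (C a : ℝ) / ((k : ℝ) + 1)) : CReal f := by
  obtain ⟨g, hg, e⟩ := hF
  refine ⟨fun p => g (p.1, C p.1 * (p.2 + 1)), ?_, fun a k => ?_⟩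
  · exact hg.comp (Computable.pair Computable.fst
      (computable_nat_mul (hC.comp Computable.fst) (computable_nat_succ Computable.snd)))
  · have h1 := h a (C a * (k + 1))
    rw [e] at h1
    refine h1.trans ?_
    push_cast
    rw [div_le_div_iff₀ (by positivity) (by positivity)]
    linarith

theorem CReal.exists_crat {f : α → ℝ} (hf : CReal f) :
    ∃ F : α × ℕ → ℝ, CRat F ∧ ∀ a k, |f a - F (a, k)| ≤ 1 / ((k : ℝ) + 1) := by
  obtain ⟨g, hg, e⟩ := hf
  exact ⟨fun p => ratVal (g p), crat_ratVal hg, e⟩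

theorem CReal.of_eq {f g : α → ℝ} (hf : CReal f) (h : ∀ a, f a = g a) : CReal g := by
  have : f = g := funext h
  rwa [← this]

theorem CRat.creal {f : α → ℝ} (hf : CRat f) : CReal f :=
  CReal.intro (fun p => f p.1) (hf.comp Computable.fst) (fun _ => 0) (Computable.const 0)
    fun a k => by simp

theorem CReal.comp {f : β → ℝ} (hf : CReal f) {h : α → β} (hh : Computable h) :
    CReal fun a => f (h a) := by
  obtain ⟨g, hg, e⟩ := hf
  exact ⟨fun p => g (h p.1, p.2),
    hg.comp (Computable.pair (hh.comp Computable.fst) Computable.snd), fun a k => e (h a) k⟩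

theorem ComputableReal.creal {x : ℝ} (hx : ComputableReal x) : CReal fun _ : α => x := by
  obtain ⟨g, hg, e⟩ := hx
  exact ⟨fun p => g p.2, hg.comp Computable.snd, fun _ k => e k⟩

theorem CReal.computableReal {f : α → ℝ} (hf : CReal f) (a : α) : ComputableReal (f a) := by
  obtain ⟨g, hg, e⟩ := hf
  exact ⟨fun k => g (a, k), hg.comp (Computable.pair (Computable.const a) Computable.id),
    fun k => e a k⟩

theorem CReal.exists_bound {f : α → ℝ} (hf : CReal f) :
    ∃ B : α → ℕ, Computable B ∧ ∀ a, |f a| ≤ B a := by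
  obtain ⟨F, hF, e⟩ := hf.exists_crat
  obtain ⟨B, hB, hb⟩ := hF.exists_bound
  refine ⟨fun a => B (a, 0) + 1, computable_nat_succ
    (hB.comp (Computable.pair Computable.id (Computable.const 0))), fun a => ?_⟩
  have h1 := e a 0
  have h2 := hb (a, 0)
  simp only [Nat.cast_zero, zero_add, div_one] at h1
  push_cast
  rw [abs_le] at h1 h2 ⊢
  constructor <;> linarith [h1.1, h1.2, h2.1, h2.2]

theorem CReal.add {f g : α → ℝ} (hf : CReal f) (hg : CReal g) : CReal fun a => f a + g a := by
  obtain ⟨F, hF, eF⟩ := hf.exists_crat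
  obtain ⟨G, hG, eG⟩ := hg.exists_crat
  refine CReal.intro (fun p => F p + G p) (hF.add hG) (fun _ => 2) (Computable.const 2)
    fun a k => ?_
  have h1 := eF a k
  have h2 := eG a k
  have h3 : f a + g a - (F (a, k) + G (a, k)) = (f a - F (a, k)) + (g a - G (a, k)) := by ring
  rw [h3]
  refine (abs_add_le _ _).trans ((add_le_add h1 h2).trans (le_of_eq ?_))
  push_cast
  ring

theorem CReal.neg {f : α → ℝ} (hf : CReal f) : CReal fun a => - f a := by
  obtain ⟨F, hF, eF⟩ := hf.exists_crat
  refine CReal.intro (fun p => - F p) hF.neg (fun _ => 1) (Computable.const 1)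
    fun a k => ?_
  have h1 := eF a k
  have h3 : - f a - - F (a, k) = -(f a - F (a, k)) := by ring
  rw [h3, abs_neg]
  simpa using h1

theorem CReal.sub {f g : α → ℝ} (hf : CReal f) (hg : CReal g) : CReal fun a => f a - g a :=
  (hf.add hg.neg).of_eq fun a => by ring

theorem CReal.mul {f g : α → ℝ} (hf : CReal f) (hg : CReal g) : CReal fun a => f a * g a := by
  obtain ⟨Bf, hBf, bf⟩ := hf.exists_bound
  obtain ⟨Bg, hBg, bg⟩ := hg.exists_bound
  obtain ⟨F, hF, eF⟩ := hf.exists_crat
  obtain ⟨G, hG, eG⟩ := hg.exists_crat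
  refine CReal.intro (fun p => F p * G p) (hF.mul hG) (fun a => Bf a + (Bg a + 1))
    (computable_nat_add hBf (computable_nat_succ hBg)) fun a k => ?_
  have h1 := eF a k
  have h2 := eG a k
  have hk : 1 / ((k : ℝ) + 1) ≤ 1 := by
    rw [div_le_one (by positivity)]
    have : (0 : ℝ) ≤ k := by positivity
    linarith
  have hG' : |G (a, k)| ≤ Bg a + 1 := by
    have := bg a
    rw [abs_le] at h2 this ⊢
    constructor <;> linarith [h2.1, h2.2, this.1, this.2]
  have h3 : f a * g a - F (a, k) * G (a, k)
      = f a * (g a - G (a, k)) + G (a, k) * (f a - F (a, k)) := by ring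
  rw [h3]
  refine (abs_add_le _ _).trans ?_
  rw [abs_mul, abs_mul]
  have h4 : |f a| * |g a - G (a, k)| ≤ Bf a * (1 / ((k : ℝ) + 1)) :=
    mul_le_mul (bf a) h2 (abs_nonneg _) (by positivity)
  have h5 : |G (a, k)| * |f a - F (a, k)| ≤ (Bg a + 1) * (1 / ((k : ℝ) + 1)) :=
    mul_le_mul hG' h1 (abs_nonneg _) (by positivity)
  refine (add_le_add h4 h5).trans (le_of_eq ?_)
  push_cast
  ring

theorem creal_const_nat (n : ℕ) : CReal fun _ : α => (n : ℝ) := (crat_nat n).creal

theorem creal_zero : CReal fun _ : α => (0 : ℝ) := crat_zero.creal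

theorem creal_one : CReal fun _ : α => (1 : ℝ) := crat_one.creal

theorem creal_natCast {n : α → ℕ} (hn : Computable n) : CReal fun a => (n a : ℝ) :=
  (crat_natCast hn).creal

theorem creal_ratVal {h : α → RatCode} (hh : Computable h) : CReal fun a => ratVal (h a) :=
  (crat_ratVal hh).creal

/-- Case distinction on a computable Boolean. -/
theorem CReal.ite {c : α → Bool} (hc : Computable c) {f g : α → ℝ} (hf : CReal f) (hg : CReal g) :
    CReal fun a => if c a = true then f a else g a := by
  obtain ⟨F, hF, eF⟩ := hf.exists_crat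
  obtain ⟨G, hG, eG⟩ := hg.exists_crat
  refine CReal.intro (fun p => if c p.1 = true then F p else G p)
    (CRat.ite (hc.comp Computable.fst) hF hG) (fun _ => 1) (Computable.const 1) fun a k => ?_
  have h1 := eF a k
  have h2 := eG a k
  by_cases h : c a = true
  · simpa [h] using h1
  · simpa [h] using h2

/-- Case distinction on a computably decidable proposition. -/
theorem CReal.ite_prop {p : α → Prop} [DecidablePred p] (hp : Computable fun a => decide (p a))
    {f g : α → ℝ} (hf : CReal f) (hg : CReal g) :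
    CReal fun a => if p a then f a else g a :=
  (CReal.ite hp hf hg).of_eq fun a => by by_cases h : p a <;> simp [h]

/-- Case distinction on an optional computable value. -/
theorem CReal.option_elim {h : α → Option β} (hh : Computable h) {f : α → ℝ} (hf : CReal f)
    {g : α × β → ℝ} (hg : CReal g) :
    CReal fun a => (h a).elim (f a) fun b => g (a, b) := by
  obtain ⟨F, hF, eF⟩ := hf.exists_crat
  obtain ⟨G, hG, eG⟩ := hg.exists_crat
  have hG' : CRat fun p : (α × ℕ) × β => G ((p.1.1, p.2), p.1.2) :=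
    hG.comp (Computable.pair (Computable.pair (Computable.fst.comp Computable.fst) Computable.snd)
      (Computable.snd.comp Computable.fst))
  refine CReal.intro (fun p => (h p.1).elim (F p) fun b => G ((p.1, b), p.2))
    (CRat.option_elim (hh.comp Computable.fst) hF hG') (fun _ => 1) (Computable.const 1)
    fun a k => ?_
  cases h a with
  | none => simpa using eF a k
  | some b => simpa using eG (a, b) k

theorem CReal.sum_range {n : α → ℕ} (hn : Computable n) {f : α × ℕ → ℝ} (hf : CReal f) :
    CReal fun a => ∑ i ∈ Finset.range (n a), f (a, i) := by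
  obtain ⟨F, hF, eF⟩ := hf.exists_crat
  have hF' : CRat fun p : (α × ℕ) × ℕ => F ((p.1.1, p.2), p.1.2) :=
    hF.comp (Computable.pair (Computable.pair (Computable.fst.comp Computable.fst) Computable.snd)
      (Computable.snd.comp Computable.fst))
  refine CReal.intro (fun p => ∑ i ∈ Finset.range (n p.1), F ((p.1, i), p.2))
    (CRat.sum_range (hn.comp Computable.fst) hF') n hn fun a k => ?_
  rw [← Finset.sum_sub_distrib]
  refine (Finset.abs_sum_le_sum_abs _ _).trans ?_
  refine (Finset.sum_le_sum fun i _ => eF (a, i) k).trans (le_of_eq ?_)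
  rw [Finset.sum_const, Finset.card_range, nsmul_eq_mul]
  ring

theorem sum_map_eq_sum_range {γ : Type*} (l : List γ) (f : γ → ℝ) :
    (l.map f).sum = ∑ i ∈ Finset.range l.length, (l[i]?).elim 0 f := by
  induction l using List.reverseRecOn with
  | nil => simp
  | append_singleton l c ih =>
    rw [List.map_append, List.sum_append, ih, List.length_append, List.length_singleton,
      Finset.sum_range_succ]
    congr 1
    · refine Finset.sum_congr rfl fun i hi => ?_
      rw [List.getElem?_append_left (by simpa using hi)]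
    · simp

theorem CReal.sum_list {l : α → List β} (hl : Computable l) {f : α × β → ℝ} (hf : CReal f) :
    CReal fun a => ((l a).map fun b => f (a, b)).sum := by
  have h1 : CReal fun p : α × ℕ => ((l p.1)[p.2]?).elim 0 fun b => f (p.1, b) :=
    CReal.option_elim (g := fun q : (α × ℕ) × β => f (q.1.1, q.2))
      (Computable.list_getElem?.comp (hl.comp Computable.fst) Computable.snd) creal_zero
      (hf.comp (Computable.pair (Computable.fst.comp Computable.fst) Computable.snd))
  refine (CReal.sum_range (Computable.list_length.comp hl) h1).of_eq fun a => ?_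
  rw [sum_map_eq_sum_range]

theorem CRat.sum_list {l : α → List β} (hl : Computable l) {f : α × β → ℝ} (hf : CRat f) :
    CRat fun a => ((l a).map fun b => f (a, b)).sum := by
  have h1 : CRat fun p : α × ℕ => ((l p.1)[p.2]?).elim 0 fun b => f (p.1, b) :=
    CRat.option_elim (g := fun q : (α × ℕ) × β => f (q.1.1, q.2))
      (Computable.list_getElem?.comp (hl.comp Computable.fst) Computable.snd) crat_zero
      (hf.comp (Computable.pair (Computable.fst.comp Computable.fst) Computable.snd))
  refine (CRat.sum_range (Computable.list_length.comp hl) h1).of_eq fun a => ?_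
  rw [sum_map_eq_sum_range]

/-- Finite sums over a fixed finite type. -/
theorem creal_finset_sum {ι : Type*} (s : Finset ι) {f : ι → α → ℝ} (hf : ∀ i ∈ s, CReal (f i)) :
    CReal fun a => ∑ i ∈ s, f i a := by
  classical
  induction s using Finset.induction_on with
  | empty => simpa using creal_zero
  | insert i s hi ih =>
    have h1 : CReal (f i) := hf i (Finset.mem_insert_self _ _)
    have h2 := ih fun j hj => hf j (Finset.mem_insert_of_mem hj)
    refine (h1.add h2).of_eq fun a => ?_
    rw [Finset.sum_insert hi]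

theorem abs_pow_sub_pow_le' {x y B : ℝ} (hx : |x| ≤ B) (hy : |y| ≤ B) (hB : 1 ≤ B) (n : ℕ) :
    |x ^ n - y ^ n| ≤ n * B ^ n * |x - y| := by
  induction n with
  | zero => simp
  | succ n ih =>
    have h1 : x ^ (n + 1) - y ^ (n + 1) = x * (x ^ n - y ^ n) + y ^ n * (x - y) := by ring
    rw [h1]
    refine (abs_add_le _ _).trans ?_
    rw [abs_mul, abs_mul, abs_pow]
    have h2 : |x| * |x ^ n - y ^ n| ≤ B * (n * B ^ n * |x - y|) :=
      mul_le_mul hx ih (abs_nonneg _) (by linarith)
    have h3 : |y| ^ n * |x - y| ≤ B ^ (n + 1) * |x - y| := by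
      refine mul_le_mul_of_nonneg_right ?_ (abs_nonneg _)
      exact (pow_le_pow_left₀ (abs_nonneg _) hy n).trans (pow_le_pow_right₀ hB (Nat.le_succ n))
    refine (add_le_add h2 h3).trans (le_of_eq ?_)
    push_cast
    ring

theorem CReal.pow {f : α → ℝ} (hf : CReal f) {n : α → ℕ} (hn : Computable n) :
    CReal fun a => f a ^ n a := by
  obtain ⟨B, hB, b⟩ := hf.exists_bound
  obtain ⟨F, hF, eF⟩ := hf.exists_crat
  refine CReal.intro (fun p => F p ^ n p.1) (hF.pow (hn.comp Computable.fst))
    (fun a => n a * (B a + 1) ^ n a)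
    (computable_nat_mul hn (computable_nat_pow (computable_nat_succ hB) hn)) fun a k => ?_
  have h1 := eF a k
  have hk : 1 / ((k : ℝ) + 1) ≤ 1 := by
    rw [div_le_one (by positivity)]
    have : (0 : ℝ) ≤ k := by positivity
    linarith
  have hb := b a
  have hx : |f a| ≤ (B a : ℝ) + 1 := by linarith
  have hy : |F (a, k)| ≤ (B a : ℝ) + 1 := by
    rw [abs_le] at h1 hb ⊢
    constructor <;> linarith [h1.1, h1.2, hb.1, hb.2]
  have hB1 : (1 : ℝ) ≤ (B a : ℝ) + 1 := by
    have : (0 : ℝ) ≤ B a := by positivity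
    linarith
  refine (abs_pow_sub_pow_le' hx hy hB1 (n a)).trans ?_
  push_cast
  rw [div_eq_mul_one_div]
  exact mul_le_mul_of_nonneg_left h1 (by positivity)

/-- A computable positive lower bound for the absolute value of a family without zeros. -/
theorem CReal.exists_lower {f : α → ℝ} (hf : CReal f) (h0 : ∀ a, f a ≠ 0) :
    ∃ L : α → ℕ, Computable L ∧ ∀ a, 1 / ((L a : ℝ) + 1) ≤ |f a| := by
  classical
  obtain ⟨F, hF, eF⟩ := hf.exists_crat
  have hc : Computable fun p : α × ℕ => decide (2 / ((p.2 : ℝ) + 1) < |F p|) :=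
    CRat.decide_lt
      ((crat_nat 2).div ((crat_natCast Computable.snd).add crat_one)) hF.abs
  have hp : Partrec₂ fun (a : α) (k : ℕ) =>
      (Part.some (decide (2 / ((k : ℝ) + 1) < |F (a, k)|)) : Part Bool) := hc.partrec.to₂
  have hr := Partrec.rfind hp
  have hex : ∀ a, ∃ k : ℕ, 2 / ((k : ℝ) + 1) < |F (a, k)| := by
    intro a
    have hpos : 0 < |f a| := abs_pos.2 (h0 a)
    obtain ⟨k, hk⟩ := exists_nat_gt (3 / |f a|)
    refine ⟨k, ?_⟩
    have h1 := eF a k
    have h2 : |f a| ≤ |F (a, k)| + 1 / ((k : ℝ) + 1) := by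
      have h3 : |f a| ≤ |F (a, k)| + |f a - F (a, k)| := by
        have := abs_add_le (F (a, k)) (f a - F (a, k))
        simpa using this
      linarith
    have h4 : 3 / ((k : ℝ) + 1) < |f a| := by
      rw [div_lt_iff₀ (by positivity)]
      rw [div_lt_iff₀ hpos] at hk
      nlinarith
    have h5 : (3 : ℝ) / ((k : ℝ) + 1) = 2 / ((k : ℝ) + 1) + 1 / ((k : ℝ) + 1) := by ring
    linarith
  have hdom : ∀ a, (Nat.rfind fun k =>
      (Part.some (decide (2 / ((k : ℝ) + 1) < |F (a, k)|)) : Part Bool)).Dom := by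
    intro a
    obtain ⟨k, hk⟩ := hex a
    exact Nat.rfind_dom.2 ⟨k, by simpa using hk, fun _ => trivial⟩
  refine ⟨fun a => (Nat.rfind fun k =>
      (Part.some (decide (2 / ((k : ℝ) + 1) < |F (a, k)|)) : Part Bool)).get (hdom a), ?_, ?_⟩
  · exact Partrec.of_eq_tot hr fun a => Part.get_mem _
  · intro a
    set k := (Nat.rfind fun k =>
      (Part.some (decide (2 / ((k : ℝ) + 1) < |F (a, k)|)) : Part Bool)).get (hdom a) with hk
    have hm : k ∈ Nat.rfind fun k =>
      (Part.some (decide (2 / ((k : ℝ) + 1) < |F (a, k)|)) : Part Bool) := Part.get_mem _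
    have h1 := Nat.rfind_spec hm
    have h2 : 2 / ((k : ℝ) + 1) < |F (a, k)| := by simpa using h1
    have h3 := eF a k
    have h4 : |F (a, k)| ≤ |f a| + |f a - F (a, k)| := by
      have := abs_add_le (f a) (F (a, k) - f a)
      rw [abs_sub_comm (F (a, k))] at this
      simpa using this
    have h5 : (2 : ℝ) / ((k : ℝ) + 1) = 1 / ((k : ℝ) + 1) + 1 / ((k : ℝ) + 1) := by ring
    linarith

/-- Inverse, given a computable lower bound. -/
theorem CReal.inv_of_lower {f : α → ℝ} (hf : CReal f) {L : α → ℕ} (hL : Computable L)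
    (h : ∀ a, 1 / ((L a : ℝ) + 1) ≤ |f a|) : CReal fun a => (f a)⁻¹ := by
  obtain ⟨F, hF, eF⟩ := hf.exists_crat
  have hF' : CRat fun p : α × ℕ => F (p.1, p.2 + 2 * (L p.1 + 1)) :=
    hF.comp (Computable.pair Computable.fst
      (computable_nat_add Computable.snd
        (computable_nat_mul (Computable.const 2) (computable_nat_succ (hL.comp Computable.fst)))))
  refine CReal.intro _ hF'.inv (fun a => 2 * (L a + 1) ^ 2)
    (computable_nat_mul (Computable.const 2)
      (computable_nat_pow (computable_nat_succ hL) (Computable.const 2))) fun a k => ?_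
  set l : ℝ := (L a : ℝ) + 1 with hl
  have hlpos : 0 < l := by positivity
  set m : ℕ := k + 2 * (L a + 1) with hm
  have h1 := eF a m
  have hla := h a
  rw [← hl] at hla
  have hmr : ((m : ℝ) + 1) = (k : ℝ) + 1 + 2 * l := by
    rw [hm, hl]; push_cast; ring
  have hm1 : 1 / ((m : ℝ) + 1) ≤ 1 / (2 * l) := by
    rw [hmr]
    apply one_div_le_one_div_of_le (by positivity)
    have : (0 : ℝ) ≤ k := by positivity
    linarith
  have hm2 : 1 / ((m : ℝ) + 1) ≤ 1 / ((k : ℝ) + 1) := by
    rw [hmr]
    apply one_div_le_one_div_of_le (by positivity)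
    linarith
  have h2 : 1 / (2 * l) ≤ |F (a, m)| := by
    have h4 : |f a| ≤ |F (a, m)| + |f a - F (a, m)| := by
      have := abs_add_le (F (a, m)) (f a - F (a, m))
      simpa using this
    have h5 : 1 / l = 1 / (2 * l) + 1 / (2 * l) := by
      field_simp
      norm_num
    linarith
  have hfa : f a ≠ 0 := by
    intro h0
    rw [h0, abs_zero] at hla
    have : 0 < 1 / l := by positivity
    linarith
  have hFa : F (a, m) ≠ 0 := by
    intro h0
    rw [h0, abs_zero] at h2
    have : 0 < 1 / (2 * l) := by positivity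
    linarith
  have h3 : (f a)⁻¹ - (F (a, m))⁻¹ = (F (a, m) - f a) / (f a * F (a, m)) := by
    field_simp
  have hgoal : |(f a)⁻¹ - (F (a, m))⁻¹| ≤ 2 * l ^ 2 * (1 / ((k : ℝ) + 1)) := by
    rw [h3, abs_div, abs_mul, abs_sub_comm]
    have hden : 1 / l * (1 / (2 * l)) ≤ |f a| * |F (a, m)| :=
      mul_le_mul hla h2 (by positivity) (abs_nonneg _)
    have hden0 : 0 < 1 / l * (1 / (2 * l)) := by positivity
    calc |f a - F (a, m)| / (|f a| * |F (a, m)|)
        ≤ (1 / ((k : ℝ) + 1)) / (1 / l * (1 / (2 * l))) :=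
          div_le_div₀ (by positivity) (h1.trans hm2) hden0 hden
      _ = 2 * l ^ 2 * (1 / ((k : ℝ) + 1)) := by
          field_simp
  simp only
  refine hgoal.trans (le_of_eq ?_)
  rw [hl]
  push_cast
  ring

theorem CReal.inv {f : α → ℝ} (hf : CReal f) (h0 : ∀ a, f a ≠ 0) : CReal fun a => (f a)⁻¹ := by
  obtain ⟨L, hL, h⟩ := hf.exists_lower h0
  exact hf.inv_of_lower hL h

theorem CReal.div {f g : α → ℝ} (hf : CReal f) (hg : CReal g) (h0 : ∀ a, g a ≠ 0) :
    CReal fun a => f a / g a :=
  (hf.mul (hg.inv h0)).of_eq fun a => by rw [div_eq_mul_inv]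

/-- Substituting a computable family of reals into a function that is computable at rational
arguments and locally Lipschitz with computable constants. -/
theorem CReal.subst {f : α → ℝ} (hf : CReal f) {φ : α → ℝ → ℝ}
    (hφ : CReal fun p : α × RatCode => φ p.1 (ratVal p.2))
    {B : α → ℕ} (hB : ∀ a, |f a| ≤ B a) {C : α → ℕ} (hC : Computable C)
    (hL : ∀ a x y, |x| ≤ (B a : ℝ) + 1 → |y| ≤ (B a : ℝ) + 1 → |φ a x - φ a y| ≤ C a * |x - y|) :
    CReal fun a => φ a (f a) := by
  obtain ⟨g, hg, eg⟩ := hf
  have h1 : CReal fun p : α × ℕ => φ p.1 (ratVal (g p)) :=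
    hφ.comp (h := fun p : α × ℕ => (p.1, g p)) (Computable.pair Computable.fst hg)
  obtain ⟨G, hG, eG⟩ := h1.exists_crat
  refine CReal.intro (fun p => G (p, p.2)) (hG.comp (Computable.pair Computable.id Computable.snd))
    (fun a => C a + 1) (computable_nat_succ hC) fun a k => ?_
  have h2 := eG (a, k) k
  have h3 := eg a k
  have hk : 1 / ((k : ℝ) + 1) ≤ 1 := by
    rw [div_le_one (by positivity)]
    have : (0 : ℝ) ≤ k := by positivity
    linarith
  have hb := hB a
  have hy : |ratVal (g (a, k))| ≤ (B a : ℝ) + 1 := by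
    rw [abs_le] at h3 hb ⊢
    constructor <;> linarith [h3.1, h3.2, hb.1, hb.2]
  have h4 := hL a (f a) (ratVal (g (a, k))) (by linarith) hy
  have h5 : (C a : ℝ) * |f a - ratVal (g (a, k))| ≤ C a * (1 / ((k : ℝ) + 1)) :=
    mul_le_mul_of_nonneg_left h3 (by positivity)
  have h6 : φ a (f a) - G ((a, k), k) = (φ a (f a) - φ a (ratVal (g (a, k))))
      + (φ a (ratVal (g (a, k))) - G ((a, k), k)) := by ring
  simp only
  rw [h6]
  refine (abs_add_le _ _).trans ((add_le_add (h4.trans h5) h2).trans (le_of_eq ?_))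
  push_cast
  ring

end Vale.Agent.P113
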