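import Mathlib

/-!
# Definitions for P113: halting detection by particle trajectories of forced Navier-Stokes flows

Fields on the flat torus `(ℝ/ℤ)³` are represented by their `ℤ³`-periodic lifts to `ℝ³`.
-/

open scoped ContDiff

namespace Vale.Agent.P113

/-! ## Rational and computable real numbers as data -/

/-- A triple `(a, b, c)` of natural numbers codes the rational number `(a - b) / (c + 1)`. -/
abbrev RatCode := ℕ × ℕ × ℕ

/-- The rational number (as a real number) with code `q`. -/
noncomputable def ratVal (q : RatCode) : ℝ :=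
  ((q.1 : ℝ) - (q.2.1 : ℝ)) / ((q.2.2 : ℝ) + 1)

/-- `x` is a computable real: an algorithm approximates it by rationals to any accuracy. -/
def ComputableReal (x : ℝ) : Prop :=
  ∃ g : ℕ → RatCode, Computable g ∧ ∀ k : ℕ, |x - ratVal (g k)| ≤ 1 / ((k : ℝ) + 1)

/-! ## Turing machines -/

/-- A deterministic one-tape Turing machine with states `0, ..., n`, tape symbols `0, ..., m`,
a start state, a blank symbol, a set of halting states and a transition table.
`next q s = (q', s', d)`: in state `q` reading `s`, go to state `q'`, write `s'` and move the head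
by `d - 1`, so `d = 0, 1, 2` mean a move to the left, no move, a move to the right. -/
structure Machine where
  n : ℕ
  m : ℕ
  start : Fin (n + 1)
  blank : Fin (m + 1)
  halting : Fin (n + 1) → Bool
  next : Fin (n + 1) → Fin (m + 1) → Fin (n + 1) × Fin (m + 1) × Fin 3

/-- A configuration: the state, the head position, and the two-sided infinite tape. -/
structure Machine.Config (M : Machine) where
  state : Fin (M.n + 1)
  pos : ℤ
  tape : ℤ → Fin (M.m + 1)

/-- One step of the machine (halting configurations do not change). -/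
def Machine.step (M : Machine) (c : M.Config) : M.Config :=
  if M.halting c.state then c
  else
    { state := (M.next c.state (c.tape c.pos)).1
      pos := c.pos + (((M.next c.state (c.tape c.pos)).2.2 : ℕ) : ℤ) - 1
      tape := Function.update c.tape c.pos (M.next c.state (c.tape c.pos)).2.1 }

/-- The initial configuration: the word `w` is written on the cells `0, 1, ...` of an otherwise
blank tape, and the head is at the cell `0`. -/
def Machine.init (M : Machine) (w : List (Fin (M.m + 1))) : M.Config where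
  state := M.start
  pos := 0
  tape := fun z => if 0 ≤ z then w.getD z.toNat M.blank else M.blank

/-- `M` halts on `w`: a halting state is reached after finitely many steps, possibly none. -/
def Machine.Halts (M : Machine) (w : List (Fin (M.m + 1))) : Prop :=
  ∃ k : ℕ, M.halting (M.step^[k] (M.init w)).state = true

/-- The finite data that describe a machine: numbers of states and symbols (minus one), start
state, blank, halting flags, and the transition table. -/
abbrev Desc := ℕ × ℕ × ℕ × ℕ × List Bool × List (List (ℕ × ℕ × ℕ))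

/-- The description of a machine as finite data. -/
def Machine.describe (M : Machine) : Desc :=
  (M.n, M.m, M.start, M.blank, List.ofFn M.halting,
    List.ofFn fun q => List.ofFn fun s =>
      (((M.next q s).1 : ℕ), ((M.next q s).2.1 : ℕ), ((M.next q s).2.2 : ℕ)))

/-! ## Fields on the torus and the Navier-Stokes system -/

/-- Points and vectors of `ℝ³`. -/
abbrev V3 := Fin 3 → ℝ

/-- The covering map `ℝ³ → (ℝ/ℤ)³`. -/
def toTorus (x : V3) : UnitAddTorus (Fin 3) := fun i => (x i : UnitAddCircle)

/-- `g` is the lift of a function on the torus. -/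
def Periodic3 {α : Type*} (g : V3 → α) : Prop :=
  ∀ (x : V3) (n : Fin 3 → ℤ), g (fun i => x i + (n i : ℝ)) = g x

/-- `(u, p)` is a classical solution on `[0,T] × (ℝ/ℤ)³` of the forced incompressible
Navier-Stokes system with viscosity `ν`, force `f` and zero initial velocity:
`u`, `∂ₜu`, the spatial derivatives of `u` up to order two, `p` and `∇p` exist and are continuous
on `[0,T] × (ℝ/ℤ)³`, the equations hold pointwise, and `p` has spatial mean zero.
Here `ut = ∂ₜu`, `du j = ∂ⱼu`, `ddu j k = ∂ₖ∂ⱼu` and `dp j = ∂ⱼp`. -/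
structure IsClassicalSolution (ν : ℝ) (f : ℝ → V3 → V3) (T : ℝ)
    (u : ℝ → V3 → V3) (p : ℝ → V3 → ℝ) : Prop where
  periodic_u : ∀ t ∈ Set.Icc 0 T, Periodic3 (u t)
  periodic_p : ∀ t ∈ Set.Icc 0 T, Periodic3 (p t)
  initial : ∀ x, u 0 x = 0
  mean_zero : ∀ t ∈ Set.Icc 0 T, ∫ x in Set.Icc (0 : V3) 1, p t x = 0
  cont_u : ContinuousOn (fun z : ℝ × V3 => u z.1 z.2) (Set.Icc 0 T ×ˢ Set.univ)
  cont_p : ContinuousOn (fun z : ℝ × V3 => p z.1 z.2) (Set.Icc 0 T ×ˢ Set.univ)
  equations : ∃ (ut : ℝ → V3 → V3) (du : Fin 3 → ℝ → V3 → V3)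
      (ddu : Fin 3 → Fin 3 → ℝ → V3 → V3) (dp : Fin 3 → ℝ → V3 → ℝ),
    ContinuousOn (fun z : ℝ × V3 => ut z.1 z.2) (Set.Icc 0 T ×ˢ Set.univ) ∧
    (∀ j, ContinuousOn (fun z : ℝ × V3 => du j z.1 z.2) (Set.Icc 0 T ×ˢ Set.univ)) ∧
    (∀ j k, ContinuousOn (fun z : ℝ × V3 => ddu j k z.1 z.2) (Set.Icc 0 T ×ˢ Set.univ)) ∧
    (∀ j, ContinuousOn (fun z : ℝ × V3 => dp j z.1 z.2) (Set.Icc 0 T ×ˢ Set.univ)) ∧
    (∀ t ∈ Set.Icc 0 T, ∀ x,
      HasDerivWithinAt (fun s => u s x) (ut t x) (Set.Icc 0 T) t ∧
      (∀ j, HasDerivAt (fun s => u t (Function.update x j s)) (du j t x) (x j)) ∧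
      (∀ j k, HasDerivAt (fun s => du j t (Function.update x k s)) (ddu j k t x) (x k)) ∧
      (∀ j, HasDerivAt (fun s => p t (Function.update x j s)) (dp j t x) (x j)) ∧
      (∀ i, ut t x i + ∑ j, u t x j * du j t x i
        = - dp i t x + ν * ∑ j, ddu j j t x i + f t x i) ∧
      ∑ j, du j t x j = 0)

/-- `X` is (the lift of) the particle trajectory of the velocity field `u` starting at `a`. -/
def IsTrajectory (u : ℝ → V3 → V3) (a : V3) (X : ℝ → V3) : Prop :=
  X 0 = a ∧ ∀ t, 0 ≤ t → HasDerivWithinAt X (u t (X t)) (Set.Ici 0) t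

/-! ## Effective forces -/

/-- The derivative with respect to the `j`-th variable of a function on `ℝ⁴`. -/
noncomputable def pderiv (j : Fin 4) (g : (Fin 4 → ℝ) → ℝ) : (Fin 4 → ℝ) → ℝ :=
  fun y => deriv (fun s => g (Function.update y j s)) (y j)

/-- Mixed derivative `∂_{j₁} ∂_{j₂} ⋯ g` along a list `[j₁, j₂, ...]` of variables. -/
noncomputable def mixedDeriv (l : List (Fin 4)) (g : (Fin 4 → ℝ) → ℝ) : (Fin 4 → ℝ) → ℝ :=
  l.foldr pderiv g

/-- The `i`-th component of a time-dependent vector field as a function of `(t, x₁, x₂, x₃)`. -/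
def component (f : ℝ → V3 → V3) (i : Fin 3) : (Fin 4 → ℝ) → ℝ :=
  fun y => f (y 0) (fun m => y m.succ) i

/-- The program `c` returns each mixed derivative (in time and space) of each component of `f` at
each rational point to any prescribed accuracy `1 / (k + 1)`. -/
def Computes (c : Nat.Partrec.Code) (f : ℝ → V3 → V3) : Prop :=
  ∀ (l : List (Fin 4)) (i : Fin 3) (q₀ q₁ q₂ q₃ : RatCode) (k : ℕ), ∃ r : RatCode,
    Encodable.encode r ∈ c.eval (Encodable.encode (l, i, (q₀, q₁, q₂, q₃), k)) ∧
    |mixedDeriv l (component f i) ![ratVal q₀, ratVal q₁, ratVal q₂, ratVal q₃] - ratVal r|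
      ≤ 1 / ((k : ℝ) + 1)

end Vale.Agent.P113
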