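import Vale.Agent.Lib.P113.Iface

/-!
# Reversible simulation of a Turing machine by a two-stack rewriting system

Stack `A` is a control digit on top of the left part of the tape, stack `B` is the right part of
the tape with the head cell on top. Both stacks also contain junk digits, which record the history
of the computation and are skipped when the head moves.
-/

namespace Vale.Agent.P113

namespace Dis

/-! ## Words -/

theorem compat_nil_left (v : List ℕ) : Compat [] v ↔ True := by simp [Compat]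

theorem compat_nil_right (v : List ℕ) : Compat v [] ↔ True := by simp [Compat]

theorem compat_cons (a b : ℕ) (u v : List ℕ) :
    Compat (a :: u) (b :: v) ↔ a = b ∧ Compat u v := by
  unfold Compat
  constructor
  · rintro (h | h)
    · have := List.cons_prefix_cons.1 h
      exact ⟨this.1, Or.inl this.2⟩
    · have := List.cons_prefix_cons.1 h
      exact ⟨this.1.symm, Or.inr this.2⟩
  · rintro ⟨rfl, h | h⟩
    · exact Or.inl (List.cons_prefix_cons.2 ⟨rfl, h⟩)
    · exact Or.inr (List.cons_prefix_cons.2 ⟨rfl, h⟩)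

theorem padEq_refl (u : List ℕ) : PadEq u u := ⟨0, 0, rfl⟩

theorem padEq_head (u : List ℕ) : PadEq u (u.headD 0 :: u.tail) := by
  cases u with
  | nil => exact ⟨1, 0, rfl⟩
  | cons a u => exact padEq_refl _

theorem padEq_cons (a : ℕ) {u v : List ℕ} (h : PadEq u v) : PadEq (a :: u) (a :: v) := by
  obtain ⟨k, l, h⟩ := h
  exact ⟨k, l, by simp [h]⟩

theorem padEq_cons_head {a b : ℕ} {u v : List ℕ} (h : PadEq (a :: u) (b :: v)) : a = b := by
  obtain ⟨k, l, h⟩ := h
  simp only [List.cons_append, List.cons.injEq] at h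
  exact h.1

/-! ## Digits -/

def nQ (D : Desc) : ℕ := D.1 + 1
def nS (D : Desc) : ℕ := D.2.1 + 1
def startOf (D : Desc) : ℕ := D.2.2.1
def blankOf (D : Desc) : ℕ := D.2.2.2.1

/-- Exchange of `0` and `b`. -/
def sw (b s : ℕ) : ℕ := if s = b then 0 else if s = 0 then b else s

/-- Transition table, indexed by digits. -/
def tb (D : Desc) (q c : ℕ) : ℕ × ℕ × ℕ :=
  (D.2.2.2.2.2.getD q []).getD (sw (blankOf D) c) (0, 0, 0)

def hl (D : Desc) (q : ℕ) : Bool := D.2.2.2.2.1.getD q true

def J0 (D : Desc) : ℕ := nS D + 3 * nQ D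

def num (D : Desc) : ℕ := J0 D + 2 + nQ D * nS D

def rj (D : Desc) (q c : ℕ) : ℕ := J0 D + 2 + (q * nS D + c)

def st (D : Desc) (q f : ℕ) : ℕ := nS D + (3 * q + f)

theorem sw_sw (b s : ℕ) : sw b (sw b s) = s := by
  unfold sw; split_ifs <;> omega

theorem sw_lt {b s S : ℕ} (hb : b < S) (hs : s < S) : sw b s < S := by
  unfold sw; split_ifs <;> omega

theorem rj_inj {D : Desc} {q c q' c' : ℕ} (hc : c < nS D) (hc' : c' < nS D)
    (h : rj D q c = rj D q' c') : q = q' ∧ c = c' := by
  unfold rj at h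
  have h1 : q * nS D + c = q' * nS D + c' := by omega
  have h2 : (q * nS D + c) / nS D = q := by
    rw [Nat.mul_comm, Nat.mul_add_div (by omega), Nat.div_eq_of_lt hc, Nat.add_zero]
  have h3 : (q' * nS D + c') / nS D = q' := by
    rw [Nat.mul_comm, Nat.mul_add_div (by omega), Nat.div_eq_of_lt hc', Nat.add_zero]
  have h4 : q = q' := by rw [← h2, ← h3, h1]
  subst h4
  exact ⟨rfl, by omega⟩

theorem rj_ge (D : Desc) (q c : ℕ) : J0 D + 2 ≤ rj D q c := by unfold rj; omega

theorem rj_lt {D : Desc} {q c : ℕ} (hq : q < nQ D) (hc : c < nS D) : rj D q c < num D := by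
  unfold rj num
  have : q * nS D + c < nQ D * nS D := by
    calc q * nS D + c < q * nS D + nS D := by omega
      _ = (q + 1) * nS D := by ring
      _ ≤ nQ D * nS D := Nat.mul_le_mul_right _ hq
  omega

theorem st_lt {D : Desc} {q f : ℕ} (hq : q < nQ D) (hf : f < 3) : st D q f < J0 D := by
  unfold st J0; omega

theorem J0_lt (D : Desc) : J0 D + 1 < num D := by
  unfold num
  have : 0 < nQ D * nS D := Nat.mul_pos (Nat.succ_pos _) (Nat.succ_pos _)
  omega

theorem nS_pos (D : Desc) : 0 < nS D := Nat.succ_pos _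

theorem nS_le (D : Desc) : nS D ≤ J0 D := by unfold J0; omega

/-! ## The rules -/

/-- The rule with index `(q, c, f)`, if any. -/
def ruleOpt (D : Desc) (i : ℕ × ℕ × ℕ) : Option Rule :=
  if i.2.2 = 0 then
    if i.2.1 < nS D then
      if hl D i.1 = true then none
      else if (tb D i.1 i.2.1).2.2 = 2 then
        some ([st D i.1 0], [i.2.1],
          [st D (tb D i.1 i.2.1).1 1, sw (blankOf D) (tb D i.1 i.2.1).2.1, rj D i.1 i.2.1], [])
      else if (tb D i.1 i.2.1).2.2 = 0 then
        some ([st D i.1 0], [i.2.1], [st D (tb D i.1 i.2.1).1 2],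
          [sw (blankOf D) (tb D i.1 i.2.1).2.1, rj D i.1 i.2.1])
      else
        some ([st D i.1 0], [i.2.1], [st D (tb D i.1 i.2.1).1 0, rj D i.1 i.2.1],
          [sw (blankOf D) (tb D i.1 i.2.1).2.1])
    else none
  else if i.2.2 = 1 then
    if i.2.1 < nS D then some ([st D i.1 1], [i.2.1], [st D i.1 0, J0 D + 1], [i.2.1])
    else if J0 D ≤ i.2.1 then some ([st D i.1 1], [i.2.1], [st D i.1 1, i.2.1], [])
    else none
  else
    if i.2.1 < nS D then some ([st D i.1 2, i.2.1], [], [st D i.1 0, J0 D], [i.2.1])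
    else if J0 D ≤ i.2.1 then some ([st D i.1 2, i.2.1], [], [st D i.1 2], [i.2.1])
    else none

def idx (D : Desc) : List (ℕ × ℕ × ℕ) :=
  (List.range (nQ D)).product ((List.range (num D)).product (List.range 3))

def rules (D : Desc) : List Rule := (idx D).filterMap (ruleOpt D)

/-- Digits of ready control symbols for halting states. -/
def hs (D : Desc) : List ℕ :=
  (List.range (nQ D)).filterMap fun q => if hl D q = true then some (st D q 0) else none

def ini (p : Desc × List ℕ) : List ℕ × List ℕ :=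
  ([st p.1 (startOf p.1) 0], p.2.map (sw (blankOf p.1)))

theorem mem_idx {D : Desc} {i : ℕ × ℕ × ℕ} :
    i ∈ idx D ↔ i.1 < nQ D ∧ i.2.1 < num D ∧ i.2.2 < 3 := by
  obtain ⟨q, c, f⟩ := i
  simp [idx, List.pair_mem_product]

theorem idx_nodup (D : Desc) : (idx D).Nodup :=
  List.nodup_range.product (List.nodup_range.product List.nodup_range)

theorem dom_inj {D : Desc} {i j : ℕ × ℕ × ℕ} (hi : i.2.2 < 3) (hj : j.2.2 < 3) {r s : Rule}
    (hr : ruleOpt D i = some r) (hs : ruleOpt D j = some s) (h1 : Compat r.1 s.1)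
    (h2 : Compat r.2.1 s.2.1) : i = j := by
  obtain ⟨q, c, f⟩ := i
  obtain ⟨q', c', f'⟩ := j
  unfold ruleOpt at hr hs
  simp only [Prod.mk.injEq] at *
  split_ifs at hr hs <;>
    (simp only [Option.some.injEq] at hr hs; subst hr; subst hs;
      simp only [compat_cons, compat_nil_left, and_true, st] at h1 h2; omega)

/-- The new symbols written by the table are symbols. -/
def WF (D : Desc) : Prop :=
  ∀ q c, q < nQ D → c < nS D → sw (blankOf D) (tb D q c).2.1 < nS D ∧ (tb D q c).1 < nQ D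

theorem img_inj {D : Desc} (hD : WF D) {i j : ℕ × ℕ × ℕ} (hi : i.2.2 < 3) (hj : j.2.2 < 3)
    (hi' : i.1 < nQ D) (hj' : j.1 < nQ D)
    {r s : Rule} (hr : ruleOpt D i = some r) (hs : ruleOpt D j = some s)
    (h1 : Compat r.2.2.1 s.2.2.1) (h2 : Compat r.2.2.2 s.2.2.2) : i = j := by
  obtain ⟨q, c, f⟩ := i
  obtain ⟨q', c', f'⟩ := j
  have hJ := nS_le D
  have hrj := rj_ge D q c
  have hrj' := rj_ge D q' c'
  have hinj := @rj_inj D q c q' c'
  have hw := hD q c hi'
  have hw' := hD q' c' hj'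
  simp only at *
  unfold ruleOpt at hr hs
  simp only at hr hs
  split_ifs at hr hs with a1 a2 a3 a4 a5 a6 a7 a8 a9 a10 a11 a12 a13 a14 <;>
    (simp only [Option.some.injEq] at hr hs; subst hr; subst hs;
      simp only [compat_cons, compat_nil_left, compat_nil_right, and_true, st] at h1 h2;
      simp only [Prod.mk.injEq]; omega)

theorem rules_dom (D : Desc) :
    (rules D).Pairwise fun r s => ¬ (Compat r.1 s.1 ∧ Compat r.2.1 s.2.1) := by
  unfold rules
  rw [List.pairwise_filterMap]
  refine (idx_nodup D).imp_of_mem ?_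
  intro i j hi hj hij r hr s hs hc
  exact hij (dom_inj (mem_idx.1 hi).2.2 (mem_idx.1 hj).2.2 hr hs hc.1 hc.2)

theorem rules_img {D : Desc} (hD : WF D) :
    (rules D).Pairwise fun r s => ¬ (Compat r.2.2.1 s.2.2.1 ∧ Compat r.2.2.2 s.2.2.2) := by
  unfold rules
  rw [List.pairwise_filterMap]
  refine (idx_nodup D).imp_of_mem ?_
  intro i j hi hj hij r hr s hs hc
  exact hij (img_inj hD (mem_idx.1 hi).2.2 (mem_idx.1 hj).2.2 (mem_idx.1 hi).1 (mem_idx.1 hj).1
    hr hs hc.1 hc.2)

theorem mem_rules {D : Desc} {i : ℕ × ℕ × ℕ} {r : Rule} (h1 : i.1 < nQ D)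
    (h2 : i.2.1 < num D) (h3 : i.2.2 < 3) (hr : ruleOpt D i = some r) : r ∈ rules D := by
  unfold rules
  rw [List.mem_filterMap]
  exact ⟨i, mem_idx.2 ⟨h1, h2, h3⟩, hr⟩

theorem rules_digits {D : Desc} (hD : WF D) : ∀ r ∈ rules D,
    (∀ d ∈ r.1, d < num D) ∧ (∀ d ∈ r.2.1, d < num D) ∧
    (∀ d ∈ r.2.2.1, d < num D) ∧ (∀ d ∈ r.2.2.2, d < num D) := by
  intro r hr
  unfold rules at hr
  rw [List.mem_filterMap] at hr
  obtain ⟨⟨q, c, f⟩, hi, hr⟩ := hr
  obtain ⟨h1, h2, h3⟩ := mem_idx.1 hi
  simp only at h1 h2 h3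
  have hJ := J0_lt D
  have hS := nS_le D
  have hst : ∀ q' f', q' < nQ D → f' < 3 → st D q' f' < num D := fun q' f' a b =>
    (st_lt a b).trans (by omega)
  have a0 := hst q 0 h1 (by norm_num)
  have a1 := hst q 1 h1 (by norm_num)
  have a2 := hst q 2 h1 (by norm_num)
  unfold ruleOpt at hr
  simp only at hr
  split_ifs at hr with b1 b2 b3 b4 b5 b6 b7 b8 b9 b10
  all_goals
    simp only [Option.some.injEq] at hr
    subst hr
  · obtain ⟨w1, w2⟩ := hD q c h1 b2
    have a3 := hst _ 1 w2 (by norm_num)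
    have a4 := rj_lt h1 b2
    refine ⟨?_, ?_, ?_, ?_⟩ <;> simp <;> omega
  · obtain ⟨w1, w2⟩ := hD q c h1 b2
    have a3 := hst _ 2 w2 (by norm_num)
    have a4 := rj_lt h1 b2
    refine ⟨?_, ?_, ?_, ?_⟩ <;> simp <;> omega
  · obtain ⟨w1, w2⟩ := hD q c h1 b2
    have a3 := hst _ 0 w2 (by norm_num)
    have a4 := rj_lt h1 b2
    refine ⟨?_, ?_, ?_, ?_⟩ <;> simp <;> omega
  all_goals
    refine ⟨?_, ?_, ?_, ?_⟩ <;> simp <;> omega

theorem mem_hs {D : Desc} {h : ℕ} : h ∈ hs D ↔ ∃ q, q < nQ D ∧ hl D q = true ∧ h = st D q 0 := by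
  unfold hs
  rw [List.mem_filterMap]
  constructor
  · rintro ⟨q, hq, h1⟩
    rw [List.mem_range] at hq
    split_ifs at h1 with h2
    simp only [Option.some.injEq] at h1
    exact ⟨q, hq, h2, h1.symm⟩
  · rintro ⟨q, hq, h1, rfl⟩
    exact ⟨q, List.mem_range.2 hq, by simp [h1]⟩

theorem hs_nodup (D : Desc) : (hs D).Nodup := by
  unfold hs
  apply List.Nodup.filterMap _ List.nodup_range
  intro a a' b h1 h2
  simp only [Option.mem_def] at h1 h2
  split_ifs at h1 h2
  simp only [Option.some.injEq] at h1 h2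
  unfold st at h1 h2
  omega

theorem rules_not_halt (D : Desc) : ∀ r ∈ rules D, ∃ h t, r.1 = h :: t ∧ h ∉ hs D := by
  intro r hr
  unfold rules at hr
  rw [List.mem_filterMap] at hr
  obtain ⟨⟨q, c, f⟩, hi, hr⟩ := hr
  unfold ruleOpt at hr
  simp only at hr
  split_ifs at hr with b1 b2 b3 b4 b5 b6 b7 b8 b9 b10
  all_goals
    simp only [Option.some.injEq] at hr
    subst hr
    refine ⟨_, _, rfl, ?_⟩
    rw [mem_hs]
    rintro ⟨q', _, h1, h2⟩
    unfold st at h2
    have : q = q' := by omega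
    subst this
    first
      | exact b3 h1
      | omega

/-! ## The deterministic system on abstract configurations `(f, q, A, B)` -/

/-- Abstract configurations. -/
structure X where
  f : ℕ
  q : ℕ
  A : List ℕ
  B : List ℕ

def X.stacks (D : Desc) (x : X) : List ℕ × List ℕ := (st D x.q x.f :: x.A, x.B)

def nx (D : Desc) (x : X) : X :=
  if x.f = 0 then
    if hl D x.q = true then x
    else if (tb D x.q (x.B.headD 0)).2.2 = 2 then
      ⟨1, (tb D x.q (x.B.headD 0)).1, sw (blankOf D) (tb D x.q (x.B.headD 0)).2.1 ::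
        rj D x.q (x.B.headD 0) :: x.A, x.B.tail⟩
    else if (tb D x.q (x.B.headD 0)).2.2 = 0 then
      ⟨2, (tb D x.q (x.B.headD 0)).1, x.A, sw (blankOf D) (tb D x.q (x.B.headD 0)).2.1 ::
        rj D x.q (x.B.headD 0) :: x.B.tail⟩
    else
      ⟨0, (tb D x.q (x.B.headD 0)).1, rj D x.q (x.B.headD 0) :: x.A,
        sw (blankOf D) (tb D x.q (x.B.headD 0)).2.1 :: x.B.tail⟩
  else if x.f = 1 then
    if x.B.headD 0 < nS D then ⟨0, x.q, (J0 D + 1) :: x.A, x.B.headD 0 :: x.B.tail⟩
    else ⟨1, x.q, x.B.headD 0 :: x.A, x.B.tail⟩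
  else
    if x.A.headD 0 < nS D then ⟨0, x.q, J0 D :: x.A.tail, x.A.headD 0 :: x.B⟩
    else ⟨2, x.q, x.A.tail, x.A.headD 0 :: x.B⟩

/-- Digits that may occur below the control digit. -/
def GD (D : Desc) (d : ℕ) : Prop := d < nS D ∨ (J0 D ≤ d ∧ d < num D)

structure Valid (D : Desc) (x : X) : Prop where
  f_lt : x.f < 3
  q_lt : x.q < nQ D
  hA : ∀ d ∈ x.A, GD D d
  hB : ∀ d ∈ x.B, GD D d
  top : x.f = 0 → x.B.headD 0 < nS D

theorem headD_good {D : Desc} {l : List ℕ} (h : ∀ d ∈ l, GD D d) : GD D (l.headD 0) := by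
  cases l with
  | nil => exact Or.inl (nS_pos D)
  | cons a l => exact h a (by simp)

theorem tail_good {D : Desc} {l : List ℕ} (h : ∀ d ∈ l, GD D d) : ∀ d ∈ l.tail, GD D d :=
  fun d hd => h d (List.mem_of_mem_tail hd)

theorem cons_good {D : Desc} {a : ℕ} {l : List ℕ} (ha : GD D a) (h : ∀ d ∈ l, GD D d) :
    ∀ d ∈ a :: l, GD D d := by
  intro d hd
  rcases List.mem_cons.1 hd with rfl | hd
  · exact ha
  · exact h d hd

theorem valid_nx {D : Desc} (hD : WF D) {x : X} (h : Valid D x) : Valid D (nx D x) := by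
  have hb := headD_good h.hB
  have hbt := tail_good h.hB
  have ha := headD_good h.hA
  have hat := tail_good h.hA
  have hj0 : GD D (J0 D) := Or.inr ⟨le_rfl, by have := J0_lt D; omega⟩
  have hj1 : GD D (J0 D + 1) := Or.inr ⟨by omega, J0_lt D⟩
  unfold nx
  split_ifs with h0 h1 h2 h3 h4 h5 h6
  · exact h
  · have ht := h.top h0
    obtain ⟨w1, w2⟩ := hD _ _ h.q_lt ht
    have hr : GD D (rj D x.q (x.B.headD 0)) :=
      Or.inr ⟨by have := rj_ge D x.q (x.B.headD 0); omega, rj_lt h.q_lt ht⟩
    exact ⟨by norm_num, w2, cons_good (Or.inl w1) (cons_good hr h.hA), hbt, by intro h; simp at h⟩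
  · have ht := h.top h0
    obtain ⟨w1, w2⟩ := hD _ _ h.q_lt ht
    have hr : GD D (rj D x.q (x.B.headD 0)) :=
      Or.inr ⟨by have := rj_ge D x.q (x.B.headD 0); omega, rj_lt h.q_lt ht⟩
    exact ⟨by norm_num, w2, h.hA, cons_good (Or.inl w1) (cons_good hr hbt), by intro h; simp at h⟩
  · have ht := h.top h0
    obtain ⟨w1, w2⟩ := hD _ _ h.q_lt ht
    have hr : GD D (rj D x.q (x.B.headD 0)) :=
      Or.inr ⟨by have := rj_ge D x.q (x.B.headD 0); omega, rj_lt h.q_lt ht⟩
    exact ⟨by norm_num, w2, cons_good hr h.hA, cons_good (Or.inl w1) hbt, fun _ => w1⟩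
  · exact ⟨by norm_num, h.q_lt, cons_good hj1 h.hA, cons_good hb hbt, fun _ => h5⟩
  · exact ⟨by norm_num, h.q_lt, cons_good hb h.hA, hbt, by intro h; simp at h⟩
  · exact ⟨by norm_num, h.q_lt, cons_good hj0 hat, cons_good ha h.hB, fun _ => h6⟩
  · exact ⟨by norm_num, h.q_lt, hat, cons_good ha h.hB, by intro h; simp at h⟩

/-- Every non-halting valid configuration is rewritten by a rule. -/
theorem ruleStep_nx {D : Desc} {x : X} (h : Valid D x) (hh : ¬ (x.f = 0 ∧ hl D x.q = true)) :
    ∃ r ∈ rules D, RuleStep r (x.stacks D) ((nx D x).stacks D) := by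
  have hb := headD_good h.hB
  have ha := headD_good h.hA
  have hS := nS_le D
  have hJ := J0_lt D
  have lt_num : ∀ d, GD D d → d < num D := by
    intro d hd
    rcases hd with hd | hd
    · omega
    · exact hd.2
  by_cases h0 : x.f = 0
  · have h1 : ¬ hl D x.q = true := fun h1 => hh ⟨h0, h1⟩
    have ht := h.top h0
    have hpB : PadEq x.B ([x.B.headD 0] ++ x.B.tail) := padEq_head _
    by_cases h2 : (tb D x.q (x.B.headD 0)).2.2 = 2
    · refine ⟨_, mem_rules (i := (x.q, x.B.headD 0, 0)) h.q_lt (lt_num _ hb) (by norm_num)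
        (by simp only [ruleOpt, if_true, ht, h1, h2, if_false]; rfl), x.A, x.B.tail, ?_, ?_, ?_, ?_⟩
      · simp only [X.stacks, h0]; exact padEq_refl _
      · exact hpB
      · simp only [X.stacks, nx, h0, h1, h2, if_true, if_false]; exact padEq_refl _
      · simp only [X.stacks, nx, h0, h1, h2, if_true, if_false]; exact padEq_refl _
    · by_cases h3 : (tb D x.q (x.B.headD 0)).2.2 = 0
      · refine ⟨_, mem_rules (i := (x.q, x.B.headD 0, 0)) h.q_lt (lt_num _ hb) (by norm_num)
          (by simp only [ruleOpt, if_true, ht, h1, h2, h3, if_false]; rfl), x.A, x.B.tail, ?_, ?_, ?_, ?_⟩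
        · simp only [X.stacks, h0]; exact padEq_refl _
        · exact hpB
        · simp only [X.stacks, nx, h0, h1, h2, h3, if_true, if_false]; exact padEq_refl _
        · simp only [X.stacks, nx, h0, h1, h2, h3, if_true, if_false]; exact padEq_refl _
      · refine ⟨_, mem_rules (i := (x.q, x.B.headD 0, 0)) h.q_lt (lt_num _ hb) (by norm_num)
          (by simp only [ruleOpt, if_true, ht, h1, h2, h3, if_false]; rfl), x.A, x.B.tail, ?_, ?_, ?_, ?_⟩
        · simp only [X.stacks, h0]; exact padEq_refl _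
        · exact hpB
        · simp only [X.stacks, nx, h0, h1, h2, h3, if_true, if_false]; exact padEq_refl _
        · simp only [X.stacks, nx, h0, h1, h2, h3, if_true, if_false]; exact padEq_refl _
  · by_cases h1 : x.f = 1
    · have hpB : PadEq x.B ([x.B.headD 0] ++ x.B.tail) := padEq_head _
      by_cases h2 : x.B.headD 0 < nS D
      · refine ⟨_, mem_rules (i := (x.q, x.B.headD 0, 1)) h.q_lt (lt_num _ hb) (by norm_num)
          (by simp only [ruleOpt, one_ne_zero, if_true, h2, if_false]; rfl), x.A, x.B.tail, ?_, ?_, ?_, ?_⟩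
        · simp only [X.stacks, h1]; exact padEq_refl _
        · exact hpB
        · simp only [X.stacks, nx, h1, one_ne_zero, h2, if_true, if_false]; exact padEq_refl _
        · simp only [X.stacks, nx, h1, one_ne_zero, h2, if_true, if_false]; exact padEq_refl _
      · have h3 : J0 D ≤ x.B.headD 0 := by
          rcases hb with hb | hb
          · exact absurd hb h2
          · exact hb.1
        refine ⟨_, mem_rules (i := (x.q, x.B.headD 0, 1)) h.q_lt (lt_num _ hb) (by norm_num)
          (by simp only [ruleOpt, one_ne_zero, if_true, h2, h3, if_false]; rfl), x.A, x.B.tail,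
          ?_, ?_, ?_, ?_⟩
        · simp only [X.stacks, h1]; exact padEq_refl _
        · exact hpB
        · simp only [X.stacks, nx, h1, one_ne_zero, h2, if_true, if_false]; exact padEq_refl _
        · simp only [X.stacks, nx, h1, one_ne_zero, h2, if_true, if_false]; exact padEq_refl _
    · have hf2 : x.f = 2 := by have := h.f_lt; omega
      have hpA : PadEq (st D x.q 2 :: x.A) ([st D x.q 2, x.A.headD 0] ++ x.A.tail) :=
        padEq_cons _ (padEq_head _)
      by_cases h2 : x.A.headD 0 < nS D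
      · refine ⟨_, mem_rules (i := (x.q, x.A.headD 0, 2)) h.q_lt (lt_num _ ha) (by norm_num)
          (by simp only [ruleOpt, OfNat.ofNat_ne_zero, OfNat.ofNat_ne_one, if_true, h2,
                if_false]; rfl), x.A.tail, x.B, ?_, padEq_refl _, ?_, ?_⟩
        · simp only [X.stacks, hf2]; exact hpA
        · simp only [X.stacks, nx, hf2, OfNat.ofNat_ne_zero, OfNat.ofNat_ne_one, h2, if_true,
            if_false]; exact padEq_refl _
        · simp only [X.stacks, nx, hf2, OfNat.ofNat_ne_zero, OfNat.ofNat_ne_one, h2, if_true,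
            if_false]; exact padEq_refl _
      · have h3 : J0 D ≤ x.A.headD 0 := by
          rcases ha with ha | ha
          · exact absurd ha h2
          · exact ha.1
        refine ⟨_, mem_rules (i := (x.q, x.A.headD 0, 2)) h.q_lt (lt_num _ ha) (by norm_num)
          (by simp only [ruleOpt, OfNat.ofNat_ne_zero, OfNat.ofNat_ne_one, if_true, h2, h3,
                if_false]; rfl), x.A.tail, x.B, ?_, padEq_refl _, ?_, ?_⟩
        · simp only [X.stacks, hf2]; exact hpA
        · simp only [X.stacks, nx, hf2, OfNat.ofNat_ne_zero, OfNat.ofNat_ne_one, h2, if_true,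
            if_false]; exact padEq_refl _
        · simp only [X.stacks, nx, hf2, OfNat.ofNat_ne_zero, OfNat.ofNat_ne_one, h2, if_true,
            if_false]; exact padEq_refl _

end Dis

end Vale.Agent.P113
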