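import Vale.Agent.Lib.P113.Discrete

/-!
# The two-stack system simulates the Turing machine
-/

namespace Vale.Agent.P113

namespace Dis

/-! ## Tapes -/

def strip (D : Desc) (l : List ℕ) : List ℕ := l.filter fun d => decide (d < nS D)

theorem strip_cons_real {D : Desc} {d : ℕ} {l : List ℕ} (h : d < nS D) :
    strip D (d :: l) = d :: strip D l := by simp [strip, h]

theorem strip_cons_junk {D : Desc} {d : ℕ} {l : List ℕ} (h : ¬ d < nS D) :
    strip D (d :: l) = strip D l := by
  simp only [strip, List.filter_cons, h, decide_false]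
  simp

def tapeOf (L R : List ℕ) (z : ℤ) : ℕ :=
  if 0 ≤ z then R.getD z.toNat 0 else L.getD (-z - 1).toNat 0

theorem tapeOf_zero (L R : List ℕ) : tapeOf L R 0 = R.getD 0 0 := by simp [tapeOf]

theorem tapeOf_shift (w : ℕ) (L R : List ℕ) (z : ℤ) :
    tapeOf (w :: L) R z = tapeOf L (w :: R) (z + 1) := by
  unfold tapeOf
  by_cases h : 0 ≤ z
  · rw [if_pos h, if_pos (by omega)]
    have : (z + 1).toNat = z.toNat + 1 := by omega
    rw [this, List.getD_cons_succ]
  · rw [if_neg h]
    by_cases h1 : z = -1
    · subst h1; simp
    · rw [if_neg (by omega)]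
      have : (-z - 1).toNat = (-(z + 1) - 1).toNat + 1 := by omega
      rw [this, List.getD_cons_succ]

theorem tapeOf_set (w : ℕ) (L R : List ℕ) (z : ℤ) :
    tapeOf L (w :: R.tail) z = if z = 0 then w else tapeOf L R z := by
  unfold tapeOf
  by_cases h : 0 ≤ z
  · rw [if_pos h, if_pos h]
    by_cases h1 : z = 0
    · subst h1; simp
    · rw [if_neg h1]
      obtain ⟨k, hk⟩ : ∃ k, z.toNat = k + 1 := ⟨z.toNat - 1, by omega⟩
      rw [hk, List.getD_cons_succ]
      cases R with
      | nil => simp
      | cons a R => simp
  · rw [if_neg h, if_neg h, if_neg (by omega)]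

theorem tapeOf_congr {L L' R R' : List ℕ} (hL : ∀ k, L.getD k 0 = L'.getD k 0)
    (hR : ∀ k, R.getD k 0 = R'.getD k 0) (z : ℤ) : tapeOf L R z = tapeOf L' R' z := by
  unfold tapeOf
  split_ifs
  · exact hR _
  · exact hL _

theorem getD_strip_head {D : Desc} (l : List ℕ) (k : ℕ) :
    (strip D (l.headD 0 :: l.tail)).getD k 0 = (strip D l).getD k 0 := by
  cases l with
  | nil =>
    have h := nS_pos D
    have : strip D (([] : List ℕ).headD 0 :: ([] : List ℕ).tail) = [0] := by
      simp [strip, h]
    rw [this]
    cases k with
    | zero => simp [strip]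
    | succ k => simp [strip]
  | cons a l => rfl

theorem getD_zero_cons (k : ℕ) : ([0] : List ℕ).getD k 0 = ([] : List ℕ).getD k 0 := by
  cases k <;> simp

/-! ## Descriptions of machines -/

theorem nS_describe (M : Machine) : nS M.describe = M.m + 1 := rfl
theorem nQ_describe (M : Machine) : nQ M.describe = M.n + 1 := rfl
theorem blankOf_describe (M : Machine) : blankOf M.describe = (M.blank : ℕ) := rfl
theorem startOf_describe (M : Machine) : startOf M.describe = (M.start : ℕ) := rfl

theorem getD_ofFn {α : Type*} {n : ℕ} (f : Fin n → α) (i : Fin n) (d : α) :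
    (List.ofFn f).getD (i : ℕ) d = f i := by
  rw [List.getD_eq_getElem _ _ (by simp)]
  simp

theorem hl_describe (M : Machine) (q : Fin (M.n + 1)) :
    hl M.describe (q : ℕ) = M.halting q := getD_ofFn _ _ _

theorem tb_describe (M : Machine) (q : Fin (M.n + 1)) (s : Fin (M.m + 1)) :
    tb M.describe (q : ℕ) (sw (M.blank : ℕ) (s : ℕ)) =
      (((M.next q s).1 : ℕ), ((M.next q s).2.1 : ℕ), ((M.next q s).2.2 : ℕ)) := by
  unfold tb
  rw [blankOf_describe, sw_sw]
  have h1 : M.describe.2.2.2.2.2.getD (q : ℕ) [] = List.ofFn fun s =>
      (((M.next q s).1 : ℕ), ((M.next q s).2.1 : ℕ), ((M.next q s).2.2 : ℕ)) :=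
    getD_ofFn _ _ _
  rw [h1, getD_ofFn]

theorem wf_describe (M : Machine) : WF M.describe := by
  intro q c hq hc
  rw [nS_describe] at hc ⊢
  rw [nQ_describe] at hq ⊢
  rw [blankOf_describe]
  have hs : sw (M.blank : ℕ) c < M.m + 1 := sw_lt M.blank.2 hc
  have h := tb_describe M ⟨q, hq⟩ ⟨sw (M.blank : ℕ) c, hs⟩
  simp only [sw_sw] at h
  rw [h]
  exact ⟨sw_lt M.blank.2 (Fin.is_lt _), Fin.is_lt _⟩

/-! ## The simulation relation -/

/-- Position of the boundary between the two stacks relative to the head. -/
def off (f : ℕ) : ℤ := if f = 2 then 1 else 0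

structure Rel (M : Machine) (c : M.Config) (x : X) : Prop where
  valid : Valid M.describe x
  state : x.q = (c.state : ℕ)
  tape : ∀ z : ℤ, sw (M.blank : ℕ) (c.tape (c.pos + off x.f + z) : ℕ) =
    tapeOf (strip M.describe x.A) (strip M.describe x.B) z

theorem rel_move {M : Machine} {c : M.Config} {x : X} (h : Rel M c x) (hf : x.f ≠ 0) :
    Rel M c (nx M.describe x) := by
  have hv := valid_nx (wf_describe M) h.valid
  have hJ := nS_le M.describe
  have htape := h.tape
  obtain ⟨f, q, A, B⟩ := x
  simp only at hf htape
  have hf3 : f < 3 := h.valid.f_lt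
  rcases (show f = 1 ∨ f = 2 by omega) with rfl | rfl
  · by_cases hb : B.headD 0 < nS M.describe
    · have e : nx M.describe ⟨1, q, A, B⟩ =
          ⟨0, q, (J0 M.describe + 1) :: A, B.headD 0 :: B.tail⟩ := by
        simp only [nx, one_ne_zero, if_false, if_true, hb]
      rw [e] at hv ⊢
      refine ⟨hv, h.state, ?_⟩
      intro z
      have h1 := htape z
      simp only [off] at h1 ⊢
      rw [strip_cons_junk (by omega)]
      rw [show c.pos + (if (0 : ℕ) = 2 then 1 else 0) + z =
        c.pos + (if (1 : ℕ) = 2 then 1 else 0) + z by simp, h1]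
      exact tapeOf_congr (fun _ => rfl) (fun k => (getD_strip_head B k).symm) z
    · have e : nx M.describe ⟨1, q, A, B⟩ = ⟨1, q, B.headD 0 :: A, B.tail⟩ := by
        simp only [nx, one_ne_zero, if_false, if_true, hb]
      rw [e] at hv ⊢
      refine ⟨hv, h.state, ?_⟩
      intro z
      rw [strip_cons_junk hb]
      cases B with
      | nil => exact absurd (nS_pos M.describe) hb
      | cons b B =>
        have h1 := htape z
        rw [strip_cons_junk (by exact hb)] at h1
        exact h1
  · by_cases hb : A.headD 0 < nS M.describe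
    · have e : nx M.describe ⟨2, q, A, B⟩ =
          ⟨0, q, J0 M.describe :: A.tail, A.headD 0 :: B⟩ := by
        simp only [nx, OfNat.ofNat_ne_zero, OfNat.ofNat_ne_one, if_false, if_true, hb]
      rw [e] at hv ⊢
      refine ⟨hv, h.state, ?_⟩
      intro z
      have h1 := htape (z - 1)
      simp only [off, if_true] at h1 ⊢
      rw [strip_cons_junk (by omega), strip_cons_real hb]
      rw [show c.pos + (if (0 : ℕ) = 2 then 1 else 0) + z = c.pos + 1 + (z - 1) by
        simp, h1]
      have h2 := tapeOf_shift (A.headD 0) (strip M.describe A.tail) (strip M.describe B) (z - 1)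
      rw [show z - 1 + 1 = z by ring] at h2
      rw [← h2, ← strip_cons_real hb]
      exact tapeOf_congr (fun k => (getD_strip_head A k).symm) (fun _ => rfl) _
    · have e : nx M.describe ⟨2, q, A, B⟩ = ⟨2, q, A.tail, A.headD 0 :: B⟩ := by
        simp only [nx, OfNat.ofNat_ne_zero, OfNat.ofNat_ne_one, if_false, hb]
      rw [e] at hv ⊢
      refine ⟨hv, h.state, ?_⟩
      intro z
      rw [strip_cons_junk hb]
      cases A with
      | nil => exact absurd (nS_pos M.describe) hb
      | cons a A =>
        have h1 := htape z
        rw [strip_cons_junk (by exact hb)] at h1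
        exact h1

theorem strip_tail {D : Desc} {B : List ℕ} (h : B.headD 0 < nS D) :
    strip D B.tail = (strip D B).tail := by
  cases B with
  | nil => rfl
  | cons b B =>
    rw [strip_cons_real (by exact h)]
    rfl

theorem strip_head {D : Desc} {B : List ℕ} (h : B.headD 0 < nS D) :
    (strip D B).getD 0 0 = B.headD 0 := by
  cases B with
  | nil => simp [strip]
  | cons b B =>
    rw [strip_cons_real (by exact h)]
    rfl

theorem rel_step {M : Machine} {c : M.Config} {x : X} (h : Rel M c x) (hf : x.f = 0)
    (hh : ¬ M.halting c.state = true) : Rel M (M.step c) (nx M.describe x) := by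
  have hv := valid_nx (wf_describe M) h.valid
  have hJ := nS_le M.describe
  have htop := h.valid.top hf
  have htape := h.tape
  have hst := h.state
  have hhl : ¬ hl M.describe x.q = true := by
    rw [hst, hl_describe]; exact hh
  obtain ⟨f, q, A, B⟩ := x
  simp only at hf htape hst htop hhl
  subst hf
  subst hst
  set s := c.tape c.pos with hs
  have hread : sw (M.blank : ℕ) (s : ℕ) = B.headD 0 := by
    have h0 := htape 0
    rw [tapeOf_zero, strip_head htop] at h0
    simpa [off] using h0
  have htb : tb M.describe (c.state : ℕ) (B.headD 0) =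
      (((M.next c.state s).1 : ℕ), ((M.next c.state s).2.1 : ℕ), ((M.next c.state s).2.2 : ℕ)) := by
    rw [← hread]; exact tb_describe M c.state s
  have hstep : M.step c = Machine.Config.mk (M.next c.state s).1
      (c.pos + (((M.next c.state s).2.2 : ℕ) : ℤ) - 1)
      (Function.update c.tape c.pos (M.next c.state s).2.1) := by
    unfold Machine.step
    rw [if_neg hh]
  have hw : sw (M.blank : ℕ) ((M.next c.state s).2.1 : ℕ) < nS M.describe := by
    rw [nS_describe]; exact sw_lt M.blank.2 (Fin.is_lt _)
  have hrj : ¬ rj M.describe (c.state : ℕ) (B.headD 0) < nS M.describe := by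
    have := rj_ge M.describe (c.state : ℕ) (B.headD 0); omega
  -- the tape after writing, in terms of the stacks
  have key : ∀ z : ℤ, sw (M.blank : ℕ)
      (Function.update c.tape c.pos (M.next c.state s).2.1 (c.pos + z) : ℕ) =
      tapeOf (strip M.describe A) (sw (M.blank : ℕ) ((M.next c.state s).2.1 : ℕ) ::
        strip M.describe B.tail) z := by
    intro z
    rw [strip_tail htop, tapeOf_set]
    by_cases hz : z = 0
    · subst hz; simp
    · rw [if_neg hz, Function.update_of_ne (by omega)]
      have := htape z
      simpa [off] using this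
  by_cases h2 : ((M.next c.state s).2.2 : ℕ) = 2
  · have e : nx M.describe ⟨0, (c.state : ℕ), A, B⟩ =
        ⟨1, ((M.next c.state s).1 : ℕ), sw (M.blank : ℕ) ((M.next c.state s).2.1 : ℕ) ::
          rj M.describe (c.state : ℕ) (B.headD 0) :: A, B.tail⟩ := by
      simp only [nx, if_true, hhl, htb, h2, blankOf_describe]
      simp
    rw [e] at hv ⊢
    rw [hstep]
    refine ⟨hv, rfl, ?_⟩
    intro z
    rw [strip_cons_real hw, strip_cons_junk hrj, tapeOf_shift, ← key (z + 1)]
    simp only [off, h2]
    congr 2
    simp
    ring_nf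
  · by_cases h3 : ((M.next c.state s).2.2 : ℕ) = 0
    · have e : nx M.describe ⟨0, (c.state : ℕ), A, B⟩ =
          ⟨2, ((M.next c.state s).1 : ℕ), A, sw (M.blank : ℕ) ((M.next c.state s).2.1 : ℕ) ::
            rj M.describe (c.state : ℕ) (B.headD 0) :: B.tail⟩ := by
        simp only [nx, if_true, hhl, htb, h3, blankOf_describe]
        simp
      rw [e] at hv ⊢
      rw [hstep]
      refine ⟨hv, rfl, ?_⟩
      intro z
      rw [strip_cons_real hw, strip_cons_junk hrj, ← key z]
      simp only [off, h3]
      congr 2
      simp
    · have h4 : ((M.next c.state s).2.2 : ℕ) = 1 := by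
        have := (M.next c.state s).2.2.is_lt; omega
      have e : nx M.describe ⟨0, (c.state : ℕ), A, B⟩ =
          ⟨0, ((M.next c.state s).1 : ℕ), rj M.describe (c.state : ℕ) (B.headD 0) :: A,
            sw (M.blank : ℕ) ((M.next c.state s).2.1 : ℕ) :: B.tail⟩ := by
        simp only [nx, if_true, hhl, htb, h4, blankOf_describe]
        simp
      rw [e] at hv ⊢
      rw [hstep]
      refine ⟨hv, rfl, ?_⟩
      intro z
      rw [strip_cons_real hw, strip_cons_junk hrj, ← key z]
      simp only [off, h4]
      congr 2
      simp

theorem nx_halt {D : Desc} {x : X} (hf : x.f = 0) (h : hl D x.q = true) : nx D x = x := by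
  unfold nx
  rw [if_pos hf, if_pos h]

theorem step_halt {M : Machine} {c : M.Config} (h : M.halting c.state = true) :
    M.step c = c := by
  unfold Machine.step
  rw [if_pos h]

/-- The head reaches the next real symbol. -/
theorem progress {M : Machine} {c : M.Config} : ∀ (k : ℕ) (x : X), Rel M c x →
    (if x.f = 1 then x.B.length else if x.f = 2 then x.A.length else 0) ≤ k →
    ∃ j, ((nx M.describe)^[j] x).f = 0 ∧ Rel M c ((nx M.describe)^[j] x) := by
  intro k
  induction k with
  | zero =>
    intro x h hk
    by_cases h0 : x.f = 0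
    · exact ⟨0, h0, h⟩
    · refine ⟨1, ?_, rel_move h h0⟩
      obtain ⟨f, q, A, B⟩ := x
      have hf3 : f < 3 := h.valid.f_lt
      simp only at h0 hk
      have hS := nS_pos M.describe
      rcases (show f = 1 ∨ f = 2 by omega) with rfl | rfl
      · have hB : B = [] := by
          simpa using hk
        subst hB
        simp [nx, hS]
      · have hA : A = [] := by
          simpa using hk
        subst hA
        simp [nx, hS]
  | succ k ih =>
    intro x h hk
    by_cases h0 : x.f = 0
    · exact ⟨0, h0, h⟩
    · have hm := rel_move h h0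
      have hS := nS_pos M.describe
      by_cases hlen : (if (nx M.describe x).f = 1 then (nx M.describe x).B.length else
          if (nx M.describe x).f = 2 then (nx M.describe x).A.length else 0) ≤ k
      · obtain ⟨j, hj1, hj2⟩ := ih _ hm hlen
        exact ⟨j + 1, by rwa [Function.iterate_succ_apply], by rwa [Function.iterate_succ_apply]⟩
      · exfalso
        apply hlen
        obtain ⟨f, q, A, B⟩ := x
        have hf3 : f < 3 := h.valid.f_lt
        simp only at h0 hk
        rcases (show f = 1 ∨ f = 2 by omega) with rfl | rfl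
        · by_cases hb : B.headD 0 < nS M.describe
          · simp only [nx, one_ne_zero, if_false, if_true, hb]
            simp
          · cases B with
            | nil => exact absurd hS hb
            | cons b B =>
              simp only [List.headD_cons] at hb
              simp only [nx, List.headD_cons, hb, one_ne_zero, if_false, if_true, List.tail_cons]
              simp at hk
              omega
        · by_cases hb : A.headD 0 < nS M.describe
          · simp only [nx, OfNat.ofNat_ne_zero, OfNat.ofNat_ne_one, if_false, if_true, hb]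
            simp
          · cases A with
            | nil => exact absurd hS hb
            | cons a A =>
              simp only [List.headD_cons] at hb
              simp only [nx, List.headD_cons, hb, OfNat.ofNat_ne_zero, OfNat.ofNat_ne_one,
                if_false, if_true, List.tail_cons]
              simp at hk
              omega

/-- Every configuration of the machine is reached in ready mode. -/
theorem reach {M : Machine} {c : M.Config} {x : X} (h : Rel M c x) (hf : x.f = 0) (i : ℕ) :
    ∃ j, ((nx M.describe)^[j] x).f = 0 ∧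
      Rel M (M.step^[i] c) ((nx M.describe)^[j] x) := by
  induction i with
  | zero => exact ⟨0, hf, h⟩
  | succ i ih =>
    obtain ⟨j, hj1, hj2⟩ := ih
    rw [Function.iterate_succ_apply']
    by_cases hh : M.halting (M.step^[i] c).state = true
    · rw [step_halt hh]; exact ⟨j, hj1, hj2⟩
    · have h1 := rel_step hj2 hj1 hh
      obtain ⟨l, hl1, hl2⟩ := progress _ _ h1 le_rfl
      refine ⟨l + (j + 1), ?_, ?_⟩
      · rw [Function.iterate_add_apply, Function.iterate_succ_apply']; exact hl1
      · rw [Function.iterate_add_apply, Function.iterate_succ_apply']; exact hl2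

/-- Every configuration of the stack system represents a configuration of the machine. -/
theorem back {M : Machine} {c : M.Config} {x : X} (h : Rel M c x) (j : ℕ) :
    ∃ i, Rel M (M.step^[i] c) ((nx M.describe)^[j] x) := by
  induction j with
  | zero => exact ⟨0, h⟩
  | succ j ih =>
    obtain ⟨i, hi⟩ := ih
    rw [Function.iterate_succ_apply']
    by_cases h0 : ((nx M.describe)^[j] x).f = 0
    · by_cases hh : M.halting (M.step^[i] c).state = true
      · refine ⟨i, ?_⟩
        rw [nx_halt h0 (by rw [hi.state, hl_describe]; exact hh)]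
        exact hi
      · refine ⟨i + 1, ?_⟩
        rw [Function.iterate_succ_apply']
        exact rel_step hi h0 hh
    · exact ⟨i, rel_move hi h0⟩

def x0 (M : Machine) (w : List (Fin (M.m + 1))) : X :=
  ⟨0, (M.start : ℕ), [], (w.map Fin.val).map (sw (M.blank : ℕ))⟩

theorem sw_blank (b : ℕ) : sw b b = 0 := by simp [sw]

theorem map_sw_lt (M : Machine) (w : List (Fin (M.m + 1))) :
    ∀ d ∈ (w.map Fin.val).map (sw (M.blank : ℕ)), d < nS M.describe := by
  intro d hd
  obtain ⟨a, ha, rfl⟩ := List.mem_map.1 hd
  obtain ⟨s, _, rfl⟩ := List.mem_map.1 ha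
  rw [nS_describe]
  exact sw_lt M.blank.2 s.2

theorem x0_valid (M : Machine) (w : List (Fin (M.m + 1))) : Valid M.describe (x0 M w) := by
  refine ⟨by simp [x0], ?_, ?_, ?_, ?_⟩
  · rw [nQ_describe]; exact M.start.2
  · intro d hd; simp [x0] at hd
  · intro d hd; exact Or.inl (map_sw_lt M w d hd)
  · intro _
    cases w with
    | nil => exact nS_pos M.describe
    | cons s w => exact map_sw_lt M (s :: w) _ (by simp [x0])

theorem getD_map_sw (M : Machine) (w : List (Fin (M.m + 1))) (k : ℕ) :
    sw (M.blank : ℕ) ((w.getD k M.blank : Fin (M.m + 1)) : ℕ) =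
      ((w.map Fin.val).map (sw (M.blank : ℕ))).getD k 0 := by
  induction w generalizing k with
  | nil => simp [sw_blank]
  | cons s w ih =>
    cases k with
    | zero => simp
    | succ k =>
      simp only [List.getD_cons_succ, List.map_cons]
      exact ih k

theorem x0_rel (M : Machine) (w : List (Fin (M.m + 1))) : Rel M (M.init w) (x0 M w) := by
  refine ⟨x0_valid M w, rfl, ?_⟩
  have hstrip : strip M.describe (x0 M w).B = (x0 M w).B := by
    unfold strip
    rw [List.filter_eq_self]
    intro d hd
    simpa using map_sw_lt M w d hd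
  intro z
  rw [hstrip]
  have hA : strip M.describe (x0 M w).A = [] := rfl
  have hpos : (M.init w).pos + off (x0 M w).f + z = z := by
    simp [Machine.init, x0, off]
  rw [hA, hpos]
  simp only [Machine.init, x0, tapeOf]
  by_cases hz : 0 ≤ z
  · rw [if_pos hz, if_pos hz]
    exact getD_map_sw M w _
  · rw [if_neg hz, if_neg hz]
    simp [sw_blank]

theorem haltTop_iff {D : Desc} {x : X} (h : Valid D x) :
    HaltTop (hs D) (x.stacks D) ↔ x.f = 0 ∧ hl D x.q = true := by
  constructor
  · rintro ⟨d, hd, A, hpad⟩
    rw [mem_hs] at hd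
    obtain ⟨q, hq, hhl, rfl⟩ := hd
    have h1 := padEq_cons_head hpad
    have h2 := h.f_lt
    unfold st at h1
    have h3 : x.q = q := by omega
    subst h3
    exact ⟨by omega, hhl⟩
  · rintro ⟨hf, hhl⟩
    refine ⟨st D x.q 0, mem_hs.2 ⟨x.q, h.q_lt, hhl, rfl⟩, x.A, ?_⟩
    unfold X.stacks
    rw [hf]
    exact padEq_refl _

theorem simulates (M : Machine) : Simulates M (num M.describe) (rules M.describe)
    (hs M.describe) (fun w => ini (M.describe, w.map Fin.val)) where
  digits_lt := rules_digits (wf_describe M)
  halt_lt := by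
    intro h hh
    obtain ⟨q, hq, _, rfl⟩ := mem_hs.1 hh
    have := st_lt (f := 0) hq (by norm_num)
    have := J0_lt M.describe
    omega
  halt_nodup := hs_nodup _
  pos := by have := J0_lt M.describe; omega
  dom_disjoint := rules_dom _
  img_disjoint := rules_img (wf_describe M)
  not_halt := rules_not_halt _
  run := by
    intro w
    have hR : ∀ k, ∃ i, Rel M (M.step^[i] (M.init w)) ((nx M.describe)^[k] (x0 M w)) :=
      fun k => back (x0_rel M w) k
    have hV : ∀ k, Valid M.describe ((nx M.describe)^[k] (x0 M w)) := fun k =>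
      (hR k).choose_spec.valid
    refine ⟨fun k => ((nx M.describe)^[k] (x0 M w)).stacks M.describe, rfl, ?_, ?_, ?_⟩
    · intro k
      have hS := nS_le M.describe
      have hJ := J0_lt M.describe
      have lt_num : ∀ d, GD M.describe d → d < num M.describe := by
        intro d hd
        rcases hd with hd | hd
        · omega
        · exact hd.2
      constructor
      · intro d hd
        rcases List.mem_cons.1 hd with rfl | hd
        · exact (st_lt (hV k).q_lt (hV k).f_lt).trans (by omega)
        · exact lt_num d ((hV k).hA d hd)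
      · intro d hd
        exact lt_num d ((hV k).hB d hd)
    · intro k hk
      have hnh := hk k le_rfl
      rw [haltTop_iff (hV k)] at hnh
      obtain ⟨r, hr, hr2⟩ := ruleStep_nx (hV k) hnh
      refine ⟨r, hr, ?_⟩
      simp only [Function.iterate_succ_apply']
      exact hr2
    · constructor
      · rintro ⟨i, hi⟩
        obtain ⟨j, hj1, hj2⟩ := reach (x0_rel M w) rfl i
        refine ⟨j, ?_⟩
        rw [haltTop_iff hj2.valid]
        exact ⟨hj1, by rw [hj2.state, hl_describe]; exact hi⟩
      · rintro ⟨k, hk⟩
        rw [haltTop_iff (hV k)] at hk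
        obtain ⟨i, hi⟩ := hR k
        refine ⟨i, ?_⟩
        rw [← hl_describe, ← hi.state]
        exact hk.2

end Dis

end Vale.Agent.P113
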