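import Vale.Agent.Lib.P113.Run

/-!
# The sequence of shears is computed by an algorithm
-/

namespace Vale.Agent.P113

section
variable {α : Type} [Primcodable α]

theorem pr_nadd {f g : α → ℕ} (hf : Primrec f) (hg : Primrec g) : Primrec fun a => f a + g a :=
  Primrec.nat_add.comp hf hg

theorem pr_nmul {f g : α → ℕ} (hf : Primrec f) (hg : Primrec g) : Primrec fun a => f a * g a :=
  Primrec.nat_mul.comp hf hg

theorem pr_nsub {f g : α → ℕ} (hf : Primrec f) (hg : Primrec g) : Primrec fun a => f a - g a :=
  Primrec.nat_sub.comp hf hg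

theorem pr_nmod {f g : α → ℕ} (hf : Primrec f) (hg : Primrec g) : Primrec fun a => f a % g a :=
  Primrec.nat_mod.comp hf hg

theorem pr_npow {f g : α → ℕ} (hf : Primrec f) (hg : Primrec g) : Primrec fun a => f a ^ g a :=
  (Primrec₂.unpaired'.1 Nat.Primrec.pow).comp hf hg

theorem pr_rAdd {f g : α → RatCode} (hf : Primrec f) (hg : Primrec g) :
    Primrec fun a => rAdd (f a) (g a) := by
  unfold rAdd
  have f1 := Primrec.fst.comp hf
  have f2 := Primrec.fst.comp (Primrec.snd.comp hf)
  have f3 := Primrec.succ.comp (Primrec.snd.comp (Primrec.snd.comp hf))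
  have g1 := Primrec.fst.comp hg
  have g2 := Primrec.fst.comp (Primrec.snd.comp hg)
  have g3 := Primrec.succ.comp (Primrec.snd.comp (Primrec.snd.comp hg))
  exact Primrec.pair (pr_nadd (pr_nmul f1 g3) (pr_nmul g1 f3))
    (Primrec.pair (pr_nadd (pr_nmul f2 g3) (pr_nmul g2 f3))
      (pr_nsub (pr_nmul f3 g3) (Primrec.const 1)))

theorem pr_rNeg {f : α → RatCode} (hf : Primrec f) : Primrec fun a => rNeg (f a) := by
  unfold rNeg
  have f1 := Primrec.fst.comp hf
  have f2 := Primrec.fst.comp (Primrec.snd.comp hf)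
  have f3 := Primrec.snd.comp (Primrec.snd.comp hf)
  exact Primrec.pair f2 (Primrec.pair f1 f3)

theorem pr_rMul {f g : α → RatCode} (hf : Primrec f) (hg : Primrec g) :
    Primrec fun a => rMul (f a) (g a) := by
  unfold rMul
  have f1 := Primrec.fst.comp hf
  have f2 := Primrec.fst.comp (Primrec.snd.comp hf)
  have f3 := Primrec.succ.comp (Primrec.snd.comp (Primrec.snd.comp hf))
  have g1 := Primrec.fst.comp hg
  have g2 := Primrec.fst.comp (Primrec.snd.comp hg)
  have g3 := Primrec.succ.comp (Primrec.snd.comp (Primrec.snd.comp hg))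
  exact Primrec.pair (pr_nadd (pr_nmul f1 g1) (pr_nmul f2 g2))
    (Primrec.pair (pr_nadd (pr_nmul f1 g2) (pr_nmul f2 g1))
      (pr_nsub (pr_nmul f3 g3) (Primrec.const 1)))

theorem pr_rNat {f : α → ℕ} (hf : Primrec f) : Primrec fun a => rNat (f a) :=
  Primrec.pair hf (Primrec.const (0, 0))

theorem pr_rInv {f : α → ℕ} (hf : Primrec f) : Primrec fun a => rInv (f a) :=
  Primrec.pair (Primrec.const 1) (Primrec.pair (Primrec.const 0) (pr_nsub hf (Primrec.const 1)))

theorem pr_bs {K : α → ℕ} (hK : Primrec K) : Primrec fun a => bs (K a) :=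
  pr_nmul (Primrec.const 4) hK

theorem pr_encC {K : α → ℕ} {l : α → List ℕ} (hK : Primrec K) (hl : Primrec l) :
    Primrec fun a => encC (K a) (l a) := by
  unfold encC
  refine Primrec.list_foldr (h := fun a p => rMul (rAdd (rNat p.1) p.2) (rInv (bs (K a)))) hl
    (Primrec.const _) ?_
  exact pr_rMul (pr_rAdd (pr_rNat (Primrec.fst.comp Primrec.snd)) (Primrec.snd.comp Primrec.snd))
    (pr_rInv (pr_bs (hK.comp Primrec.fst)))

theorem pr_powC {K : α → ℕ} {l : α → List ℕ} (hK : Primrec K) (hl : Primrec l) :
    Primrec fun a => powC (K a) (l a) :=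
  pr_npow (pr_bs hK) (Primrec.list_length.comp hl)

theorem pr_winC {K : α → ℕ} {u : α → List ℕ} {c : α → RatCode × RatCode} (hK : Primrec K)
    (hu : Primrec u) (hc : Primrec c) : Primrec fun a => winC (K a) (u a) (c a) := by
  unfold winC
  have e := pr_encC hK hu
  have p := pr_powC hK hu
  have o : Primrec fun a => rAdd offC (encC (K a) (u a)) := pr_rAdd (Primrec.const offC) e
  exact Primrec.pair (Primrec.fst.comp hc) (Primrec.pair (Primrec.snd.comp hc)
    (Primrec.pair (pr_rAdd o (pr_rNeg (pr_rInv (pr_nmul (Primrec.const 4) p))))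
      (Primrec.pair (pr_rAdd o (pr_rInv (pr_nmul (Primrec.const 2) p)))
        (pr_nsub (pr_nmul (Primrec.const 4) p) (Primrec.const 1)))))

theorem pr_hC {R i : α → ℕ} (hR : Primrec R) (hi : Primrec i) :
    Primrec fun a => hC (R a) (i a) := by
  unfold hC
  exact pr_rAdd (Primrec.const _)
    (pr_rMul (pr_rNat hi) (pr_rInv (pr_nmul (Primrec.const 2) hR)))

theorem pr_zetaC {R i : α → ℕ} {c : α → RatCode × RatCode} (hR : Primrec R) (hi : Primrec i)
    (hc : Primrec c) : Primrec fun a => zetaC (R a) (i a) (c a) := by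
  unfold zetaC
  have h := pr_hC hR hi
  have v : Primrec fun a => rInv (16 * R a) := pr_rInv (pr_nmul (Primrec.const 16) hR)
  exact Primrec.pair (Primrec.fst.comp hc) (Primrec.pair (Primrec.snd.comp hc)
    (Primrec.pair (pr_rAdd h v)
      (Primrec.pair (pr_rAdd h (pr_rMul (Primrec.const (rNat 7)) v))
        (pr_nsub (pr_nmul (Primrec.const 8) hR) (Primrec.const 1)))))

theorem pr_affC {K : α → ℕ} {u v : α → List ℕ} (hK : Primrec K) (hu : Primrec u)
    (hv : Primrec v) : Primrec fun a => affC (K a) (u a) (v a) := by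
  unfold affC
  have sl : Primrec fun a => rMul (rNat (powC (K a) (u a))) (rInv (powC (K a) (v a))) :=
    pr_rMul (pr_rNat (pr_powC hK hu)) (pr_rInv (pr_powC hK hv))
  exact Primrec.pair (pr_rAdd (pr_rAdd (Primrec.const offC) (pr_encC hK hv))
    (pr_rNeg (pr_rMul sl (pr_rAdd (Primrec.const offC) (pr_encC hK hu))))) sl

theorem pr_postC {p q : α → RatCode} {c : α → RatCode × RatCode} (hp : Primrec p)
    (hq : Primrec q) (hc : Primrec c) : Primrec fun a => postC (p a) (q a) (c a) := by
  unfold postC
  exact Primrec.pair (pr_rAdd hp (pr_rMul hq (Primrec.fst.comp hc)))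
    (pr_rMul hq (Primrec.snd.comp hc))

theorem pr_preC {R i : α → ℕ} {c : α → RatCode × RatCode} (hR : Primrec R) (hi : Primrec i)
    (hc : Primrec c) : Primrec fun a => preC (R a) (i a) (c a) := by
  unfold preC
  have s : Primrec fun a => rMul (c a).2 (rNat (2 * R a)) :=
    pr_rMul (Primrec.snd.comp hc) (pr_rNat (pr_nmul (Primrec.const 2) hR))
  exact Primrec.pair (pr_rAdd (Primrec.fst.comp hc) (pr_rNeg (pr_rMul s (pr_hC hR hi)))) s

theorem pr_term {c : α → RatCode} {F G H : α → Option Fac} (hc : Primrec c) (hF : Primrec F)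
    (hG : Primrec G) (hH : Primrec H) : Primrec fun a => ((c a, F a, G a, H a) : Term) :=
  Primrec.pair hc (Primrec.pair hF (Primrec.pair hG hH))

theorem pr_some {β : Type} [Primcodable β] {f : α → β} (hf : Primrec f) :
    Primrec fun a => some (f a) := Primrec.option_some.comp hf

theorem pr_list1 {β : Type} [Primcodable β] {f : α → β} (hf : Primrec f) :
    Primrec fun a => [f a] := Primrec.list_cons.comp hf (Primrec.const [])

theorem pr_list2 {β : Type} [Primcodable β] {f g : α → β} (hf : Primrec f) (hg : Primrec g) :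
    Primrec fun a => [f a, g a] := Primrec.list_cons.comp hf (pr_list1 hg)

variable {K R i : α → ℕ} {r : α → Rule}

theorem pr_t1 (hK : Primrec K) (hR : Primrec R) (hi : Primrec i) (hr : Primrec r) :
    Primrec fun a => t1 (K a) (R a) (i a) (r a) := by
  unfold t1
  have r1 := Primrec.fst.comp hr
  have r2 := Primrec.fst.comp (Primrec.snd.comp hr)
  have r3 := Primrec.fst.comp (Primrec.snd.comp (Primrec.snd.comp hr))
  exact pr_list1 (pr_term (Primrec.const _)
    (pr_some (pr_winC hK r1 (pr_postC (pr_hC hR hi) (pr_rInv (pr_nmul (Primrec.const 2) hR))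
      (pr_affC hK r1 r3))))
    (pr_some (pr_winC hK r2 (Primrec.const _))) (Primrec.const _))

theorem pr_t2 (hK : Primrec K) (hR : Primrec R) (hi : Primrec i) (hr : Primrec r) :
    Primrec fun a => t2 (K a) (R a) (i a) (r a) := by
  unfold t2
  have r1 := Primrec.fst.comp hr
  have r2 := Primrec.fst.comp (Primrec.snd.comp hr)
  have r3 := Primrec.fst.comp (Primrec.snd.comp (Primrec.snd.comp hr))
  have r4 := Primrec.snd.comp (Primrec.snd.comp (Primrec.snd.comp hr))
  exact pr_list2
    (pr_term (Primrec.const _) (Primrec.const _) (pr_some (pr_winC hK r2 (pr_affC hK r2 r4)))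
      (pr_some (pr_zetaC hR hi (Primrec.const _))))
    (pr_term (Primrec.const _) (Primrec.const _) (Primrec.const _)
      (pr_some (pr_zetaC hR hi (pr_preC hR hi (pr_affC hK r3 r1)))))

theorem pr_t3 (hK : Primrec K) (hR : Primrec R) (hi : Primrec i) (hr : Primrec r) :
    Primrec fun a => t3 (K a) (R a) (i a) (r a) := by
  unfold t3
  have r2 := Primrec.fst.comp (Primrec.snd.comp hr)
  have r4 := Primrec.snd.comp (Primrec.snd.comp (Primrec.snd.comp hr))
  exact pr_list2
    (pr_term (Primrec.const _) (Primrec.const _) (Primrec.const _)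
      (pr_some (pr_zetaC hR hi (pr_preC hR hi (Primrec.const _)))))
    (pr_term (Primrec.const _) (pr_some (pr_winC hK r4 (pr_affC hK r4 r2))) (Primrec.const _)
      (pr_some (pr_zetaC hR hi (Primrec.const _))))

theorem pr_t4 (hK : Primrec K) (hR : Primrec R) (hi : Primrec i) (hr : Primrec r) :
    Primrec fun a => t4 (K a) (R a) (i a) (r a) := by
  unfold t4
  have r3 := Primrec.fst.comp (Primrec.snd.comp (Primrec.snd.comp hr))
  have r4 := Primrec.snd.comp (Primrec.snd.comp (Primrec.snd.comp hr))
  exact pr_list1 (pr_term (Primrec.const _) (pr_some (pr_winC hK r4 (Primrec.const _)))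
    (pr_some (pr_winC hK r3 (Primrec.pair (pr_hC hR hi)
      (pr_rInv (pr_nmul (Primrec.const 2) hR))))) (Primrec.const _))

theorem pr_allTerms {t : ℕ → ℕ → ℕ → Rule → List Term} {rules : α → List Rule}
    (hK : Primrec K) (hr : Primrec rules)
    (ht : ∀ {β : Type} [Primcodable β] {K R i : β → ℕ} {r : β → Rule}, Primrec K → Primrec R →
      Primrec i → Primrec r → Primrec fun a => t (K a) (R a) (i a) (r a)) :
    Primrec fun a => allTerms (t (K a) (rules a).length) (rules a) := by
  unfold allTerms
  refine Primrec.list_flatMap (Primrec.list_range.comp (Primrec.list_length.comp hr)) ?_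
  have : Primrec fun p : α × ℕ => t (K p.1) (rules p.1).length p.2
      ((rules p.1).getD p.2 ruleD) :=
    ht (hK.comp Primrec.fst) (Primrec.list_length.comp (hr.comp Primrec.fst)) Primrec.snd
      ((Primrec.list_getD ruleD).comp (hr.comp Primrec.fst) Primrec.snd)
  exact this

theorem pr_tHmap {hs : α → List ℕ} (hK : Primrec K) (hh : Primrec hs) :
    Primrec fun a => (hs a).map (tH (K a)) := by
  refine Primrec.list_map hh ?_
  have : Primrec fun p : α × ℕ => tH (K p.1) p.2 := by
    unfold tH
    exact pr_term (Primrec.const _)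
      (pr_some (pr_winC (hK.comp Primrec.fst) (pr_list1 Primrec.snd) (Primrec.const _)))
      (Primrec.const _) (Primrec.const _)
  exact this

end

section
variable {α : Type} [Primcodable α] {K : α → ℕ}

theorem pr_blockOf {rules : α → List Rule} {hs : α → List ℕ} (hK : Primrec K)
    (hr : Primrec rules) (hh : Primrec hs) :
    Primrec fun a => blockOf (K a) (rules a) (hs a) := by
  unfold blockOf
  refine Primrec.list_cons.comp (Primrec.pair (Primrec.const _) ?_)
    (Primrec.list_cons.comp (Primrec.pair (Primrec.const _) ?_)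
      (Primrec.list_cons.comp (Primrec.pair (Primrec.const _) ?_)
        (Primrec.list_cons.comp (Primrec.pair (Primrec.const _) ?_) (Primrec.const []))))
  · exact Primrec.list_append.comp (pr_allTerms hK hr (fun a b c d => pr_t1 a b c d))
      (pr_tHmap hK hh)
  · exact pr_allTerms hK hr (fun a b c d => pr_t2 a b c d)
  · exact pr_allTerms hK hr (fun a b c d => pr_t3 a b c d)
  · exact pr_allTerms hK hr (fun a b c d => pr_t4 a b c d)

theorem pr_shearSeq {rules : α → List Rule} {hs A B : α → List ℕ} {m : α → ℕ}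
    (hK : Primrec K) (hr : Primrec rules) (hh : Primrec hs) (hA : Primrec A) (hB : Primrec B)
    (hm : Primrec m) :
    Primrec fun a => shearSeq (K a) (rules a) (hs a) (A a) (B a) (m a) := by
  unfold shearSeq
  refine Primrec.ite (Primrec.eq.comp hm (Primrec.const 0)) ?_
    (Primrec.ite (Primrec.eq.comp hm (Primrec.const 1)) ?_ ?_)
  · exact Primrec.pair (Primrec.const _) (pr_list1 (pr_term (pr_encC hK hA) (Primrec.const _)
      (Primrec.const _) (Primrec.const _)))
  · exact Primrec.pair (Primrec.const _) (pr_list1 (pr_term (pr_encC hK hB) (Primrec.const _)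
      (Primrec.const _) (Primrec.const _)))
  · refine (Primrec.list_getD _).comp ?_
      (pr_nmod (pr_nsub hm (Primrec.const 2)) (Primrec.const 8))
    unfold perList
    exact Primrec.list_append.comp (pr_blockOf hK hr hh)
      (pr_blockOf hK (Primrec.const _) (Primrec.const _))

/-- All data of the construction, as a tuple. -/
abbrev SeqData := ℕ × List Rule × List ℕ × List ℕ × List ℕ × ℕ

theorem computable_shearSeq_tuple : Computable fun p : SeqData =>
    shearSeq p.1 p.2.1 p.2.2.1 p.2.2.2.1 p.2.2.2.2.1 p.2.2.2.2.2 := by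
  apply Primrec.to_comp
  apply pr_shearSeq
  · exact Primrec.fst
  · exact Primrec.fst.comp Primrec.snd
  · exact Primrec.fst.comp (Primrec.snd.comp Primrec.snd)
  · exact Primrec.fst.comp (Primrec.snd.comp (Primrec.snd.comp Primrec.snd))
  · exact Primrec.fst.comp (Primrec.snd.comp (Primrec.snd.comp (Primrec.snd.comp Primrec.snd)))
  · exact Primrec.snd.comp (Primrec.snd.comp (Primrec.snd.comp (Primrec.snd.comp Primrec.snd)))

theorem computable_shearSeq {rules : α → List Rule} {hs A B : α → List ℕ}
    (hK : Computable K) (hr : Computable rules) (hh : Computable hs) (hA : Computable A)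
    (hB : Computable B) :
    Computable₂ fun a m => shearSeq (K a) (rules a) (hs a) (A a) (B a) m := by
  have f := Computable.fst (α := α) (β := ℕ)
  have hg : Computable fun p : α × ℕ =>
      ((K p.1, rules p.1, hs p.1, A p.1, B p.1, p.2) : SeqData) :=
    Computable.pair (hK.comp f) (Computable.pair (hr.comp f)
      (Computable.pair (hh.comp f) (Computable.pair (hA.comp f)
        (Computable.pair (hB.comp f) Computable.snd))))
  have h3 := Computable.comp computable_shearSeq_tuple hg
  refine Computable.of_eq (f := fun p : α × ℕ =>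
    shearSeq (K p.1) (rules p.1) (hs p.1) (A p.1) (B p.1) p.2) ?_ (fun _ => rfl)
  exact h3

end

end Vale.Agent.P113
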