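import Vale.Agent.Lib.P113.Discrete2
import Vale.Agent.Lib.P113.ShearComp

/-!
# The rules are computed by an algorithm
-/

namespace Vale.Agent.P113

namespace Dis

section
variable {α : Type} [Primcodable α] {D : α → Desc}

theorem pr_nQ (hD : Primrec D) : Primrec fun a => nQ (D a) :=
  Primrec.succ.comp (Primrec.fst.comp hD)

theorem pr_nS (hD : Primrec D) : Primrec fun a => nS (D a) :=
  Primrec.succ.comp (Primrec.fst.comp (Primrec.snd.comp hD))

theorem pr_startOf (hD : Primrec D) : Primrec fun a => startOf (D a) :=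
  Primrec.fst.comp (Primrec.snd.comp (Primrec.snd.comp hD))

theorem pr_blankOf (hD : Primrec D) : Primrec fun a => blankOf (D a) :=
  Primrec.fst.comp (Primrec.snd.comp (Primrec.snd.comp (Primrec.snd.comp hD)))

theorem pr_sw {b s : α → ℕ} (hb : Primrec b) (hs : Primrec s) :
    Primrec fun a => sw (b a) (s a) := by
  unfold sw
  exact Primrec.ite (Primrec.eq.comp hs hb) (Primrec.const 0)
    (Primrec.ite (Primrec.eq.comp hs (Primrec.const 0)) hb hs)

theorem pr_hl {q : α → ℕ} (hD : Primrec D) (hq : Primrec q) :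
    Primrec fun a => hl (D a) (q a) := by
  unfold hl
  exact (Primrec.list_getD true).comp (Primrec.fst.comp (Primrec.snd.comp (Primrec.snd.comp
    (Primrec.snd.comp (Primrec.snd.comp hD))))) hq

theorem pr_tb {q c : α → ℕ} (hD : Primrec D) (hq : Primrec q) (hc : Primrec c) :
    Primrec fun a => tb (D a) (q a) (c a) := by
  unfold tb
  exact (Primrec.list_getD _).comp ((Primrec.list_getD _).comp
    (Primrec.snd.comp (Primrec.snd.comp (Primrec.snd.comp (Primrec.snd.comp
      (Primrec.snd.comp hD))))) hq) (pr_sw (pr_blankOf hD) hc)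

theorem pr_J0 (hD : Primrec D) : Primrec fun a => J0 (D a) :=
  pr_nadd (pr_nS hD) (pr_nmul (Primrec.const 3) (pr_nQ hD))

theorem pr_num (hD : Primrec D) : Primrec fun a => num (D a) :=
  pr_nadd (pr_nadd (pr_J0 hD) (Primrec.const 2)) (pr_nmul (pr_nQ hD) (pr_nS hD))

theorem pr_rj {q c : α → ℕ} (hD : Primrec D) (hq : Primrec q) (hc : Primrec c) :
    Primrec fun a => rj (D a) (q a) (c a) :=
  pr_nadd (pr_nadd (pr_J0 hD) (Primrec.const 2)) (pr_nadd (pr_nmul hq (pr_nS hD)) hc)

theorem pr_st {q f : α → ℕ} (hD : Primrec D) (hq : Primrec q) (hf : Primrec f) :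
    Primrec fun a => st (D a) (q a) (f a) :=
  pr_nadd (pr_nS hD) (pr_nadd (pr_nmul (Primrec.const 3) hq) hf)

theorem pr_rule {u v u' v' : α → List ℕ} (hu : Primrec u) (hv : Primrec v) (hu' : Primrec u')
    (hv' : Primrec v') : Primrec fun a => some ((u a, v a, u' a, v' a) : Rule) :=
  pr_some (Primrec.pair hu (Primrec.pair hv (Primrec.pair hu' hv')))

theorem pr_list3 {f g h : α → ℕ} (hf : Primrec f) (hg : Primrec g) (hh : Primrec h) :
    Primrec fun a => [f a, g a, h a] := Primrec.list_cons.comp hf (pr_list2 hg hh)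

theorem pr_ruleOpt {i : α → ℕ × ℕ × ℕ} (hD : Primrec D) (hi : Primrec i) :
    Primrec fun a => ruleOpt (D a) (i a) := by
  unfold ruleOpt
  have q := Primrec.fst.comp hi
  have c := Primrec.fst.comp (Primrec.snd.comp hi)
  have f := Primrec.snd.comp (Primrec.snd.comp hi)
  have t := pr_tb hD q c
  have t1 := Primrec.fst.comp t
  have t2 := Primrec.fst.comp (Primrec.snd.comp t)
  have t3 := Primrec.snd.comp (Primrec.snd.comp t)
  have w := pr_sw (pr_blankOf hD) t2
  have r := pr_rj hD q c
  have sq : ∀ k, Primrec fun a => st (D a) (i a).1 k := fun k => pr_st hD q (Primrec.const k)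
  have st1 : ∀ k, Primrec fun a => st (D a) (tb (D a) (i a).1 (i a).2.1).1 k :=
    fun k => pr_st hD t1 (Primrec.const k)
  have hlt := Primrec.nat_lt.comp c (pr_nS hD)
  have hle := Primrec.nat_le.comp (pr_J0 hD) c
  have hnil : Primrec fun _ : α => ([] : List ℕ) := Primrec.const []
  refine Primrec.ite (Primrec.eq.comp f (Primrec.const 0)) ?_ ?_
  · refine Primrec.ite hlt ?_ (Primrec.const none)
    refine Primrec.ite (Primrec.eq.comp (pr_hl hD q) (Primrec.const true)) (Primrec.const none) ?_
    refine Primrec.ite (Primrec.eq.comp t3 (Primrec.const 2)) ?_ ?_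
    · exact pr_rule (pr_list1 (sq 0)) (pr_list1 c) (pr_list3 (st1 1) w r) hnil
    · refine Primrec.ite (Primrec.eq.comp t3 (Primrec.const 0)) ?_ ?_
      · exact pr_rule (pr_list1 (sq 0)) (pr_list1 c) (pr_list1 (st1 2)) (pr_list2 w r)
      · exact pr_rule (pr_list1 (sq 0)) (pr_list1 c) (pr_list2 (st1 0) r) (pr_list1 w)
  · refine Primrec.ite (Primrec.eq.comp f (Primrec.const 1)) ?_ ?_
    · refine Primrec.ite hlt ?_ (Primrec.ite hle ?_ (Primrec.const none))
      · exact pr_rule (pr_list1 (sq 1)) (pr_list1 c)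
          (pr_list2 (sq 0) (Primrec.succ.comp (pr_J0 hD))) (pr_list1 c)
      · exact pr_rule (pr_list1 (sq 1)) (pr_list1 c) (pr_list2 (sq 1) c) hnil
    · refine Primrec.ite hlt ?_ (Primrec.ite hle ?_ (Primrec.const none))
      · exact pr_rule (pr_list2 (sq 2) c) hnil (pr_list2 (sq 0) (pr_J0 hD)) (pr_list1 c)
      · exact pr_rule (pr_list2 (sq 2) c) hnil (pr_list1 (sq 2)) (pr_list1 c)

theorem pr_product {β γ : Type} [Primcodable β] [Primcodable γ] {l : α → List β}
    {l' : α → List γ} (hl : Primrec l) (hl' : Primrec l') :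
    Primrec fun a => (l a).product (l' a) := by
  unfold List.product
  refine Primrec.list_flatMap hl ?_
  refine Primrec.list_map (hl'.comp Primrec.fst) ?_
  exact Primrec.pair (Primrec.snd.comp Primrec.fst) Primrec.snd

theorem pr_idx (hD : Primrec D) : Primrec fun a => idx (D a) := by
  unfold idx
  exact pr_product (Primrec.list_range.comp (pr_nQ hD))
    (pr_product (Primrec.list_range.comp (pr_num hD)) (Primrec.const (List.range 3)))

end

theorem primrec_rules : Primrec rules := by
  unfold rules
  refine Primrec.listFilterMap (pr_idx Primrec.id) ?_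
  exact pr_ruleOpt Primrec.fst Primrec.snd

theorem primrec_hs : Primrec hs := by
  unfold hs
  refine Primrec.listFilterMap (Primrec.list_range.comp (pr_nQ Primrec.id)) ?_
  refine Primrec.ite (Primrec.eq.comp (pr_hl Primrec.fst Primrec.snd) (Primrec.const true)) ?_
    (Primrec.const none)
  exact pr_some (pr_st Primrec.fst Primrec.snd (Primrec.const 0))

theorem primrec_num : Primrec num := pr_num Primrec.id

theorem primrec_ini : Primrec ini := by
  unfold ini
  refine Primrec.pair ?_ ?_
  · exact pr_list1 (pr_st Primrec.fst (pr_startOf Primrec.fst) (Primrec.const 0))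
  · refine Primrec.list_map Primrec.snd ?_
    exact pr_sw (pr_blankOf (Primrec.fst.comp Primrec.fst)) Primrec.snd

end Dis

theorem discrete_main : ∃ (num : Desc → ℕ) (rules : Desc → List Rule) (hs : Desc → List ℕ)
    (ini : Desc × List ℕ → List ℕ × List ℕ),
    Computable num ∧ Computable rules ∧ Computable hs ∧ Computable ini ∧
    ∀ M : Machine, Simulates M (num M.describe) (rules M.describe) (hs M.describe)
      (fun w => ini (M.describe, w.map Fin.val)) :=
  ⟨Dis.num, Dis.rules, Dis.hs, Dis.ini, Dis.primrec_num.to_comp, Dis.primrec_rules.to_comp,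
    Dis.primrec_hs.to_comp, Dis.primrec_ini.to_comp, Dis.simulates⟩

end Vale.Agent.P113
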