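import Vale.Agent.Lib.P113.ForceComp
import Vale.Agent.Lib.P113.Creal

/-!
# The force of a computable family of sequences of shears is effective
-/

open scoped ContDiff

namespace Vale.Agent.P113

/-- The mixed derivatives of the force of a computable family of sequences of shears form a
computable family of reals. -/
theorem force_creal {α : Type*} [Primcodable α] {ν : ℝ} (hν : ComputableReal ν)
    (sh : α → ℕ → ShearData) (hsh : Computable₂ sh) (hOK : ∀ a m, ShearOK (sh a m)) :
    CReal (fun z : α × List (Fin 4) × Fin 3 × (RatCode × RatCode × RatCode × RatCode) =>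
      mixedDeriv z.2.1 (component (force ν (sh z.1)) z.2.2.1)
        ![ratVal z.2.2.2.1, ratVal z.2.2.2.2.1, ratVal z.2.2.2.2.2.1, ratVal z.2.2.2.2.2.2]) :=
  force_creal_of creal_smoothTransition hν sh hsh hOK

/-- The compiler: programs for the forces are computed from the parameter. -/
theorem exists_compiler {α : Type*} [Primcodable α] {ν : ℝ} (hν : ComputableReal ν)
    (sh : α → ℕ → ShearData) (hsh : Computable₂ sh) (hOK : ∀ a m, ShearOK (sh a m)) :
    ∃ compile : α → Nat.Partrec.Code, Computable compile ∧
      ∀ a, Computes (compile a) (force ν (sh a)) :=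
  exists_compiler_of (force_creal hν sh hsh hOK)

end Vale.Agent.P113
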