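import Vale.Agent.Lib.P113.Assemble
import Vale.Agent.Lib.P113.Discrete3
import Vale.Agent.Lib.P113.Force

/-!
# The universal shear sequence
-/

open scoped ContDiff Topology
open Filter

namespace Vale.Agent.P113

/-! ## Rules with admissible digits -/

def okList (K : ℕ) (l : List ℕ) : Bool := l.foldr (fun d b => decide (d < K) && b) true

theorem okList_iff {K : ℕ} {l : List ℕ} : okList K l = true ↔ Dig K l := by
  induction l with
  | nil => simp [okList, Dig]
  | cons d l ih =>
    have : okList K (d :: l) = (decide (d < K) && okList K l) := rfl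
    rw [this, Bool.and_eq_true, decide_eq_true_iff, ih]
    constructor
    · rintro ⟨h1, h2⟩ e he
      rcases List.mem_cons.1 he with rfl | he
      · exact h1
      · exact h2 e he
    · exact fun h => h.cons

/-- Remove rules with digits that are too large. -/
def safe (K : ℕ) (rules : List Rule) : List Rule :=
  rules.filterMap fun r =>
    if okList K (r.1 ++ (r.2.1 ++ (r.2.2.1 ++ r.2.2.2))) = true then some r else none

theorem okList_rule {K : ℕ} {r : Rule} :
    okList K (r.1 ++ (r.2.1 ++ (r.2.2.1 ++ r.2.2.2))) = true ↔ RDig K r := by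
  rw [okList_iff]
  constructor
  · intro h
    have h1 := h.append
    have h2 := h1.2.append
    have h3 := h2.2.append
    exact ⟨h1.1, h2.1, h3.1, h3.2⟩
  · rintro ⟨h1, h2, h3, h4⟩
    exact h1.append' (h2.append' (h3.append' h4))

theorem safe_dig {K : ℕ} {rules : List Rule} : ∀ r ∈ safe K rules, RDig K r := by
  intro r hr
  unfold safe at hr
  rw [List.mem_filterMap] at hr
  obtain ⟨s, _, hs⟩ := hr
  split_ifs at hs with h
  simp only [Option.some.injEq] at hs
  subst hs
  exact okList_rule.1 h

theorem safe_eq {K : ℕ} {rules : List Rule} (h : ∀ r ∈ rules, RDig K r) :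
    safe K rules = rules := by
  unfold safe
  induction rules with
  | nil => rfl
  | cons r l ih =>
    rw [List.filterMap_cons_some (b := r)]
    · rw [ih fun s hs => h s (by simp [hs])]
    · rw [if_pos (okList_rule.2 (h r (by simp)))]

section
variable {α : Type} [Primcodable α] {K : α → ℕ}

theorem pr_okList {l : α → List ℕ} (hK : Primrec K) (hl : Primrec l) :
    Primrec fun a => okList (K a) (l a) := by
  unfold okList
  refine Primrec.list_foldr (h := fun a p => decide (p.1 < K a) && p.2) hl (Primrec.const true) ?_
  exact Primrec.and.comp (Primrec.nat_lt.decide.comp (Primrec.fst.comp Primrec.snd)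
    (hK.comp Primrec.fst)) (Primrec.snd.comp Primrec.snd)

theorem pr_safe {rules : α → List Rule} (hK : Primrec K) (hr : Primrec rules) :
    Primrec fun a => safe (K a) (rules a) := by
  unfold safe
  refine Primrec.listFilterMap hr ?_
  have h2 : Primrec fun p : α × Rule =>
      okList (K p.1) (p.2.1 ++ (p.2.2.1 ++ (p.2.2.2.1 ++ p.2.2.2.2))) := by
    apply pr_okList (hK.comp Primrec.fst)
    have s := Primrec.snd (α := α) (β := Rule)
    exact Primrec.list_append.comp (Primrec.fst.comp s)
      (Primrec.list_append.comp (Primrec.fst.comp (Primrec.snd.comp s))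
        (Primrec.list_append.comp (Primrec.fst.comp (Primrec.snd.comp (Primrec.snd.comp s)))
          (Primrec.snd.comp (Primrec.snd.comp (Primrec.snd.comp s)))))
  exact Primrec.ite (Primrec.eq.comp h2 (Primrec.const true)) (pr_some Primrec.snd)
    (Primrec.const none)

end

/-! ## The shears attached to a machine and an input -/

def shears (p : Desc × List ℕ) (m : ℕ) : ShearData :=
  shearSeq (Dis.num p.1) (safe (Dis.num p.1) (Dis.rules p.1)) (Dis.hs p.1)
    (Dis.ini p).1 (Dis.ini p).2 m

theorem computable_shears : Computable₂ shears := by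
  have h1 : Computable fun p : Desc × List ℕ => Dis.num p.1 :=
    (Dis.primrec_num.comp Primrec.fst).to_comp
  have h2 : Computable fun p : Desc × List ℕ => safe (Dis.num p.1) (Dis.rules p.1) :=
    (pr_safe (Dis.primrec_num.comp Primrec.fst) (Dis.primrec_rules.comp Primrec.fst)).to_comp
  have h3 : Computable fun p : Desc × List ℕ => Dis.hs p.1 :=
    (Dis.primrec_hs.comp Primrec.fst).to_comp
  have h4 : Computable fun p : Desc × List ℕ => (Dis.ini p).1 :=
    (Primrec.fst.comp Dis.primrec_ini).to_comp
  have h5 : Computable fun p : Desc × List ℕ => (Dis.ini p).2 :=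
    (Primrec.snd.comp Dis.primrec_ini).to_comp
  exact computable_shearSeq h1 h2 h3 h4 h5

theorem num_pos (D : Desc) : 0 < Dis.num D := by have := Dis.J0_lt D; omega

theorem hs_lt (D : Desc) : ∀ h ∈ Dis.hs D, h < Dis.num D := by
  intro h hh
  obtain ⟨q, hq, _, rfl⟩ := Dis.mem_hs.1 hh
  have := Dis.st_lt (f := 0) hq (by norm_num)
  have := Dis.J0_lt D
  omega

theorem blockOf_ok' {K : ℕ} {rules : List Rule} {hs : List ℕ} (hK : 0 < K)
    (hd : ∀ r ∈ rules, RDig K r) (hh : ∀ h ∈ hs, h < K) :
    ∀ sh ∈ blockOf K rules hs, ShearOK sh := by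
  intro sh hsh
  simp only [blockOf, List.mem_cons, List.not_mem_nil, or_false] at hsh
  rcases hsh with rfl | rfl | rfl | rfl
  · intro T hT
    simp only [List.mem_append] at hT
    rcases hT with hT | hT
    · refine allTerms_ok (d := 2) (t := t1 K rules.length) (rules := rules) ?_ T hT
      intro j hj T hT
      obtain ⟨f1, f2, f3, f4⟩ := hd rules[j] (List.getElem_mem hj)
      simp only [t1, List.mem_cons, List.not_mem_nil, or_false] at hT
      subst hT
      exact ⟨winC_ok hK f1 _, winC_ok hK f2 _, trivial, rfl⟩
    · simp only [List.mem_map] at hT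
      obtain ⟨h, hh', rfl⟩ := hT
      refine ⟨winC_ok hK ?_ _, trivial, trivial, rfl⟩
      intro d hd; simp at hd; rw [hd]; exact hh h hh'
  · apply allTerms_ok
    intro j hj T hT
    obtain ⟨f1, f2, f3, f4⟩ := hd rules[j] (List.getElem_mem hj)
    simp only [t2, List.mem_cons, List.not_mem_nil, or_false] at hT
    rcases hT with rfl | rfl
    · exact ⟨trivial, winC_ok hK f2 _, zetaC_ok hj _, rfl⟩
    · exact ⟨trivial, trivial, zetaC_ok hj _, rfl⟩
  · apply allTerms_ok
    intro j hj T hT
    obtain ⟨f1, f2, f3, f4⟩ := hd rules[j] (List.getElem_mem hj)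
    simp only [t3, List.mem_cons, List.not_mem_nil, or_false] at hT
    rcases hT with rfl | rfl
    · exact ⟨trivial, trivial, zetaC_ok hj _, rfl⟩
    · exact ⟨winC_ok hK f4 _, trivial, zetaC_ok hj _, rfl⟩
  · apply allTerms_ok
    intro j hj T hT
    obtain ⟨f1, f2, f3, f4⟩ := hd rules[j] (List.getElem_mem hj)
    simp only [t4, List.mem_cons, List.not_mem_nil, or_false] at hT
    subst hT
    exact ⟨winC_ok hK f4 _, winC_ok hK f3 _, trivial, rfl⟩

theorem shears_ok (p : Desc × List ℕ) (m : ℕ) : ShearOK (shears p m) := by
  unfold shears shearSeq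
  split_ifs
  · exact constShear_ok _ _
  · exact constShear_ok _ _
  · have hl : (m - 2) % 8 < (perList (Dis.num p.1) (safe (Dis.num p.1) (Dis.rules p.1))
        (Dis.hs p.1)).length := by
      rw [perList_length]; exact Nat.mod_lt _ (by norm_num)
    rw [List.getD_eq_getElem _ _ hl]
    have := List.getElem_mem hl
    rcases List.mem_append.1 this with h | h
    · exact blockOf_ok' (num_pos _) safe_dig (hs_lt _) _ h
    · refine blockOf_ok' (num_pos _) ?_ (by intro h hh; simp at hh) _ h
      exact (goodRules_id (num_pos _)).dig

/-- The rational displacement performed by the loading phase. -/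
def loadCode (p : Desc × List ℕ) : RatCode × RatCode × RatCode :=
  (encC (Dis.num p.1) (Dis.ini p).1, encC (Dis.num p.1) (Dis.ini p).2, rNat 0)

theorem computable_loadCode : Computable loadCode := by
  apply Primrec.to_comp
  unfold loadCode
  exact Primrec.pair (pr_encC (Dis.primrec_num.comp Primrec.fst)
    (Primrec.fst.comp Dis.primrec_ini)) (Primrec.pair (pr_encC
      (Dis.primrec_num.comp Primrec.fst) (Primrec.snd.comp Dis.primrec_ini)) (Primrec.const _))

/-- The main equivalence. -/
theorem shears_halting (M : Machine) (w : List (Fin (M.m + 1))) :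
    (∃ t : ℝ, 0 ≤ t ∧
        toTorus (traj (shears (M.describe, w.map Fin.val)) aStar t) ∈ region) ↔ M.Halts w := by
  have hsim := Dis.simulates M
  have hsafe : safe (Dis.num M.describe) (Dis.rules M.describe) = Dis.rules M.describe :=
    safe_eq fun r hr => hsim.digits_lt r hr
  obtain ⟨run, h0, hdig, hstep, hhalt⟩ := hsim.run w
  have hmain := run_main hsim.good hdig hstep
  have hsh : shears (M.describe, w.map Fin.val) =
      shearSeq (Dis.num M.describe) (Dis.rules M.describe) (Dis.hs M.describe)
        (run 0).1 (run 0).2 := by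
    funext m
    unfold shears
    simp only [hsafe, h0]
  rw [hsh, hmain, ← hhalt]

/-- Before time `2` the third coordinate of the path is `0`. -/
theorem traj_load_height (p : Desc × List ℕ) {t : ℝ} (h0 : 0 ≤ t) (h2 : t ≤ 2) :
    zOK (traj (shears p) aStar t) := by
  have e0 : shears p 0 = constShear 0 (encC (Dis.num p.1) (Dis.ini p).1) := rfl
  have e1 : shears p 1 = constShear 1 (encC (Dis.num p.1) (Dis.ini p).2) := rfl
  have a2 : aStar 2 = 0 := by simp [aStar, pt]
  have p0 : positions (shears p) aStar 0 2 = 0 := a2
  have p1 : positions (shears p) aStar 1 2 = 0 := by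
    have : positions (shears p) aStar 1 = aStar + shearField (shears p 0) aStar := rfl
    rw [this, e0]
    unfold shearField
    simp [constShear, a2]
  have p2 : positions (shears p) aStar 2 2 = 0 := by
    have : positions (shears p) aStar 2 = positions (shears p) aStar 1 +
      shearField (shears p 1) (positions (shears p) aStar 1) := rfl
    rw [this, e1]
    unfold shearField
    simp [constShear, p1]
  have key : traj (shears p) aStar t 2 = 0 := by
    rcases lt_or_ge t 1 with h | h
    · have hfl : ⌊t⌋₊ = 0 := Nat.floor_eq_zero.2 h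
      unfold traj
      rw [hfl, e0]
      simp only [Pi.add_apply, Pi.smul_apply, smul_eq_mul, p0]
      unfold shearField
      simp [constShear]
    · rcases h2.lt_or_eq with h3 | h3
      · have hfl : ⌊t⌋₊ = 1 := by
          rw [Nat.floor_eq_iff (by linarith)]
          push_cast
          constructor <;> linarith
        unfold traj
        rw [hfl, e1]
        simp only [Pi.add_apply, Pi.smul_apply, smul_eq_mul, p1]
        unfold shearField
        simp [constShear]
      · subst h3
        have h4 := traj_nat (shears p) aStar 2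
        have h5 : traj (shears p) aStar 2 = positions (shears p) aStar 2 := by exact_mod_cast h4
        rw [h5, p2]
  unfold zOK
  rw [key]
  norm_num

end Vale.Agent.P113
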