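import Vale.Agent.Lib.P113.Iface

/-!
# The flow generated by a sequence of coordinate shears
-/

open scoped ContDiff Topology
open Filter

namespace Vale.Agent.P113

/-! ## The time profile -/

theorem theta_contDiff : ContDiff ℝ ∞ theta := by
  unfold theta
  exact Real.smoothTransition.contDiff.comp (by fun_prop)

theorem theta_eq_zero {t : ℝ} (ht : t ≤ 1 / 4) : theta t = 0 :=
  Real.smoothTransition.zero_of_nonpos (by linarith)

theorem theta_eq_one {t : ℝ} (ht : 3 / 4 ≤ t) : theta t = 1 :=
  Real.smoothTransition.one_of_one_le (by linarith)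

theorem theta_nonneg (t : ℝ) : 0 ≤ theta t := Real.smoothTransition.nonneg _

theorem theta_le_one (t : ℝ) : theta t ≤ 1 := Real.smoothTransition.le_one _

theorem dtheta_contDiff : ContDiff ℝ ∞ (deriv theta) := by
  have := theta_contDiff
  exact (contDiff_infty_iff_deriv.1 this).2

theorem ddtheta_contDiff : ContDiff ℝ ∞ (deriv (deriv theta)) := by
  exact (contDiff_infty_iff_deriv.1 dtheta_contDiff).2

/-- A function vanishes outside `[1/4, 3/4]`. -/
def SlotFun (φ : ℝ → ℝ) : Prop := (∀ t, t < 1 / 4 → φ t = 0) ∧ (∀ t, 3 / 4 < t → φ t = 0)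

theorem slotFun_deriv_of_const {φ : ℝ → ℝ} {c d : ℝ} (h1 : ∀ t, t < 1 / 4 → φ t = c)
    (h2 : ∀ t, 3 / 4 < t → φ t = d) : SlotFun (deriv φ) := by
  constructor
  · intro t ht
    have : φ =ᶠ[𝓝 t] fun _ => c := by
      filter_upwards [Iio_mem_nhds ht] with s hs using h1 s hs
    rw [this.deriv_eq]; simp
  · intro t ht
    have : φ =ᶠ[𝓝 t] fun _ => d := by
      filter_upwards [Ioi_mem_nhds ht] with s hs using h2 s hs
    rw [this.deriv_eq]; simp

theorem slotFun_dtheta : SlotFun (deriv theta) :=
  slotFun_deriv_of_const (fun _ ht => theta_eq_zero ht.le) (fun _ ht => theta_eq_one ht.le)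

theorem slotFun_ddtheta : SlotFun (deriv (deriv theta)) :=
  slotFun_deriv_of_const slotFun_dtheta.1 slotFun_dtheta.2

/-- Near every time the slot index may be frozen. -/
theorem slot_eventually (t0 : ℝ) :
    ∀ᶠ t in 𝓝 t0, ⌊t⌋₊ = ⌊t0⌋₊ ∨
      (t - (⌊t⌋₊ : ℝ) > 3 / 4 ∧ t - (⌊t0⌋₊ : ℝ) < 1 / 4 ∧ ⌊t⌋₊ + 1 = ⌊t0⌋₊) := by
  rcases lt_or_ge t0 0 with h | h
  · filter_upwards [Iio_mem_nhds h] with t ht
    left
    rw [Nat.floor_of_nonpos (le_of_lt ht), Nat.floor_of_nonpos h.le]
  · have hm := Nat.floor_le h
    have hm' := Nat.lt_floor_add_one t0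
    set m := ⌊t0⌋₊ with hmdef
    rcases hm.lt_or_eq with h1 | h1
    · filter_upwards [Ioo_mem_nhds h1 hm'] with t ht
      left
      rw [Nat.floor_eq_iff (le_trans (Nat.cast_nonneg m) ht.1.le)]
      exact ⟨ht.1.le, ht.2⟩
    · have : Set.Ioo (t0 - 1 / 4) (t0 + 1 / 4) ∈ 𝓝 t0 :=
        Ioo_mem_nhds (by linarith) (by linarith)
      filter_upwards [this] with t ht
      rcases le_or_gt (m : ℝ) t with h2 | h2
      · left
        rw [Nat.floor_eq_iff (le_trans (Nat.cast_nonneg m) h2)]
        exact ⟨h2, by have := ht.2; linarith⟩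
      · rcases Nat.eq_zero_or_pos m with h3 | h3
        · left
          rw [h3] at h2 ⊢
          exact Nat.floor_of_nonpos (by simpa using h2.le)
        · right
          obtain ⟨j, hj⟩ : ∃ j, m = j + 1 := ⟨m - 1, by omega⟩
          have hfl : ⌊t⌋₊ = j := by
            have hjt : (j : ℝ) ≤ t := by
              have h4 : (m : ℝ) = j + 1 := by rw [hj]; push_cast; ring
              have := ht.1
              linarith
            rw [Nat.floor_eq_iff (le_trans (Nat.cast_nonneg j) hjt)]
            refine ⟨hjt, ?_⟩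
            have h4 : (m : ℝ) = j + 1 := by rw [hj]; push_cast; ring
            linarith
          have h4 : (m : ℝ) = j + 1 := by rw [hj]; push_cast; ring
          rw [hfl]
          refine ⟨?_, ?_, by omega⟩
          · have := ht.1; linarith
          · linarith

/-- Near every time, a slot-wise field has the form given by a frozen slot. -/
theorem slot_congr {E : Type*} {φ : ℝ → ℝ} (hφ : SlotFun φ) (W : ℕ → ℝ → E) {z : E}
    (hW : ∀ m, W m 0 = z) (t0 : ℝ) :
    ∀ᶠ t in 𝓝 t0, W ⌊t⌋₊ (φ (t - (⌊t⌋₊ : ℝ))) = W ⌊t0⌋₊ (φ (t - (⌊t0⌋₊ : ℝ))) := by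
  filter_upwards [slot_eventually t0] with t ht
  rcases ht with ht | ⟨h1, h2, h3⟩
  · rw [ht]
  · rw [hφ.2 _ h1, hφ.1 _ h2, hW, hW]

/-! ## Coordinate derivatives of functions on `ℝ³` -/

/-- Coordinate derivative. -/
noncomputable def cd (j : Fin 3) (g : V3 → ℝ) (x : V3) : ℝ :=
  deriv (fun s => g (Function.update x j s)) (x j)

theorem hasDerivAt_update_comp {g : V3 → ℝ} (hg : Differentiable ℝ g) (x : V3) (j : Fin 3)
    (s : ℝ) : HasDerivAt (fun s => g (Function.update x j s))
      (fderiv ℝ g (Function.update x j s) (Pi.single j 1)) s := by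
  have h1 : HasDerivAt (fun s => Function.update x j s) (Pi.single j (1 : ℝ)) s :=
    hasDerivAt_update x j s
  exact (hg (Function.update x j s)).hasFDerivAt.comp_hasDerivAt s h1

theorem cd_eq_fderiv {g : V3 → ℝ} (hg : Differentiable ℝ g) (j : Fin 3) (x : V3) :
    cd j g x = fderiv ℝ g x (Pi.single j 1) := by
  have := (hasDerivAt_update_comp hg x j (x j)).deriv
  simpa [cd] using this

theorem hasDerivAt_cd {g : V3 → ℝ} (hg : Differentiable ℝ g) (j : Fin 3) (x : V3) :
    HasDerivAt (fun s => g (Function.update x j s)) (cd j g x) (x j) := by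
  have := hasDerivAt_update_comp hg x j (x j)
  rw [cd_eq_fderiv hg]
  simpa using this

theorem cd_contDiff {g : V3 → ℝ} (hg : ContDiff ℝ ∞ g) (j : Fin 3) : ContDiff ℝ ∞ (cd j g) := by
  have hd : Differentiable ℝ g := hg.differentiable (by simp)
  have h1 : cd j g = fun x => fderiv ℝ g x (Pi.single j 1) := by
    funext x; exact cd_eq_fderiv hd j x
  rw [h1]
  have h2 : ContDiff ℝ ∞ (fderiv ℝ g) := hg.fderiv_right (by simp)
  exact h2.clm_apply contDiff_const

theorem iteratedDeriv_two_update {g : V3 → ℝ} (j : Fin 3) (x : V3) :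
    iteratedDeriv 2 (fun s => g (Function.update x j s)) (x j) = cd j (cd j g) x := by
  rw [iteratedDeriv_succ, iteratedDeriv_one]
  unfold cd
  congr 1
  funext s
  simp

theorem cd_of_indep {g : V3 → ℝ} {j : Fin 3} (hg : ∀ x s, g (Function.update x j s) = g x)
    (x : V3) : cd j g x = 0 := by
  unfold cd
  simp [hg]

/-! ## Factors, terms, profiles -/

theorem facVal_add_int (F : Fac) (s : ℝ) (n : ℤ) : facVal F (s + n) = facVal F s := by
  unfold facVal
  rw [Int.fract_add_intCast]

theorem optFac_add_int (F : Option Fac) (s : ℝ) (n : ℤ) : optFac F (s + n) = optFac F s := by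
  cases F with
  | none => rfl
  | some F => exact facVal_add_int F s n

/-- Factors are smooth. -/
theorem contDiff_facVal' {F : Fac} (h : FacOK F) : ContDiff ℝ ∞ (facVal F) := by
  obtain ⟨ha, hb⟩ := h
  rw [contDiff_iff_contDiffAt]
  intro s
  by_cases hs : Int.fract s = 0
  · -- near an integer the function vanishes
    obtain ⟨n, hn⟩ : ∃ n : ℤ, s = n := ⟨⌊s⌋, by
      have := Int.fract_add_floor s
      rw [hs, zero_add] at this
      exact this.symm⟩
    set a := ratVal F.2.2.1
    set b := ratVal F.2.2.2.1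
    have hev : facVal F =ᶠ[𝓝 s] fun _ => 0 := by
      have hmem : Set.Ioo (s - (1 - b)) (s + min a 1) ∈ 𝓝 s :=
        Ioo_mem_nhds (by linarith) (by have := lt_min ha one_pos; linarith)
      have hmem2 : Set.Ioo (s - 1) (s + 1) ∈ 𝓝 s := Ioo_mem_nhds (by linarith) (by linarith)
      filter_upwards [hmem, hmem2] with t ht ht2
      have hN : (0 : ℝ) < (F.2.2.2.2 : ℝ) + 1 := by positivity
      rcases le_or_gt s t with hst | hst
      · have hfl : ⌊t⌋ = n := by
          rw [Int.floor_eq_iff]
          constructor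
          · rw [← hn]; exact hst
          · rw [← hn]; exact ht2.2
        have hfr : Int.fract t = t - s := by
          rw [Int.fract, hfl, hn]
        have h0 : Real.smoothTransition ((Int.fract t - ratVal F.2.2.1) * ((F.2.2.2.2 : ℝ) + 1))
            = 0 := by
          apply Real.smoothTransition.zero_of_nonpos
          apply mul_nonpos_of_nonpos_of_nonneg _ hN.le
          rw [hfr]
          have := ht.2
          have h5 := min_le_left a 1
          change t - s - a ≤ 0
          linarith
        unfold facVal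
        rw [h0]; ring
      · have hfl : ⌊t⌋ = n - 1 := by
          rw [Int.floor_eq_iff]
          push_cast
          constructor
          · rw [← hn]; exact ht2.1.le
          · rw [← hn]; linarith
        have hfr : Int.fract t = t - s + 1 := by
          rw [Int.fract, hfl, hn]; push_cast; ring
        have h0 : Real.smoothTransition ((ratVal F.2.2.2.1 - Int.fract t) * ((F.2.2.2.2 : ℝ) + 1))
            = 0 := by
          apply Real.smoothTransition.zero_of_nonpos
          apply mul_nonpos_of_nonpos_of_nonneg _ hN.le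
          rw [hfr]
          have := ht.1
          change b - (t - s + 1) ≤ 0
          linarith
        unfold facVal
        rw [h0]; ring
    exact contDiffAt_const.congr_of_eventuallyEq hev
  · have hs' : 0 < Int.fract s := lt_of_le_of_ne (Int.fract_nonneg s) (Ne.symm hs)
    have hlt := Int.fract_lt_one s
    have hev : facVal F =ᶠ[𝓝 s] fun t => (ratVal F.1 + ratVal F.2.1 * (t - ⌊s⌋)) *
        Real.smoothTransition (((t - ⌊s⌋) - ratVal F.2.2.1) * ((F.2.2.2.2 : ℝ) + 1)) *
        Real.smoothTransition ((ratVal F.2.2.2.1 - (t - ⌊s⌋)) * ((F.2.2.2.2 : ℝ) + 1)) := by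
      have h1 : (⌊s⌋ : ℝ) < s := by
        have := Int.fract_add_floor s
        linarith
      have h2 : s < ⌊s⌋ + 1 := Int.lt_floor_add_one s
      filter_upwards [Ioo_mem_nhds h1 h2] with t ht
      have hfl : ⌊t⌋ = ⌊s⌋ := by
        rw [Int.floor_eq_iff]; exact ⟨ht.1.le, ht.2⟩
      have hfr : Int.fract t = t - ⌊s⌋ := by rw [Int.fract, hfl]
      unfold facVal
      rw [hfr]
    refine ContDiffAt.congr_of_eventuallyEq ?_ hev
    apply ContDiff.contDiffAt
    apply ContDiff.mul
    · apply ContDiff.mul
      · fun_prop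
      · exact Real.smoothTransition.contDiff.comp (by fun_prop)
    · exact Real.smoothTransition.contDiff.comp (by fun_prop)

theorem contDiff_optFac {F : Option Fac} (h : OptFacOK F) : ContDiff ℝ ∞ (optFac F) := by
  cases F with
  | none => exact contDiff_const
  | some F => exact contDiff_facVal' h

theorem termVal_contDiff {T : Term} (h : OptFacOK T.2.1 ∧ OptFacOK T.2.2.1 ∧ OptFacOK T.2.2.2) :
    ContDiff ℝ ∞ (termVal T) := by
  unfold termVal
  refine contDiff_const.mul ((ContDiff.mul ?_ ?_).mul ?_)
  · exact (contDiff_optFac h.1).comp (contDiff_apply ℝ ℝ (0 : Fin 3))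
  · exact (contDiff_optFac h.2.1).comp (contDiff_apply ℝ ℝ (1 : Fin 3))
  · exact (contDiff_optFac h.2.2).comp (contDiff_apply ℝ ℝ (2 : Fin 3))

theorem termVal_periodic (T : Term) : Periodic3 (termVal T) := by
  intro x n
  unfold termVal
  simp only [optFac_add_int]

theorem termVal_indep {T : Term} {j : Fin 3} (h : Term.fac T j = none) (x : V3) (s : ℝ) :
    termVal T (Function.update x j s) = termVal T x := by
  unfold termVal
  fin_cases j
  · have h' : T.2.1 = none := by simpa [Term.fac] using h
    simp [h', optFac]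
  · have h' : T.2.2.1 = none := by simpa [Term.fac] using h
    simp [h', optFac]
  · have h' : T.2.2.2 = none := by simpa [Term.fac] using h
    simp [h', optFac]

theorem profile_nil (d : Fin 3) (x : V3) : profile (d, []) x = 0 := by simp [profile]

theorem profile_cons (d : Fin 3) (T : Term) (l : List Term) (x : V3) :
    profile (d, T :: l) x = termVal T x + profile (d, l) x := by simp [profile]

theorem profile_contDiff {sh : ShearData} (h : ShearOK sh) : ContDiff ℝ ∞ (profile sh) := by
  obtain ⟨d, l⟩ := sh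
  induction l with
  | nil =>
    have : profile (d, ([] : List Term)) = fun _ => 0 := by funext x; exact profile_nil d x
    rw [this]; exact contDiff_const
  | cons T l ih =>
    have : profile (d, T :: l) = fun x => termVal T x + profile (d, l) x := by
      funext x; exact profile_cons d T l x
    rw [this]
    have hT := h T (by simp)
    refine ContDiff.add (termVal_contDiff ⟨hT.1, hT.2.1, hT.2.2.1⟩) (ih ?_)
    intro T' hT'
    exact h T' (by simp [hT'])

theorem profile_periodic (sh : ShearData) : Periodic3 (profile sh) := by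
  intro x n
  unfold profile
  congr 1
  apply List.map_congr_left
  intro T _
  exact termVal_periodic T x n

theorem profile_indep {sh : ShearData} (h : ShearOK sh) (x : V3) (s : ℝ) :
    profile sh (Function.update x sh.1 s) = profile sh x := by
  unfold profile
  congr 1
  apply List.map_congr_left
  intro T hT
  exact termVal_indep (h T hT).2.2.2 x s

theorem cd_periodic {g : V3 → ℝ} (hg : Periodic3 g) (j : Fin 3) : Periodic3 (cd j g) := by
  intro x n
  unfold cd
  have h1 : (fun s => g (Function.update (fun i => x i + (n i : ℝ)) j s)) =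
      fun s => (fun r => g (Function.update x j r)) (s + (-(n j) : ℝ)) := by
    funext s
    have h2 : Function.update (fun i => x i + (n i : ℝ)) j s =
        fun i => (Function.update x j (s + (-(n j) : ℝ))) i + (n i : ℝ) := by
      funext i
      by_cases hi : i = j
      · subst hi; simp
      · simp [Function.update_of_ne hi]
    rw [h2]
    exact hg _ n
  have h3 := deriv_comp_add_const (fun r => g (Function.update x j r)) (-(n j : ℝ))
    (x j + (n j : ℝ))
  rw [h1]
  refine h3.trans ?_
  congr 1
  ring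

theorem profileLap_eq (sh : ShearData) (x : V3) :
    profileLap sh x = ∑ j : Fin 3, cd j (cd j (profile sh)) x := by
  unfold profileLap
  exact Finset.sum_congr rfl fun j _ => iteratedDeriv_two_update j x

theorem profileLap_contDiff {sh : ShearData} (h : ShearOK sh) :
    ContDiff ℝ ∞ (profileLap sh) := by
  have : profileLap sh = fun x => ∑ j : Fin 3, cd j (cd j (profile sh)) x := by
    funext x; exact profileLap_eq sh x
  rw [this]
  exact ContDiff.sum fun j _ => cd_contDiff (cd_contDiff (profile_contDiff h) j) j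

theorem profileLap_periodic (sh : ShearData) : Periodic3 (profileLap sh) := by
  intro x n
  rw [profileLap_eq, profileLap_eq]
  exact Finset.sum_congr rfl fun j _ => cd_periodic (cd_periodic (profile_periodic sh) j) j x n

/-! ## Smoothness and periodicity of the velocity and the force -/

theorem velocity_eventually (sh : ℕ → ShearData) (t0 : ℝ) :
    ∀ᶠ t in 𝓝 t0, ∀ x, velocity sh t x =
      Pi.single (sh ⌊t0⌋₊).1 (deriv theta (t - (⌊t0⌋₊ : ℝ)) * profile (sh ⌊t0⌋₊) x) := by
  have := slot_congr slotFun_dtheta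
    (fun m r => fun x : V3 => (Pi.single (sh m).1 (r * profile (sh m) x) : V3)) (z := fun _ => 0)
    (by intro m; funext x; simp) t0
  filter_upwards [this] with t ht x
  exact congrFun ht x

theorem force_eventually (ν : ℝ) (sh : ℕ → ShearData) (t0 : ℝ) :
    ∀ᶠ t in 𝓝 t0, ∀ x, force ν sh t x =
      Pi.single (sh ⌊t0⌋₊).1
        (deriv (deriv theta) (t - (⌊t0⌋₊ : ℝ)) * profile (sh ⌊t0⌋₊) x
          - ν * (deriv theta (t - (⌊t0⌋₊ : ℝ)) * profileLap (sh ⌊t0⌋₊) x)) := by
  have h1 := slot_congr slotFun_ddtheta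
    (fun m r => fun x : V3 => (Pi.single (sh m).1 (r * profile (sh m) x) : V3)) (z := fun _ => 0)
    (by intro m; funext x; simp) t0
  have h2 := slot_congr slotFun_dtheta
    (fun m r => fun x : V3 => (Pi.single (sh m).1 (- (ν * (r * profileLap (sh m) x))) : V3))
    (z := fun _ => 0) (by intro m; funext x; simp) t0
  filter_upwards [h1, h2] with t ht1 ht2 x
  have e1 := congrFun ht1 x
  have e2 := congrFun ht2 x
  beta_reduce at e1 e2
  unfold force
  rw [sub_eq_add_neg, Pi.single_add, e1, e2, ← Pi.single_add, ← sub_eq_add_neg]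

theorem contDiff_single {E : Type*} [NormedAddCommGroup E] [NormedSpace ℝ E] (d : Fin 3)
    {g : E → ℝ} (hg : ContDiff ℝ ∞ g) : ContDiff ℝ ∞ (fun z => (Pi.single d (g z) : V3)) := by
  rw [contDiff_pi]
  intro i
  by_cases hi : i = d
  · subst hi; simpa using hg
  · have : (fun z => (Pi.single d (g z) : V3) i) = fun _ => 0 := by
      funext z; simp [Pi.single_eq_of_ne hi]
    rw [this]; exact contDiff_const

theorem velocity_contDiff {sh : ℕ → ShearData} (h : ∀ m, ShearOK (sh m)) :
    ContDiff ℝ ∞ (fun z : ℝ × V3 => velocity sh z.1 z.2) := by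
  rw [contDiff_iff_contDiffAt]
  rintro ⟨t0, x0⟩
  have hev : (fun z : ℝ × V3 => velocity sh z.1 z.2) =ᶠ[𝓝 (t0, x0)] fun z =>
      Pi.single (sh ⌊t0⌋₊).1 (deriv theta (z.1 - (⌊t0⌋₊ : ℝ)) * profile (sh ⌊t0⌋₊) z.2) := by
    have := (continuous_fst.tendsto (t0, x0)).eventually (velocity_eventually sh t0)
    filter_upwards [this] with z hz using hz z.2
  refine ContDiffAt.congr_of_eventuallyEq ?_ hev
  apply ContDiff.contDiffAt
  apply contDiff_single
  apply ContDiff.mul
  · exact dtheta_contDiff.comp (by fun_prop)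
  · exact (profile_contDiff (h _)).comp contDiff_snd

theorem force_contDiff (ν : ℝ) {sh : ℕ → ShearData} (h : ∀ m, ShearOK (sh m)) :
    ContDiff ℝ ∞ (fun z : ℝ × V3 => force ν sh z.1 z.2) := by
  rw [contDiff_iff_contDiffAt]
  rintro ⟨t0, x0⟩
  have hev : (fun z : ℝ × V3 => force ν sh z.1 z.2) =ᶠ[𝓝 (t0, x0)] fun z =>
      Pi.single (sh ⌊t0⌋₊).1
        (deriv (deriv theta) (z.1 - (⌊t0⌋₊ : ℝ)) * profile (sh ⌊t0⌋₊) z.2
          - ν * (deriv theta (z.1 - (⌊t0⌋₊ : ℝ)) * profileLap (sh ⌊t0⌋₊) z.2)) := by
    have := (continuous_fst.tendsto (t0, x0)).eventually (force_eventually ν sh t0)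
    filter_upwards [this] with z hz using hz z.2
  refine ContDiffAt.congr_of_eventuallyEq ?_ hev
  apply ContDiff.contDiffAt
  apply contDiff_single
  apply ContDiff.sub
  · apply ContDiff.mul
    · exact ddtheta_contDiff.comp (by fun_prop)
    · exact (profile_contDiff (h _)).comp contDiff_snd
  · apply contDiff_const.mul
    apply ContDiff.mul
    · exact dtheta_contDiff.comp (by fun_prop)
    · exact (profileLap_contDiff (h _)).comp contDiff_snd

theorem velocity_periodic (sh : ℕ → ShearData) (t : ℝ) : Periodic3 (velocity sh t) := by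
  intro x n
  unfold velocity
  rw [profile_periodic]

theorem force_periodic (ν : ℝ) (sh : ℕ → ShearData) (t : ℝ) : Periodic3 (force ν sh t) := by
  intro x n
  unfold force
  rw [profile_periodic, profileLap_periodic]

/-! ## The velocity is a classical solution -/

theorem hasDerivAt_single {d : Fin 3} {g : ℝ → ℝ} {g' : ℝ} {s : ℝ} (hg : HasDerivAt g g' s) :
    HasDerivAt (fun r => (Pi.single d (g r) : V3)) (Pi.single d g') s := by
  rw [hasDerivAt_pi]
  intro i
  by_cases hi : i = d
  · subst hi; simpa using hg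
  · have h1 : (fun r => (Pi.single d (g r) : V3) i) = fun _ => 0 := by
      funext z; simp [Pi.single_eq_of_ne hi]
    have h2 : (Pi.single d g' : V3) i = 0 := by simp [Pi.single_eq_of_ne hi]
    rw [h1, h2]; exact hasDerivAt_const _ _

theorem isClassicalSolution_velocity (ν : ℝ) {sh : ℕ → ShearData} (h : ∀ m, ShearOK (sh m))
    (T : ℝ) : IsClassicalSolution ν (force ν sh) T (velocity sh) (fun _ _ => 0) where
  periodic_u := fun t _ => velocity_periodic sh t
  periodic_p := fun t _ x n => rfl
  initial := by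
    intro x
    have h0 : deriv theta (0 - ((⌊(0 : ℝ)⌋₊ : ℕ) : ℝ)) = 0 := by
      apply slotFun_dtheta.1; simp
    unfold velocity
    rw [h0]; simp
  mean_zero := fun t _ => by simp
  cont_u := (velocity_contDiff h).continuous.continuousOn
  cont_p := continuousOn_const
  equations := by
    have hP : ∀ m, ContDiff ℝ ∞ (profile (sh m)) := fun m => profile_contDiff (h m)
    have hPd : ∀ m, Differentiable ℝ (profile (sh m)) := fun m => (hP m).differentiable (by simp)
    -- general continuity of slot fields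
    have hcont : ∀ (φ : ℝ → ℝ), SlotFun φ → Continuous φ → ∀ G : ℕ → V3 → ℝ,
        (∀ m, Continuous (G m)) →
        Continuous (fun z : ℝ × V3 => (Pi.single (sh ⌊z.1⌋₊).1
          (φ (z.1 - (⌊z.1⌋₊ : ℝ)) * G ⌊z.1⌋₊ z.2) : V3)) := by
      intro φ hφ hc G hG
      rw [continuous_iff_continuousAt]
      rintro ⟨t0, x0⟩
      have hev : (fun z : ℝ × V3 => (Pi.single (sh ⌊z.1⌋₊).1
          (φ (z.1 - (⌊z.1⌋₊ : ℝ)) * G ⌊z.1⌋₊ z.2) : V3)) =ᶠ[𝓝 (t0, x0)] fun z =>
          (Pi.single (sh ⌊t0⌋₊).1 (φ (z.1 - (⌊t0⌋₊ : ℝ)) * G ⌊t0⌋₊ z.2) : V3) := by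
        have h1 := slot_congr hφ
          (fun m r => fun x : V3 => (Pi.single (sh m).1 (r * G m x) : V3)) (z := fun _ => 0)
          (by intro m; funext x; simp) t0
        have := (continuous_fst.tendsto (t0, x0)).eventually h1
        filter_upwards [this] with z hz using congrFun hz z.2
      refine ContinuousAt.congr ?_ hev.symm
      apply Continuous.continuousAt
      have h2 : Continuous fun z : ℝ × V3 => φ (z.1 - (⌊t0⌋₊ : ℝ)) * G ⌊t0⌋₊ z.2 :=
        (hc.comp (by fun_prop)).mul ((hG _).comp continuous_snd)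
      exact (continuous_single (A := fun _ : Fin 3 => ℝ) (sh ⌊t0⌋₊).1).comp h2
    refine ⟨fun t x => Pi.single (sh ⌊t⌋₊).1
        (deriv (deriv theta) (t - (⌊t⌋₊ : ℝ)) * profile (sh ⌊t⌋₊) x),
      fun j t x => Pi.single (sh ⌊t⌋₊).1
        (deriv theta (t - (⌊t⌋₊ : ℝ)) * cd j (profile (sh ⌊t⌋₊)) x),
      fun j k t x => Pi.single (sh ⌊t⌋₊).1
        (deriv theta (t - (⌊t⌋₊ : ℝ)) * cd k (cd j (profile (sh ⌊t⌋₊))) x),
      fun _ _ _ => 0, ?_, ?_, ?_, ?_, ?_⟩
    · exact (hcont _ slotFun_ddtheta ddtheta_contDiff.continuous _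
        fun m => (hP m).continuous).continuousOn
    · intro j
      exact (hcont _ slotFun_dtheta dtheta_contDiff.continuous
        (fun m => cd j (profile (sh m))) fun m => (cd_contDiff (hP m) j).continuous).continuousOn
    · intro j k
      exact (hcont _ slotFun_dtheta dtheta_contDiff.continuous
        (fun m => cd k (cd j (profile (sh m))))
        fun m => (cd_contDiff (cd_contDiff (hP m) j) k).continuous).continuousOn
    · intro j; exact continuousOn_const
    · intro t _ x
      refine ⟨?_, ?_, ?_, ?_, ?_, ?_⟩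
      · apply HasDerivAt.hasDerivWithinAt
        have h1 : (fun s => velocity sh s x) =ᶠ[𝓝 t] fun s =>
            Pi.single (sh ⌊t⌋₊).1 (deriv theta (s - (⌊t⌋₊ : ℝ)) * profile (sh ⌊t⌋₊) x) := by
          filter_upwards [velocity_eventually sh t] with s hs using hs x
        refine HasDerivAt.congr_of_eventuallyEq ?_ h1
        apply hasDerivAt_single
        have h2 : HasDerivAt (deriv theta) (deriv (deriv theta) (t - (⌊t⌋₊ : ℝ)))
            (t - (⌊t⌋₊ : ℝ)) :=
          (dtheta_contDiff.differentiable (by simp) _).hasDerivAt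
        have h3 : HasDerivAt (fun s : ℝ => s - (⌊t⌋₊ : ℝ)) 1 t :=
          (hasDerivAt_id t).sub_const _
        have h4 := h2.comp t h3
        simp only [mul_one] at h4
        exact h4.mul_const _
      · intro j
        apply hasDerivAt_single
        exact (hasDerivAt_cd (hPd _) j x).const_mul _
      · intro j k
        apply hasDerivAt_single
        exact (hasDerivAt_cd ((cd_contDiff (hP _) j).differentiable (by simp)) k x).const_mul _
      · intro j
        exact hasDerivAt_const _ _
      · intro i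
        have hz : ∑ j, velocity sh t x j * (Pi.single (sh ⌊t⌋₊).1
            (deriv theta (t - (⌊t⌋₊ : ℝ)) * cd j (profile (sh ⌊t⌋₊)) x) : V3) i = 0 := by
          apply Finset.sum_eq_zero
          intro j _
          by_cases hj : j = (sh ⌊t⌋₊).1
          · have : cd j (profile (sh ⌊t⌋₊)) x = 0 := by
              rw [hj]; exact cd_of_indep (fun y s => profile_indep (h _) y s) x
            rw [this]; simp
          · have : velocity sh t x j = 0 := by
              unfold velocity; simp [Pi.single_eq_of_ne hj]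
            rw [this]; simp
        rw [hz]
        unfold force
        rw [profileLap_eq]
        by_cases hi : i = (sh ⌊t⌋₊).1
        · rw [hi]
          simp only [Pi.single_eq_same, Finset.mul_sum]
          ring
        · simp [Pi.single_eq_of_ne hi]
      · apply Finset.sum_eq_zero
        intro j _
        beta_reduce
        by_cases hj : j = (sh ⌊t⌋₊).1
        · have : cd j (profile (sh ⌊t⌋₊)) x = 0 := by
            rw [hj]; exact cd_of_indep (fun y s => profile_indep (h _) y s) x
          rw [this]; simp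
        · simp [Pi.single_eq_of_ne hj]

/-! ## Trajectories -/

/-- The displacement field of a shear. -/
noncomputable def shearField (sh : ShearData) (x : V3) : V3 := Pi.single sh.1 (profile sh x)

/-- Positions at integer times. -/
noncomputable def positions (sh : ℕ → ShearData) (a : V3) : ℕ → V3
  | 0 => a
  | m + 1 => positions sh a m + shearField (sh m) (positions sh a m)

/-- The particle path. -/
noncomputable def traj (sh : ℕ → ShearData) (a : V3) (t : ℝ) : V3 :=
  positions sh a ⌊t⌋₊ +
    theta (t - (⌊t⌋₊ : ℝ)) • shearField (sh ⌊t⌋₊) (positions sh a ⌊t⌋₊)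

theorem traj_eventually (sh : ℕ → ShearData) (a : V3) (t0 : ℝ) :
    ∀ᶠ t in 𝓝 t0, traj sh a t = positions sh a ⌊t0⌋₊ +
      theta (t - (⌊t0⌋₊ : ℝ)) • shearField (sh ⌊t0⌋₊) (positions sh a ⌊t0⌋₊) := by
  filter_upwards [slot_eventually t0] with t ht
  rcases ht with ht | ⟨h1, h2, h3⟩
  · unfold traj; rw [ht]
  · unfold traj
    rw [theta_eq_one h1.le, theta_eq_zero h2.le, ← h3]
    simp [positions]

theorem shearField_add_smul {sh : ShearData} (h : ShearOK sh) (x : V3) (r : ℝ) :
    profile sh (x + r • shearField sh x) = profile sh x := by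
  have : x + r • shearField sh x = Function.update x sh.1 (x sh.1 + r * profile sh x) := by
    funext i
    by_cases hi : i = sh.1
    · subst hi; simp [shearField]
    · simp [shearField, hi]
  rw [this]
  exact profile_indep h x _

theorem traj_isTrajectory {sh : ℕ → ShearData} (h : ∀ m, ShearOK (sh m)) (a : V3) :
    IsTrajectory (velocity sh) a (traj sh a) := by
  constructor
  · unfold traj
    have h0 : theta (0 - ((⌊(0 : ℝ)⌋₊ : ℕ) : ℝ)) = 0 := theta_eq_zero (by simp)
    rw [h0]
    simp [positions]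
  · intro t _
    apply HasDerivAt.hasDerivWithinAt
    refine HasDerivAt.congr_of_eventuallyEq ?_ (traj_eventually sh a t)
    have h2 : HasDerivAt theta (deriv theta (t - (⌊t⌋₊ : ℝ))) (t - (⌊t⌋₊ : ℝ)) :=
      (theta_contDiff.differentiable (by simp) _).hasDerivAt
    have h3 : HasDerivAt (fun s : ℝ => s - (⌊t⌋₊ : ℝ)) 1 t :=
      (hasDerivAt_id t).sub_const _
    have h4 := h2.comp t h3
    simp only [mul_one] at h4
    have h5 := (h4.smul_const (shearField (sh ⌊t⌋₊) (positions sh a ⌊t⌋₊))).const_add
      (positions sh a ⌊t⌋₊)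
    have h6 : velocity sh t (traj sh a t) =
        deriv theta (t - (⌊t⌋₊ : ℝ)) • shearField (sh ⌊t⌋₊) (positions sh a ⌊t⌋₊) := by
      unfold velocity
      have : profile (sh ⌊t⌋₊) (traj sh a t) = profile (sh ⌊t⌋₊) (positions sh a ⌊t⌋₊) :=
        shearField_add_smul (h _) _ _
      rw [this]
      funext i
      by_cases hi : i = (sh ⌊t⌋₊).1
      · subst hi; simp [shearField]
      · simp [shearField, hi]
    rw [h6]
    exact h5

theorem traj_nat (sh : ℕ → ShearData) (a : V3) (m : ℕ) : traj sh a m = positions sh a m := by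
  unfold traj
  rw [Nat.floor_natCast, sub_self, theta_eq_zero (by norm_num)]
  simp

/-- Trajectories of smooth velocity fields are unique. -/
theorem trajectory_unique {u : ℝ → V3 → V3} (hu : ContDiff ℝ ∞ (fun z : ℝ × V3 => u z.1 z.2))
    {a : V3} {X Y : ℝ → V3} (hX : IsTrajectory u a X) (hY : IsTrajectory u a Y) :
    ∀ t, 0 ≤ t → X t = Y t := by
  intro T hT
  have hXc : ContinuousOn X (Set.Icc 0 T) := fun t ht =>
    ((hX.2 t ht.1).continuousWithinAt).mono Set.Icc_subset_Ici_self
  have hYc : ContinuousOn Y (Set.Icc 0 T) := fun t ht =>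
    ((hY.2 t ht.1).continuousWithinAt).mono Set.Icc_subset_Ici_self
  obtain ⟨RX, hRX⟩ := (isCompact_Icc.image_of_continuousOn hXc).isBounded.subset_closedBall 0
  obtain ⟨RY, hRY⟩ := (isCompact_Icc.image_of_continuousOn hYc).isBounded.subset_closedBall 0
  set R := max RX RY
  have hK : ∃ K : NNReal, ∀ t ∈ Set.Icc 0 T, LipschitzOnWith K (u t) (Metric.closedBall 0 R) := by
    have hc : Continuous (fderiv ℝ (fun z : ℝ × V3 => u z.1 z.2)) :=
      hu.continuous_fderiv (by simp)
    have hcomp : IsCompact (Set.Icc 0 T ×ˢ Metric.closedBall (0 : V3) R) :=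
      isCompact_Icc.prod (isCompact_closedBall _ _)
    obtain ⟨C, hC⟩ := (hcomp.image hc).isBounded.exists_norm_le
    refine ⟨⟨max C 0, le_max_right _ _⟩, fun t ht => ?_⟩
    apply Convex.lipschitzOnWith_of_nnnorm_hasFDerivWithin_le
      (f' := fun x => (fderiv ℝ (fun z : ℝ × V3 => u z.1 z.2) (t, x)).comp
        (ContinuousLinearMap.inr ℝ ℝ V3)) ?_ ?_ (convex_closedBall _ _)
    · intro x hx
      have h1 : HasFDerivAt (fun z : ℝ × V3 => u z.1 z.2)
          (fderiv ℝ (fun z : ℝ × V3 => u z.1 z.2) (t, x)) (t, x) :=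
        (hu.differentiable (by simp) _).hasFDerivAt
      have h2 : HasFDerivAt (fun x : V3 => (t, x)) (ContinuousLinearMap.inr ℝ ℝ V3) x :=
        hasFDerivAt_prodMk_right t x
      exact (h1.comp x h2).hasFDerivWithinAt
    · intro x hx
      have h3 : ‖fderiv ℝ (fun z : ℝ × V3 => u z.1 z.2) (t, x)‖ ≤ C :=
        hC _ ⟨(t, x), ⟨ht, hx⟩, rfl⟩
      have h4 : ‖(fderiv ℝ (fun z : ℝ × V3 => u z.1 z.2) (t, x)).comp
          (ContinuousLinearMap.inr ℝ ℝ V3)‖ ≤ C := by
        refine (ContinuousLinearMap.opNorm_comp_le _ _).trans ?_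
        have h5 : ‖ContinuousLinearMap.inr ℝ ℝ V3‖ ≤ 1 :=
          ContinuousLinearMap.norm_inr_le_one ℝ ℝ V3
        calc _ ≤ C * 1 := by
              apply mul_le_mul h3 h5 (norm_nonneg _) (le_trans (norm_nonneg _) h3)
          _ = C := mul_one C
      exact_mod_cast h4.trans (le_max_left C 0)
  obtain ⟨K, hK⟩ := hK
  have := ODE_solution_unique_of_mem_Icc_right (v := u) (s := fun _ => Metric.closedBall 0 R)
    (K := K) (f := X) (g := Y) (a := 0) (b := T)
    (fun t ht => hK t ⟨ht.1, ht.2.le⟩) hXc
    (fun t ht => (hX.2 t ht.1).mono (Set.Ici_subset_Ici.2 ht.1))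
    (fun t ht => Metric.closedBall_subset_closedBall (le_max_left _ _)
      (hRX ⟨t, ⟨ht.1, ht.2.le⟩, rfl⟩))
    hYc
    (fun t ht => (hY.2 t ht.1).mono (Set.Ici_subset_Ici.2 ht.1))
    (fun t ht => Metric.closedBall_subset_closedBall (le_max_right _ _)
      (hRY ⟨t, ⟨ht.1, ht.2.le⟩, rfl⟩))
    (by rw [hX.1, hY.1])
  exact this ⟨hT, le_rfl⟩

end Vale.Agent.P113
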