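import Vale.Agent.Lib.P113.Flow

/-!
# Mixed derivatives of the force
-/

open scoped ContDiff Topology
open Filter

namespace Vale.Agent.P113

/-! ## One-variable lemmas -/

theorem contDiff_iteratedDeriv' {f : ℝ → ℝ} (hf : ContDiff ℝ ∞ f) (k : ℕ) :
    ContDiff ℝ ∞ (iteratedDeriv k f) := by
  induction k with
  | zero => simpa using hf
  | succ k ih =>
    rw [iteratedDeriv_succ]
    exact (contDiff_infty_iff_deriv.1 ih).2

theorem hasDerivAt_iteratedDeriv {f : ℝ → ℝ} (hf : ContDiff ℝ ∞ f) (k : ℕ) (s : ℝ) :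
    HasDerivAt (iteratedDeriv k f) (iteratedDeriv (k + 1) f s) s := by
  rw [iteratedDeriv_succ]
  exact ((contDiff_iteratedDeriv' hf k).differentiable (by simp) s).hasDerivAt

theorem iteratedDeriv_congr_nhds {f g : ℝ → ℝ} {s : ℝ} (h : f =ᶠ[𝓝 s] g) (k : ℕ) :
    iteratedDeriv k f s = iteratedDeriv k g s :=
  h.iteratedDeriv_eq k

/-- The function `r ↦ (c₀ + c₁ r) S((r - a)(N+1)) S((b - r)(N+1))`. -/
noncomputable def facFun (F : Fac) (r : ℝ) : ℝ :=
  (ratVal F.1 + ratVal F.2.1 * r) *
    Real.smoothTransition ((r - ratVal F.2.2.1) * ((F.2.2.2.2 : ℝ) + 1)) *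
    Real.smoothTransition ((ratVal F.2.2.2.1 - r) * ((F.2.2.2.2 : ℝ) + 1))

theorem facFun_contDiff (F : Fac) : ContDiff ℝ ∞ (facFun F) := by
  unfold facFun
  apply ContDiff.mul
  · apply ContDiff.mul
    · fun_prop
    · exact Real.smoothTransition.contDiff.comp (by fun_prop)
  · exact Real.smoothTransition.contDiff.comp (by fun_prop)

theorem facVal_eq (F : Fac) (s : ℝ) : facVal F s = facFun F (Int.fract s) := rfl

theorem facFun_zero_left {F : Fac} {r : ℝ} (h : r ≤ ratVal F.2.2.1) : facFun F r = 0 := by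
  have h0 : Real.smoothTransition ((r - ratVal F.2.2.1) * ((F.2.2.2.2 : ℝ) + 1)) = 0 := by
    apply Real.smoothTransition.zero_of_nonpos
    exact mul_nonpos_of_nonpos_of_nonneg (by linarith) (by positivity)
  unfold facFun
  rw [h0]; ring

theorem facFun_zero_right {F : Fac} {r : ℝ} (h : ratVal F.2.2.2.1 ≤ r) : facFun F r = 0 := by
  have h0 : Real.smoothTransition ((ratVal F.2.2.2.1 - r) * ((F.2.2.2.2 : ℝ) + 1)) = 0 := by
    apply Real.smoothTransition.zero_of_nonpos
    exact mul_nonpos_of_nonpos_of_nonneg (by linarith) (by positivity)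
  unfold facFun
  rw [h0]; ring

/-- Near a point `s`, the factor is the translate of `facFun` by the integer part. -/
theorem facVal_eventually {F : Fac} (h : FacOK F) (s : ℝ) :
    facVal F =ᶠ[𝓝 s] fun t => facFun F (t - (⌊s⌋ : ℝ)) := by
  obtain ⟨ha, hb⟩ := h
  by_cases hs : Int.fract s = 0
  · have hn : s = ⌊s⌋ := by
      have := Int.fract_add_floor s
      rw [hs, zero_add] at this
      exact this.symm
    set n := ⌊s⌋ with hndef
    set a := ratVal F.2.2.1 with hadef
    set b := ratVal F.2.2.2.1 with hbdef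
    have hmem : Set.Ioo (s - (1 - b)) (s + min a 1) ∈ 𝓝 s :=
      Ioo_mem_nhds (by linarith) (by have := lt_min ha one_pos; linarith)
    have hmem2 : Set.Ioo (s - 1) (s + 1) ∈ 𝓝 s := Ioo_mem_nhds (by linarith) (by linarith)
    filter_upwards [hmem, hmem2] with t ht ht2
    have hR : facFun F (t - (n : ℝ)) = 0 := by
      apply facFun_zero_left
      rw [← hn]
      have := ht.2
      have h5 := min_le_left a 1
      linarith
    rw [hR, facVal_eq]
    rcases le_or_gt s t with hst | hst
    · have hfl : ⌊t⌋ = n := by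
        rw [Int.floor_eq_iff]
        constructor
        · rw [← hn]; exact hst
        · rw [← hn]; exact ht2.2
      have hfr : Int.fract t = t - n := by
        rw [Int.fract, hfl]
      rw [hfr, hR]
    · have hfl : ⌊t⌋ = n - 1 := by
        rw [Int.floor_eq_iff]
        push_cast
        constructor
        · rw [← hn]; exact ht2.1.le
        · rw [← hn]; linarith
      have hfr : Int.fract t = t - s + 1 := by
        rw [Int.fract, hfl]; push_cast; rw [← hn]; ring
      apply facFun_zero_right
      rw [hfr]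
      have := ht.1
      linarith
  · have hs' : 0 < Int.fract s := lt_of_le_of_ne (Int.fract_nonneg s) (Ne.symm hs)
    have h1 : (⌊s⌋ : ℝ) < s := by
      have := Int.fract_add_floor s
      linarith
    have h2 : s < ⌊s⌋ + 1 := Int.lt_floor_add_one s
    filter_upwards [Ioo_mem_nhds h1 h2] with t ht
    have hfl : ⌊t⌋ = ⌊s⌋ := by
      rw [Int.floor_eq_iff]; exact ⟨ht.1.le, ht.2⟩
    have hfr : Int.fract t = t - ⌊s⌋ := by rw [Int.fract, hfl]
    rw [facVal_eq, hfr]

theorem iteratedDeriv_facVal {F : Fac} (h : FacOK F) (k : ℕ) (s : ℝ) :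
    iteratedDeriv k (facVal F) s = iteratedDeriv k (facFun F) (Int.fract s) := by
  rw [iteratedDeriv_congr_nhds (facVal_eventually h s) k]
  have := iteratedDeriv_comp_sub_const k (facFun F) (⌊s⌋ : ℝ)
  exact congrFun this s

/-- The `k`-th derivative of an optional factor, in terms of data. -/
noncomputable def optFacD (F : Option Fac) (k : ℕ) (s : ℝ) : ℝ :=
  F.elim (if k = 0 then 1 else 0) fun G => iteratedDeriv k (facFun G) (Int.fract s)

theorem iteratedDeriv_optFac {F : Option Fac} (h : OptFacOK F) (k : ℕ) (s : ℝ) :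
    iteratedDeriv k (optFac F) s = optFacD F k s := by
  cases F with
  | none =>
    have : optFac none = fun _ => (1 : ℝ) := by funext s; rfl
    rw [this, iteratedDeriv_const]
    simp [optFacD]
  | some F =>
    have : optFac (some F) = facVal F := by funext s; rfl
    rw [this, iteratedDeriv_facVal h]
    rfl

/-! ## Separable sums -/

/-- A summand: a coefficient and one function for each of the four variables. -/
abbrev Sep := ℝ × (Fin 4 → ℝ → ℝ)

noncomputable def sepVal (L : List Sep) (y : Fin 4 → ℝ) : ℝ :=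
  (L.map fun p => p.1 * ∏ j, p.2 j (y j)).sum

/-- The mixed derivative of a separable sum. -/
noncomputable def sepD (l : List (Fin 4)) (L : List Sep) : List Sep :=
  L.map fun p => (p.1, fun j => iteratedDeriv (l.count j) (p.2 j))

theorem pderiv_congr {g h : (Fin 4 → ℝ) → ℝ} {y : Fin 4 → ℝ} (e : g =ᶠ[𝓝 y] h) (j : Fin 4) :
    pderiv j g =ᶠ[𝓝 y] pderiv j h := by
  filter_upwards [e.eventually_nhds] with z hz
  unfold pderiv
  apply Filter.EventuallyEq.deriv_eq
  have hc : Tendsto (fun s => Function.update z j s) (𝓝 (z j)) (𝓝 z) := by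
    have : Continuous fun s : ℝ => Function.update z j s := continuous_const.update j continuous_id
    have h2 := this.tendsto (z j)
    simpa using h2
  exact hc.eventually hz

theorem mixedDeriv_congr {g h : (Fin 4 → ℝ) → ℝ} {y : Fin 4 → ℝ} (e : g =ᶠ[𝓝 y] h)
    (l : List (Fin 4)) : mixedDeriv l g =ᶠ[𝓝 y] mixedDeriv l h := by
  induction l with
  | nil => exact e
  | cons j l ih => exact pderiv_congr ih j

theorem prod_update (h : Fin 4 → ℝ → ℝ) (y : Fin 4 → ℝ) (j : Fin 4) (s : ℝ) :
    ∏ i, h i (Function.update y j s i) = h j s * ∏ i ∈ Finset.univ.erase j, h i (y i) := by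
  rw [← Finset.mul_prod_erase Finset.univ _ (Finset.mem_univ j)]
  congr 1
  · simp
  · apply Finset.prod_congr rfl
    intro i hi
    rw [Function.update_of_ne (Finset.ne_of_mem_erase hi)]

theorem hasDerivAt_sep (L : List Sep) (hL : ∀ p ∈ L, ∀ j, ContDiff ℝ ∞ (p.2 j))
    (l : List (Fin 4)) (j : Fin 4) (y : Fin 4 → ℝ) :
    HasDerivAt (fun s => sepVal (sepD l L) (Function.update y j s))
      (sepVal (sepD (j :: l) L) y) (y j) := by
  induction L with
  | nil => simpa [sepVal, sepD] using hasDerivAt_const (y j) (0 : ℝ)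
  | cons p L ih =>
    have e1 : (fun s => sepVal (sepD l (p :: L)) (Function.update y j s)) = fun s =>
        p.1 * ∏ i, iteratedDeriv (l.count i) (p.2 i) (Function.update y j s i) +
          sepVal (sepD l L) (Function.update y j s) := by
      funext s; simp [sepVal, sepD]
    have e2 : sepVal (sepD (j :: l) (p :: L)) y =
        p.1 * ∏ i, iteratedDeriv ((j :: l).count i) (p.2 i) (y i) +
          sepVal (sepD (j :: l) L) y := by
      simp [sepVal, sepD]
    rw [e1, e2]
    refine HasDerivAt.add ?_ (ih fun q hq => hL q (List.mem_cons_of_mem _ hq))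
    apply HasDerivAt.const_mul
    have e3 : (fun s => ∏ i, iteratedDeriv (l.count i) (p.2 i) (Function.update y j s i)) =
        fun s => iteratedDeriv (l.count j) (p.2 j) s *
          ∏ i ∈ Finset.univ.erase j, iteratedDeriv (l.count i) (p.2 i) (y i) := by
      funext s
      exact prod_update (fun i => iteratedDeriv (l.count i) (p.2 i)) y j s
    have e4 : ∏ i, iteratedDeriv ((j :: l).count i) (p.2 i) (y i) =
        iteratedDeriv (l.count j + 1) (p.2 j) (y j) *
          ∏ i ∈ Finset.univ.erase j, iteratedDeriv (l.count i) (p.2 i) (y i) := by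
      rw [← Finset.mul_prod_erase Finset.univ _ (Finset.mem_univ j)]
      congr 1
      · simp
      · apply Finset.prod_congr rfl
        intro i hi
        rw [List.count_cons_of_ne (Finset.ne_of_mem_erase hi).symm]
    rw [e3, e4]
    exact (hasDerivAt_iteratedDeriv (hL p (by simp) j) _ _).mul_const _

theorem mixedDeriv_sep (L : List Sep) (hL : ∀ p ∈ L, ∀ j, ContDiff ℝ ∞ (p.2 j))
    (l : List (Fin 4)) : mixedDeriv l (sepVal L) = sepVal (sepD l L) := by
  induction l with
  | nil =>
    have : sepD [] L = L := by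
      simp [sepD]
    rw [this]; rfl
  | cons j l ih =>
    have : mixedDeriv (j :: l) (sepVal L) = pderiv j (mixedDeriv l (sepVal L)) := rfl
    rw [this, ih]
    funext y
    exact (hasDerivAt_sep L hL l j y).deriv

/-! ## The Laplacian of a profile -/

/-- All factors of all terms are OK. -/
def TermsOK (L : List Term) : Prop :=
  ∀ T ∈ L, OptFacOK T.2.1 ∧ OptFacOK T.2.2.1 ∧ OptFacOK T.2.2.2

theorem ShearOK.termsOK {sh : ShearData} (h : ShearOK sh) : TermsOK sh.2 := fun T hT =>
  ⟨(h T hT).1, (h T hT).2.1, (h T hT).2.2.1⟩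

/-- Derivatives of a term. -/
noncomputable def termD (T : Term) (k₀ k₁ k₂ : ℕ) (x : V3) : ℝ :=
  ratVal T.1 * (iteratedDeriv k₀ (optFac T.2.1) (x 0) * iteratedDeriv k₁ (optFac T.2.2.1) (x 1) *
    iteratedDeriv k₂ (optFac T.2.2.2) (x 2))

theorem term_second_deriv (T : Term) (x : V3) (j : Fin 3) :
    iteratedDeriv 2 (fun s => termVal T (Function.update x j s)) (x j) =
      termD T (if j = 0 then 2 else 0) (if j = 1 then 2 else 0) (if j = 2 then 2 else 0) x := by
  fin_cases j
  · simp only [Fin.zero_eta]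
    have e : (fun s => termVal T (Function.update x 0 s)) = fun s =>
        (ratVal T.1 * (optFac T.2.2.1 (x 1) * optFac T.2.2.2 (x 2))) * optFac T.2.1 s := by
      funext s
      simp [termVal]
      ring
    rw [e, iteratedDeriv_const_mul_field]
    simp [termD]
    ring
  · simp only [Fin.mk_one]
    have e : (fun s => termVal T (Function.update x 1 s)) = fun s =>
        (ratVal T.1 * (optFac T.2.1 (x 0) * optFac T.2.2.2 (x 2))) * optFac T.2.2.1 s := by
      funext s
      simp [termVal]
      ring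
    rw [e, iteratedDeriv_const_mul_field]
    simp [termD]
    ring
  · simp only [Fin.reduceFinMk]
    have e : (fun s => termVal T (Function.update x 2 s)) = fun s =>
        (ratVal T.1 * (optFac T.2.1 (x 0) * optFac T.2.2.1 (x 1))) * optFac T.2.2.2 s := by
      funext s
      simp [termVal]
      ring
    rw [e, iteratedDeriv_const_mul_field]
    simp [termD]
    ring

theorem contDiff_update_line {g : V3 → ℝ} (hg : ContDiff ℝ ∞ g) (x : V3) (j : Fin 3) :
    ContDiff ℝ ∞ (fun s => g (Function.update x j s)) :=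
  hg.comp (contDiff_update ∞ x j)

theorem profile_second_deriv (d : Fin 3) (L : List Term) (hL : TermsOK L) (x : V3) (j : Fin 3) :
    iteratedDeriv 2 (fun s => profile (d, L) (Function.update x j s)) (x j) =
      (L.map fun T => termD T (if j = 0 then 2 else 0) (if j = 1 then 2 else 0)
        (if j = 2 then 2 else 0) x).sum ∧
    ContDiff ℝ ∞ (profile (d, L)) := by
  induction L with
  | nil =>
    have e : profile (d, ([] : List Term)) = fun _ => 0 := by funext y; exact profile_nil d y
    rw [e]
    refine ⟨?_, contDiff_const⟩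
    simp
  | cons T L ih =>
    obtain ⟨ih1, ih2⟩ := ih fun T' hT' => hL T' (List.mem_cons_of_mem _ hT')
    have hT : ContDiff ℝ ∞ (termVal T) := termVal_contDiff (hL T (by simp))
    have e : profile (d, T :: L) = fun y => termVal T y + profile (d, L) y := by
      funext y; exact profile_cons d T L y
    refine ⟨?_, ?_⟩
    · rw [List.map_cons, List.sum_cons, ← ih1, ← term_second_deriv]
      have e2 : (fun s => profile (d, T :: L) (Function.update x j s)) =
          (fun s => termVal T (Function.update x j s)) +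
            fun s => profile (d, L) (Function.update x j s) := by
        funext s; rw [e]; rfl
      rw [e2]
      apply iteratedDeriv_add
      · exact (contDiff_infty.1 (contDiff_update_line hT x j) 2).contDiffAt
      · exact (contDiff_infty.1 (contDiff_update_line ih2 x j) 2).contDiffAt
    · rw [e]; exact hT.add ih2

theorem profileLap_terms (d : Fin 3) (L : List Term) (hL : TermsOK L) (x : V3) :
    profileLap (d, L) x =
      (L.map fun T => termD T 2 0 0 x + termD T 0 2 0 x + termD T 0 0 2 x).sum := by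
  unfold profileLap
  rw [Fin.sum_univ_three, (profile_second_deriv d L hL x 0).1, (profile_second_deriv d L hL x 1).1,
    (profile_second_deriv d L hL x 2).1]
  rw [← List.sum_map_add, ← List.sum_map_add]
  simp

/-! ## The force as a separable sum -/

/-- The four separable summands of the force which come from one term. -/
noncomputable def termSep (ν : ℝ) (m : ℕ) (T : Term) : List Sep :=
  [(ratVal T.1, ![fun t => iteratedDeriv 2 theta (t - m), optFac T.2.1, optFac T.2.2.1,
      optFac T.2.2.2]),
    (-(ν * ratVal T.1), ![fun t => iteratedDeriv 1 theta (t - m),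
      iteratedDeriv 2 (optFac T.2.1), optFac T.2.2.1, optFac T.2.2.2]),
    (-(ν * ratVal T.1), ![fun t => iteratedDeriv 1 theta (t - m),
      optFac T.2.1, iteratedDeriv 2 (optFac T.2.2.1), optFac T.2.2.2]),
    (-(ν * ratVal T.1), ![fun t => iteratedDeriv 1 theta (t - m),
      optFac T.2.1, optFac T.2.2.1, iteratedDeriv 2 (optFac T.2.2.2)])]

noncomputable def forceSep (ν : ℝ) (m : ℕ) (L : List Term) : List Sep := L.flatMap (termSep ν m)

theorem sepVal_append (L L' : List Sep) (y : Fin 4 → ℝ) :
    sepVal (L ++ L') y = sepVal L y + sepVal L' y := by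
  simp [sepVal]

theorem sepVal_forceSep (ν : ℝ) (m : ℕ) (d : Fin 3) (L : List Term) (hL : TermsOK L)
    (y : Fin 4 → ℝ) :
    sepVal (forceSep ν m L) y =
      deriv (deriv theta) (y 0 - (m : ℝ)) * profile (d, L) (fun i => y i.succ)
        - ν * (deriv theta (y 0 - (m : ℝ)) * profileLap (d, L) (fun i => y i.succ)) := by
  rw [profileLap_terms d L hL]
  induction L with
  | nil => simp [forceSep, sepVal, profile_nil]
  | cons T L ih =>
    have e : forceSep ν m (T :: L) = termSep ν m T ++ forceSep ν m L := by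
      simp [forceSep]
    rw [e, sepVal_append, ih fun T' hT' => hL T' (List.mem_cons_of_mem _ hT'), profile_cons,
      List.map_cons, List.sum_cons]
    have e2 : sepVal (termSep ν m T) y =
        deriv (deriv theta) (y 0 - (m : ℝ)) * termVal T (fun i => y i.succ) -
          ν * (deriv theta (y 0 - (m : ℝ)) * (termD T 2 0 0 (fun i => y i.succ) +
            termD T 0 2 0 (fun i => y i.succ) + termD T 0 0 2 (fun i => y i.succ))) := by
      have h2 : iteratedDeriv 2 theta = deriv (deriv theta) := by
        rw [iteratedDeriv_succ, iteratedDeriv_one]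
      simp [sepVal, termSep, termVal, termD, Fin.prod_univ_four, h2, iteratedDeriv_one]
      ring
    rw [e2]
    ring

theorem forceSep_contDiff (ν : ℝ) (m : ℕ) (L : List Term) (hL : TermsOK L) :
    ∀ p ∈ forceSep ν m L, ∀ j, ContDiff ℝ ∞ (p.2 j) := by
  intro p hp j
  obtain ⟨T, hT, hp⟩ := List.mem_flatMap.1 hp
  have h1 := contDiff_optFac (hL T hT).1
  have h2 := contDiff_optFac (hL T hT).2.1
  have h3 := contDiff_optFac (hL T hT).2.2
  have h1' := contDiff_iteratedDeriv' h1 2
  have h2' := contDiff_iteratedDeriv' h2 2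
  have h3' := contDiff_iteratedDeriv' h3 2
  have t1 : ContDiff ℝ ∞ fun t : ℝ => iteratedDeriv 1 theta (t - m) :=
    (contDiff_iteratedDeriv' theta_contDiff 1).comp (by fun_prop)
  have t2 : ContDiff ℝ ∞ fun t : ℝ => iteratedDeriv 2 theta (t - m) :=
    (contDiff_iteratedDeriv' theta_contDiff 2).comp (by fun_prop)
  simp only [termSep, List.mem_cons, List.not_mem_nil, or_false] at hp
  rcases hp with rfl | rfl | rfl | rfl <;> fin_cases j <;> assumption

/-- Near a point, the component of the force is a separable sum, or zero. -/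
theorem component_force_eventually (ν : ℝ) (sh : ℕ → ShearData) (hOK : ∀ m, ShearOK (sh m))
    (i : Fin 3) (y : Fin 4 → ℝ) :
    component (force ν sh) i =ᶠ[𝓝 y]
      if i = (sh ⌊y 0⌋₊).1 then sepVal (forceSep ν ⌊y 0⌋₊ (sh ⌊y 0⌋₊).2) else sepVal [] := by
  have hc : Tendsto (fun z : Fin 4 → ℝ => z 0) (𝓝 y) (𝓝 (y 0)) := (continuous_apply 0).tendsto y
  filter_upwards [hc.eventually (force_eventually ν sh (y 0))] with z hz
  unfold component
  rw [hz]
  by_cases hi : i = (sh ⌊y 0⌋₊).1
  · rw [if_pos hi, sepVal_forceSep ν _ (sh ⌊y 0⌋₊).1 _ (hOK _).termsOK, hi, Pi.single_eq_same]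
  · rw [if_neg hi, Pi.single_eq_of_ne hi]
    simp [sepVal]

theorem mixedDeriv_force (ν : ℝ) (sh : ℕ → ShearData) (hOK : ∀ m, ShearOK (sh m))
    (l : List (Fin 4)) (i : Fin 3) (y : Fin 4 → ℝ) :
    mixedDeriv l (component (force ν sh) i) y =
      if i = (sh ⌊y 0⌋₊).1 then sepVal (sepD l (forceSep ν ⌊y 0⌋₊ (sh ⌊y 0⌋₊).2)) y else 0 := by
  rw [(mixedDeriv_congr (component_force_eventually ν sh hOK i y) l).eq_of_nhds]
  by_cases hi : i = (sh ⌊y 0⌋₊).1
  · rw [if_pos hi, if_pos hi, mixedDeriv_sep _ (forceSep_contDiff ν _ _ (hOK _).termsOK)]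
  · rw [if_neg hi, if_neg hi, mixedDeriv_sep [] (by simp)]
    simp [sepVal, sepD]

/-- The mixed derivative of the summands coming from one term, in terms of data. -/
noncomputable def termMixed (ν : ℝ) (T : Term) (k₀ k₁ k₂ k₃ : ℕ) (t s₁ s₂ s₃ : ℝ) : ℝ :=
  ratVal T.1 * (iteratedDeriv (k₀ + 2) theta t *
      (optFacD T.2.1 k₁ s₁ * optFacD T.2.2.1 k₂ s₂ * optFacD T.2.2.2 k₃ s₃)) +
    (-(ν * ratVal T.1)) * (iteratedDeriv (k₀ + 1) theta t *
      (optFacD T.2.1 (k₁ + 2) s₁ * optFacD T.2.2.1 k₂ s₂ * optFacD T.2.2.2 k₃ s₃ +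
      optFacD T.2.1 k₁ s₁ * optFacD T.2.2.1 (k₂ + 2) s₂ * optFacD T.2.2.2 k₃ s₃ +
      optFacD T.2.1 k₁ s₁ * optFacD T.2.2.1 k₂ s₂ * optFacD T.2.2.2 (k₃ + 2) s₃))

theorem iteratedDeriv_iteratedDeriv (f : ℝ → ℝ) (k n : ℕ) :
    iteratedDeriv k (iteratedDeriv n f) = iteratedDeriv (k + n) f := by
  simp only [iteratedDeriv_eq_iterate, Function.iterate_add_apply]

theorem sepVal_sepD_termSep (ν : ℝ) (m : ℕ) (T : Term)
    (hT : OptFacOK T.2.1 ∧ OptFacOK T.2.2.1 ∧ OptFacOK T.2.2.2) (l : List (Fin 4))
    (y : Fin 4 → ℝ) :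
    sepVal (sepD l (termSep ν m T)) y = termMixed ν T (l.count 0) (l.count 1) (l.count 2)
      (l.count 3) (y 0 - m) (y 1) (y 2) (y 3) := by
  have ht : ∀ n k : ℕ, iteratedDeriv k (fun t => iteratedDeriv n theta (t - (m : ℝ))) (y 0) =
      iteratedDeriv (k + n) theta (y 0 - m) := by
    intro n k
    have := congrFun (iteratedDeriv_comp_sub_const k (iteratedDeriv n theta) (m : ℝ)) (y 0)
    rw [this, iteratedDeriv_iteratedDeriv]
  simp only [sepVal, sepD, termSep, List.map_cons, List.map_nil, List.sum_cons, List.sum_nil,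
    Fin.prod_univ_four, Matrix.cons_val_zero, Matrix.cons_val_one, Matrix.cons_val, ht,
    iteratedDeriv_iteratedDeriv, iteratedDeriv_optFac hT.1, iteratedDeriv_optFac hT.2.1,
    iteratedDeriv_optFac hT.2.2, termMixed]
  ring

theorem sepVal_sepD_forceSep (ν : ℝ) (m : ℕ) (L : List Term) (hL : TermsOK L)
    (l : List (Fin 4)) (y : Fin 4 → ℝ) :
    sepVal (sepD l (forceSep ν m L)) y = (L.map fun T => termMixed ν T (l.count 0) (l.count 1)
      (l.count 2) (l.count 3) (y 0 - m) (y 1) (y 2) (y 3)).sum := by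
  induction L with
  | nil => simp [forceSep, sepVal, sepD]
  | cons T L ih =>
    have e : sepD l (forceSep ν m (T :: L)) =
        sepD l (termSep ν m T) ++ sepD l (forceSep ν m L) := by
      simp [forceSep, sepD]
    rw [e, sepVal_append, ih fun T' hT' => hL T' (List.mem_cons_of_mem _ hT'),
      sepVal_sepD_termSep ν m T (hL T (by simp)), List.map_cons, List.sum_cons]

theorem mixedDeriv_force_eq (ν : ℝ) (sh : ℕ → ShearData) (hOK : ∀ m, ShearOK (sh m))
    (l : List (Fin 4)) (i : Fin 3) (y : Fin 4 → ℝ) :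
    mixedDeriv l (component (force ν sh) i) y =
      if i = (sh ⌊y 0⌋₊).1 then ((sh ⌊y 0⌋₊).2.map fun T => termMixed ν T (l.count 0) (l.count 1)
        (l.count 2) (l.count 3) (y 0 - ⌊y 0⌋₊) (y 1) (y 2) (y 3)).sum else 0 := by
  rw [mixedDeriv_force ν sh hOK, sepVal_sepD_forceSep ν _ _ (hOK _).termsOK]

end Vale.Agent.P113
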