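import Vale.Agent.Lib.P113.ForceAn
import Vale.Agent.Lib.P113.CrealBasic

/-!
# Computability of the mixed derivatives of the force
-/

open scoped ContDiff Topology
open Filter

namespace Vale.Agent.P113

variable {α β : Type*} [Primcodable α] [Primcodable β]

/-! ## Computable smooth families of one variable -/

/-- A computable family of smooth functions of one variable: the values of all derivatives at
rational points form a computable family of reals. -/
def CSm (f : α → ℝ → ℝ) : Prop :=
  (∀ a, ContDiff ℝ ∞ (f a)) ∧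
    CReal (fun z : α × ℕ × RatCode => iteratedDeriv z.2.1 (f z.1) (ratVal z.2.2))

theorem CSm.eval {f : α → ℝ → ℝ} (hf : CSm f) {h : β → α} (hh : Computable h) {n : β → ℕ}
    (hn : Computable n) {r : β → ℝ} (hr : CRat r) :
    CReal fun b => iteratedDeriv (n b) (f (h b)) (r b) := by
  obtain ⟨g, hg, hgr⟩ := hr
  have := hf.2.comp (h := fun b => (h b, n b, g b)) (hh.pair (hn.pair hg))
  exact this.of_eq fun b => by rw [hgr b]

theorem CSm.of_eq {f g : α → ℝ → ℝ} (hf : CSm f) (h : ∀ a s, f a s = g a s) : CSm g := by
  have : f = g := by funext a s; exact h a s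
  rwa [← this]

theorem computable_choose {n k : α → ℕ} (hn : Computable n) (hk : Computable k) :
    Computable fun a => (n a).choose (k a) := by
  have h1 : Computable fun a => if decide (k a ≤ n a) = true then
      Nat.factorial (n a) / (Nat.factorial (k a) * Nat.factorial (n a - k a)) else 0 :=
    computable_ite (computable_decide_le hk hn)
      (computable_nat_div (computable_nat_factorial hn)
        (computable_nat_mul (computable_nat_factorial hk)
          (computable_nat_factorial (computable_nat_sub hn hk))))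
      (Computable.const 0)
  refine h1.of_eq fun a => ?_
  by_cases h : k a ≤ n a
  · simp [h, Nat.choose_eq_factorial_div_factorial h]
  · simp [h, Nat.choose_eq_zero_of_lt (not_le.1 h)]

theorem CSm.mul {f g : α → ℝ → ℝ} (hf : CSm f) (hg : CSm g) : CSm fun a s => f a s * g a s := by
  refine ⟨fun a => (hf.1 a).mul (hg.1 a), ?_⟩
  have hpt : ∀ z : α × ℕ × RatCode,
      ∑ i ∈ Finset.range (z.2.1 + 1), (((z.2.1.choose i : ℕ) : ℝ) *
        iteratedDeriv i (f z.1) (ratVal z.2.2) *
        iteratedDeriv (z.2.1 - i) (g z.1) (ratVal z.2.2)) =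
      iteratedDeriv z.2.1 (fun s => f z.1 s * g z.1 s) (ratVal z.2.2) := by
    intro z
    have := iteratedDeriv_mul (n := z.2.1) (x := ratVal z.2.2)
      (contDiff_infty.1 (hf.1 z.1) z.2.1).contDiffAt (contDiff_infty.1 (hg.1 z.1) z.2.1).contDiffAt
    exact this.symm
  refine CReal.of_eq ?_ hpt
  have c1 : Computable fun w : (α × ℕ × RatCode) × ℕ => w.1.1 :=
    Computable.fst.comp Computable.fst
  have c2 : Computable fun w : (α × ℕ × RatCode) × ℕ => w.1.2.1 :=
    Computable.fst.comp (Computable.snd.comp Computable.fst)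
  have c3 : Computable fun w : (α × ℕ × RatCode) × ℕ => w.1.2.2 :=
    Computable.snd.comp (Computable.snd.comp Computable.fst)
  have c4 : Computable fun w : (α × ℕ × RatCode) × ℕ => w.2 := Computable.snd
  apply CReal.sum_range (n := fun z : α × ℕ × RatCode => z.2.1 + 1)
    (f := fun w : (α × ℕ × RatCode) × ℕ => ((w.1.2.1.choose w.2 : ℕ) : ℝ) *
        iteratedDeriv w.2 (f w.1.1) (ratVal w.1.2.2) *
        iteratedDeriv (w.1.2.1 - w.2) (g w.1.1) (ratVal w.1.2.2))
  · exact computable_nat_succ (Computable.fst.comp Computable.snd)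
  · refine CReal.mul (CReal.mul (creal_natCast (computable_choose c2 c4)) ?_) ?_
    · exact hf.eval c1 c4 (crat_ratVal c3)
    · exact hg.eval c1 (computable_nat_sub c2 c4) (crat_ratVal c3)

theorem iteratedDeriv_affine (c d : ℝ) (k : ℕ) (s : ℝ) :
    iteratedDeriv k (fun s => c + d * s) s = if k = 0 then c + d * s else if k = 1 then d else 0 := by
  rcases k with _ | _ | k
  · simp
  · simp only [zero_add, iteratedDeriv_one]
    have : HasDerivAt (fun s : ℝ => c + d * s) d s := by
      simpa using ((hasDerivAt_id s).const_mul d).const_add c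
    rw [this.deriv]
    simp
  · rw [iteratedDeriv_succ', iteratedDeriv_succ']
    have e1 : deriv (fun s : ℝ => c + d * s) = fun _ => d := by
      funext s
      have : HasDerivAt (fun s : ℝ => c + d * s) d s := by
        simpa using ((hasDerivAt_id s).const_mul d).const_add c
      exact this.deriv
    have e2 : deriv (fun _ : ℝ => d) = fun _ => 0 := by
      funext s; simp
    rw [e1, e2]
    simp

theorem CSm.affine {c d : α → ℝ} (hc : CRat c) (hd : CRat d) : CSm fun a s => c a + d a * s := by
  refine ⟨fun a => by fun_prop, ?_⟩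
  refine CReal.of_eq ?_ fun z => (iteratedDeriv_affine (c z.1) (d z.1) z.2.1 (ratVal z.2.2)).symm
  have hk : Computable fun z : α × ℕ × RatCode => z.2.1 := Computable.fst.comp Computable.snd
  have hr : Computable fun z : α × ℕ × RatCode => z.2.2 := Computable.snd.comp Computable.snd
  have hc' : CRat fun z : α × ℕ × RatCode => c z.1 := hc.comp Computable.fst
  have hd' : CRat fun z : α × ℕ × RatCode => d z.1 := hd.comp Computable.fst
  refine CReal.ite_prop (computable_decide_eq hk (Computable.const 0)) ?_ ?_
  · exact (hc'.add (hd'.mul (crat_ratVal hr))).creal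
  · exact CReal.ite_prop (computable_decide_eq hk (Computable.const 1)) hd'.creal creal_zero

theorem CSm.comp_affine {f : α → ℝ → ℝ} (hf : CSm f) {p q : α → ℝ} (hp : CRat p) (hq : CRat q) :
    CSm fun a s => f a (p a * s + q a) := by
  refine ⟨fun a => (hf.1 a).comp (by fun_prop), ?_⟩
  have hpt : ∀ z : α × ℕ × RatCode,
      (p z.1) ^ z.2.1 * iteratedDeriv z.2.1 (f z.1) (p z.1 * ratVal z.2.2 + q z.1) =
      iteratedDeriv z.2.1 (fun s => f z.1 (p z.1 * s + q z.1)) (ratVal z.2.2) := by
    intro z
    have h1 : ContDiff ℝ z.2.1 (fun s => f z.1 (s + q z.1)) :=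
      (contDiff_infty.1 (hf.1 z.1) z.2.1).comp (by fun_prop)
    have h2 := iteratedDeriv_comp_const_mul h1 (p z.1)
    have h3 := congrFun h2 (ratVal z.2.2)
    rw [iteratedDeriv_comp_add_const] at h3
    exact h3.symm
  refine CReal.of_eq ?_ hpt
  have hk : Computable fun z : α × ℕ × RatCode => z.2.1 := Computable.fst.comp Computable.snd
  have hr : Computable fun z : α × ℕ × RatCode => z.2.2 := Computable.snd.comp Computable.snd
  have hp' : CRat fun z : α × ℕ × RatCode => p z.1 := hp.comp Computable.fst
  have hq' : CRat fun z : α × ℕ × RatCode => q z.1 := hq.comp Computable.fst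
  exact (hp'.pow hk).creal.mul
    (hf.eval Computable.fst hk ((hp'.mul (crat_ratVal hr)).add hq'))

/-- The transition function as a constant computable family. -/
def TransitionComp : Prop :=
  CReal (fun p : ℕ × RatCode => iteratedDeriv p.1 Real.smoothTransition (ratVal p.2))

theorem TransitionComp.csm (hS : TransitionComp) :
    CSm fun (_ : α) s => Real.smoothTransition s :=
  ⟨fun _ => Real.smoothTransition.contDiff, CReal.comp hS Computable.snd⟩

theorem csm_facFun (hS : TransitionComp) : CSm facFun := by
  have hN : CRat fun F : Fac => ((F.2.2.2.2 : ℝ) + 1) :=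
    (crat_natCast (Computable.snd.comp (Computable.snd.comp
      (Computable.snd.comp Computable.snd)))).add crat_one
  have hc0 : CRat fun F : Fac => ratVal F.1 := crat_ratVal Computable.fst
  have hc1 : CRat fun F : Fac => ratVal F.2.1 := crat_ratVal (Computable.fst.comp Computable.snd)
  have ha : CRat fun F : Fac => ratVal F.2.2.1 :=
    crat_ratVal (Computable.fst.comp (Computable.snd.comp Computable.snd))
  have hb : CRat fun F : Fac => ratVal F.2.2.2.1 :=
    crat_ratVal (Computable.fst.comp (Computable.snd.comp (Computable.snd.comp Computable.snd)))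
  have h1 : CSm fun (F : Fac) s => ratVal F.1 + ratVal F.2.1 * s := CSm.affine hc0 hc1
  have h2 : CSm fun (F : Fac) s => Real.smoothTransition
      (((F.2.2.2.2 : ℝ) + 1) * s + -(ratVal F.2.2.1 * ((F.2.2.2.2 : ℝ) + 1))) :=
    hS.csm.comp_affine hN (ha.mul hN).neg
  have h3 : CSm fun (F : Fac) s => Real.smoothTransition
      (-((F.2.2.2.2 : ℝ) + 1) * s + ratVal F.2.2.2.1 * ((F.2.2.2.2 : ℝ) + 1)) :=
    hS.csm.comp_affine hN.neg (hb.mul hN)
  refine ((h1.mul h2).mul h3).of_eq fun F s => ?_
  unfold facFun
  congr 1
  · congr 2; ring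
  · congr 1; ring

theorem creal_optFacD (hS : TransitionComp) {F : β → Option Fac} (hF : Computable F) {k : β → ℕ}
    (hk : Computable k) {s : β → ℝ} (hs : CRat s) :
    CReal fun b => optFacD (F b) (k b) (s b) := by
  unfold optFacD
  apply CReal.option_elim (f := fun b => if k b = 0 then (1 : ℝ) else 0)
    (g := fun w : β × Fac => iteratedDeriv (k w.1) (facFun w.2) (Int.fract (s w.1))) hF
  · exact CReal.ite_prop (computable_decide_eq hk (Computable.const 0)) creal_one creal_zero
  · exact (csm_facFun hS).eval Computable.snd (hk.comp Computable.fst)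
      (hs.fract.comp Computable.fst)

theorem creal_theta (hS : TransitionComp) {k : β → ℕ} (hk : Computable k) {t : β → ℝ}
    (ht : CRat t) : CReal fun b => iteratedDeriv (k b) theta (t b) := by
  have h2 : CRat fun _ : Unit => (2 : ℝ) := crat_ofNat 2
  have h3 : CSm fun (_ : Unit) s => Real.smoothTransition (2 * s + -(1 / 2)) :=
    hS.csm.comp_affine h2 (crat_one.div h2).neg
  have h4 := h3.eval (h := fun _ : β => ()) (Computable.const ()) hk ht
  refine h4.of_eq fun b => ?_
  congr 1

theorem computable_count (j : Fin 4) {l : β → List (Fin 4)} (hl : Computable l) :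
    Computable fun b => (l b).count j := by
  have h1 : Primrec fun l : List (Fin 4) => (l.filter (fun i => decide (i = j))).length :=
    Primrec.list_length.comp (Primrec.listFilter
      (p := fun i => i = j) (Primrec.eq.comp Primrec.id (Primrec.const j)))
  refine (h1.to_comp.comp hl).of_eq fun b => ?_
  rw [List.count_eq_length_filter]
  congr 2

theorem creal_termMixed (hS : TransitionComp) {ν : ℝ} (hν : ComputableReal ν) {T : β → Term}
    (hT : Computable T) {k₀ k₁ k₂ k₃ : β → ℕ} (h₀ : Computable k₀) (h₁ : Computable k₁)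
    (h₂ : Computable k₂) (h₃ : Computable k₃) {t s₁ s₂ s₃ : β → ℝ} (ht : CRat t)
    (hs₁ : CRat s₁) (hs₂ : CRat s₂) (hs₃ : CRat s₃) :
    CReal fun b => termMixed ν (T b) (k₀ b) (k₁ b) (k₂ b) (k₃ b) (t b) (s₁ b) (s₂ b) (s₃ b) := by
  have hν' : CReal fun _ : β => ν := hν.creal
  have hc : CReal fun b => ratVal (T b).1 := creal_ratVal (Computable.fst.comp hT)
  have hF1 : Computable fun b => (T b).2.1 := Computable.fst.comp (Computable.snd.comp hT)
  have hF2 : Computable fun b => (T b).2.2.1 :=
    Computable.fst.comp (Computable.snd.comp (Computable.snd.comp hT))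
  have hF3 : Computable fun b => (T b).2.2.2 :=
    Computable.snd.comp (Computable.snd.comp (Computable.snd.comp hT))
  have ss : ∀ {k : β → ℕ}, Computable k → Computable fun b => k b + 1 :=
    fun h => computable_nat_succ h
  have ss2 : ∀ {k : β → ℕ}, Computable k → Computable fun b => k b + 2 :=
    fun h => computable_nat_succ (computable_nat_succ h)
  have a1 := creal_optFacD hS hF1 h₁ hs₁
  have a2 := creal_optFacD hS hF2 h₂ hs₂
  have a3 := creal_optFacD hS hF3 h₃ hs₃
  have b1 := creal_optFacD hS hF1 (ss2 h₁) hs₁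
  have b2 := creal_optFacD hS hF2 (ss2 h₂) hs₂
  have b3 := creal_optFacD hS hF3 (ss2 h₃) hs₃
  unfold termMixed
  exact (hc.mul ((creal_theta hS (ss2 h₀) ht).mul ((a1.mul a2).mul a3))).add
    ((hν'.mul hc).neg.mul ((creal_theta hS (ss h₀) ht).mul
      ((((b1.mul a2).mul a3).add ((a1.mul b2).mul a3)).add ((a1.mul a2).mul b3))))

set_option synthInstance.maxSize 1000 in
theorem creal_force_aux (hS : TransitionComp) {ν : ℝ} (hν : ComputableReal ν)
    (sh : β → ℕ → ShearData) {l : β → List (Fin 4)} (hl : Computable l)
    {i : β → Fin 3} (hi : Computable i) {q₀ q₁ q₂ q₃ : β → ℝ} (h₀ : CRat q₀) (h₁ : CRat q₁)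
    (h₂ : CRat q₂) (h₃ : CRat q₃) (csh : Computable fun b => sh b ⌊q₀ b⌋₊) :
    CReal fun b => if i b = (sh b ⌊q₀ b⌋₊).1 then
        ((sh b ⌊q₀ b⌋₊).2.map fun T => termMixed ν T ((l b).count 0)
          ((l b).count 1) ((l b).count 2) ((l b).count 3)
          (q₀ b - ⌊q₀ b⌋₊) (q₁ b) (q₂ b) (q₃ b)).sum else 0 := by
  refine CReal.ite_prop (computable_decide_eq hi (Computable.fst.comp csh)) ?_ creal_zero
  apply CReal.sum_list (l := fun b => (sh b ⌊q₀ b⌋₊).2)
    (f := fun w : β × Term => termMixed ν w.2 ((l w.1).count 0) ((l w.1).count 1)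
      ((l w.1).count 2) ((l w.1).count 3)
      (q₀ w.1 - ⌊q₀ w.1⌋₊) (q₁ w.1) (q₂ w.1) (q₃ w.1))
  · exact Computable.snd.comp csh
  · exact creal_termMixed hS hν Computable.snd (computable_count 0 (hl.comp Computable.fst))
      (computable_count 1 (hl.comp Computable.fst)) (computable_count 2 (hl.comp Computable.fst))
      (computable_count 3 (hl.comp Computable.fst))
      ((h₀.sub (crat_natCast h₀.natFloor)).comp Computable.fst) (h₁.comp Computable.fst)
      (h₂.comp Computable.fst) (h₃.comp Computable.fst)

/-- The mixed derivatives of the force of a computable family of sequences of shears form a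
computable family of reals. -/
theorem force_creal_of (hS : TransitionComp) {ν : ℝ} (hν : ComputableReal ν)
    (sh : α → ℕ → ShearData) (hsh : Computable₂ sh) (hOK : ∀ a m, ShearOK (sh a m)) :
    CReal (fun z : α × List (Fin 4) × Fin 3 × (RatCode × RatCode × RatCode × RatCode) =>
      mixedDeriv z.2.1 (component (force ν (sh z.1)) z.2.2.1)
        ![ratVal z.2.2.2.1, ratVal z.2.2.2.2.1, ratVal z.2.2.2.2.2.1, ratVal z.2.2.2.2.2.2]) := by
  have cr : Computable fun z : α × List (Fin 4) × Fin 3 ×
      (RatCode × RatCode × RatCode × RatCode) => z.2 := Computable.snd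
  have ci : Computable fun z : α × List (Fin 4) × Fin 3 ×
      (RatCode × RatCode × RatCode × RatCode) => z.2.2.1 :=
    Computable.fst.comp (Computable.snd.comp cr)
  have cq : Computable fun z : α × List (Fin 4) × Fin 3 ×
      (RatCode × RatCode × RatCode × RatCode) => z.2.2.2 :=
    Computable.snd.comp (Computable.snd.comp cr)
  have q0 : CRat fun z : α × List (Fin 4) × Fin 3 ×
      (RatCode × RatCode × RatCode × RatCode) => ratVal z.2.2.2.1 :=
    crat_ratVal (Computable.fst.comp cq)
  have := creal_force_aux hS hν (fun z : α × List (Fin 4) × Fin 3 ×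
      (RatCode × RatCode × RatCode × RatCode) => sh z.1) (Computable.fst.comp cr) ci q0
      (crat_ratVal (Computable.fst.comp (Computable.snd.comp cq)))
      (crat_ratVal (Computable.fst.comp (Computable.snd.comp (Computable.snd.comp cq))))
      (crat_ratVal (Computable.snd.comp (Computable.snd.comp (Computable.snd.comp cq))))
      (hsh.comp Computable.fst q0.natFloor)
  refine this.of_eq fun z => ?_
  rw [mixedDeriv_force_eq ν (sh z.1) (hOK z.1)]
  rfl

/-- The compiler, from the computability of the mixed derivatives. -/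
theorem exists_compiler_of {f : α → ℝ → V3 → V3}
    (hf : CReal (fun z : α × List (Fin 4) × Fin 3 × (RatCode × RatCode × RatCode × RatCode) =>
      mixedDeriv z.2.1 (component (f z.1) z.2.2.1)
        ![ratVal z.2.2.2.1, ratVal z.2.2.2.2.1, ratVal z.2.2.2.2.2.1, ratVal z.2.2.2.2.2.2])) :
    ∃ compile : α → Nat.Partrec.Code, Computable compile ∧
      ∀ a, Computes (compile a) (f a) := by
  obtain ⟨g, hg, hgf⟩ := hf
  -- the total program, with input `(a, (l, i, q, k))`
  have hG : Computable fun w : α × (List (Fin 4) × Fin 3 ×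
      (RatCode × RatCode × RatCode × RatCode) × ℕ) =>
      g ((w.1, w.2.1, w.2.2.1, w.2.2.2.1), w.2.2.2.2) := by
    apply hg.comp
    refine Computable.pair (Computable.pair Computable.fst (Computable.pair ?_
      (Computable.pair ?_ ?_))) ?_
    · exact Computable.fst.comp Computable.snd
    · exact Computable.fst.comp (Computable.snd.comp Computable.snd)
    · exact Computable.fst.comp (Computable.snd.comp (Computable.snd.comp Computable.snd))
    · exact Computable.snd.comp (Computable.snd.comp (Computable.snd.comp Computable.snd))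
  obtain ⟨c, hc⟩ := Nat.Partrec.Code.exists_code.1 hG.partrec
  refine ⟨fun a => Nat.Partrec.Code.curry c (Encodable.encode a), ?_, ?_⟩
  · exact Nat.Partrec.Code.primrec₂_curry.to_comp.comp (Computable.const c) Computable.encode
  · intro a l i q₀ q₁ q₂ q₃ k
    refine ⟨g ((a, l, i, q₀, q₁, q₂, q₃), k), ?_, ?_⟩
    · rw [Nat.Partrec.Code.eval_curry]
      have e : Nat.pair (Encodable.encode a) (Encodable.encode (l, i, (q₀, q₁, q₂, q₃), k)) =
          Encodable.encode (a, (l, i, (q₀, q₁, q₂, q₃), k)) := rfl
      rw [e, hc]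
      simp only [Encodable.encodek]
      simp only [PFun.coe_val, Part.coe_some, Part.bind_some, Part.map_some, Part.mem_some_iff]
    · exact hgf (a, l, i, q₀, q₁, q₂, q₃) k

end Vale.Agent.P113
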