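import Vale.Agent.Lib.P113.Defs

/-!
# Internal interface definitions for P113 (shears, computable families of reals, stack rules)
-/

open scoped ContDiff

namespace Vale.Agent.P113

/-! ## Computable families of real numbers (helper22) -/

/-- `f` is a computable family of real numbers. -/
def CReal {α : Type*} [Primcodable α] (f : α → ℝ) : Prop :=
  ∃ g : α × ℕ → RatCode, Computable g ∧ ∀ a k, |f a - ratVal (g (a, k))| ≤ 1 / ((k : ℝ) + 1)

/-- `f` is a computable family of rational numbers. -/
def CRat {α : Type*} [Primcodable α] (f : α → ℝ) : Prop :=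
  ∃ g : α → RatCode, Computable g ∧ ∀ a, f a = ratVal (g a)

/-! ## Shears (helper23 for computability, helper9 for the flow) -/

/-- A factor `(c₀, c₁, a, b, N)`: a `1`-periodic function of one variable. -/
abbrev Fac := RatCode × RatCode × RatCode × RatCode × ℕ

/-- The function `s ↦ (c₀ + c₁ {s}) S(({s} - a)(N+1)) S((b - {s})(N+1))`, with `{s}` the fractional
part and `S` Mathlib's smooth transition function. -/
noncomputable def facVal (F : Fac) (s : ℝ) : ℝ :=
  (ratVal F.1 + ratVal F.2.1 * Int.fract s) *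
    Real.smoothTransition ((Int.fract s - ratVal F.2.2.1) * ((F.2.2.2.2 : ℝ) + 1)) *
    Real.smoothTransition ((ratVal F.2.2.2.1 - Int.fract s) * ((F.2.2.2.2 : ℝ) + 1))

/-- The support of the factor stays away from the integers. -/
def FacOK (F : Fac) : Prop := 0 < ratVal F.2.2.1 ∧ ratVal F.2.2.2.1 < 1

/-- An optional factor; no factor means the constant function `1`. -/
noncomputable def optFac : Option Fac → ℝ → ℝ
  | none, _ => 1
  | some F, s => facVal F s

def OptFacOK : Option Fac → Prop
  | none => True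
  | some F => FacOK F

/-- A term: a rational coefficient times a product of factors in `x₀`, `x₁`, `x₂`. -/
abbrev Term := RatCode × Option Fac × Option Fac × Option Fac

noncomputable def termVal (T : Term) (x : V3) : ℝ :=
  ratVal T.1 * (optFac T.2.1 (x 0) * optFac T.2.2.1 (x 1) * optFac T.2.2.2 (x 2))

/-- The factor of a term in direction `i`. -/
def Term.fac (T : Term) (i : Fin 3) : Option Fac := ![T.2.1, T.2.2.1, T.2.2.2] i

/-- Shear data: a coordinate direction and a list of terms. -/
abbrev ShearData := Fin 3 × List Term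

/-- All factors are OK and the profile does not depend on the coordinate of its direction. -/
def ShearOK (sh : ShearData) : Prop :=
  ∀ T ∈ sh.2, OptFacOK T.2.1 ∧ OptFacOK T.2.2.1 ∧ OptFacOK T.2.2.2 ∧ Term.fac T sh.1 = none

noncomputable def profile (sh : ShearData) (x : V3) : ℝ := (sh.2.map fun T => termVal T x).sum

/-- The Laplacian of the profile. -/
noncomputable def profileLap (sh : ShearData) (x : V3) : ℝ :=
  ∑ j : Fin 3, iteratedDeriv 2 (fun s => profile sh (Function.update x j s)) (x j)

/-- The time profile: `0` for `t ≤ 1/4`, `1` for `t ≥ 3/4`. -/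
noncomputable def theta (t : ℝ) : ℝ := Real.smoothTransition (2 * t - 1 / 2)

/-- The velocity field of a sequence of shears: in the time slot `[m, m+1]` it is
`θ'(t - m) * profile * e_dir` for the `m`-th shear. -/
noncomputable def velocity (sh : ℕ → ShearData) (t : ℝ) (x : V3) : V3 :=
  Pi.single (sh ⌊t⌋₊).1 (deriv theta (t - (⌊t⌋₊ : ℝ)) * profile (sh ⌊t⌋₊) x)

/-- The force that drives `velocity sh` at viscosity `ν`. -/
noncomputable def force (ν : ℝ) (sh : ℕ → ShearData) (t : ℝ) (x : V3) : V3 :=
  Pi.single (sh ⌊t⌋₊).1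
    (deriv (deriv theta) (t - (⌊t⌋₊ : ℝ)) * profile (sh ⌊t⌋₊) x
      - ν * (deriv theta (t - (⌊t⌋₊ : ℝ)) * profileLap (sh ⌊t⌋₊) x))

/-! ## Two-stack rewriting (helper21)

Stacks are lists of digits with an implicit infinite tail of zeros. -/

/-- A rule `(α, β, α', β')`: replace the top `α` of stack `A` by `α'` and the top `β` of stack `B`
by `β'`. -/
abbrev Rule := List ℕ × List ℕ × List ℕ × List ℕ

/-- One of the words is an initial segment of the other. -/
def Compat (u v : List ℕ) : Prop := u <+: v ∨ v <+: u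

/-- Equality of stacks up to trailing zeros. -/
def PadEq (u v : List ℕ) : Prop :=
  ∃ k l : ℕ, u ++ List.replicate k 0 = v ++ List.replicate l 0

/-- One application of the rule `r`. -/
def RuleStep (r : Rule) (c c' : List ℕ × List ℕ) : Prop :=
  ∃ A B : List ℕ, PadEq c.1 (r.1 ++ A) ∧ PadEq c.2 (r.2.1 ++ B) ∧
    PadEq c'.1 (r.2.2.1 ++ A) ∧ PadEq c'.2 (r.2.2.2 ++ B)

/-- The top symbol of stack `A` is one of the halting digits `hs`. -/
def HaltTop (hs : List ℕ) (c : List ℕ × List ℕ) : Prop :=
  ∃ h ∈ hs, ∃ A, PadEq c.1 (h :: A)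

/-- What the flow construction needs to know about the discrete simulation of a machine `M` by
the rules `rules`, halting digits `hs`, and number of digits `K`. -/
structure Simulates (M : Machine) (K : ℕ) (rules : List Rule) (hs : List ℕ)
    (ini : List (Fin (M.m + 1)) → List ℕ × List ℕ) : Prop where
  digits_lt : ∀ r ∈ rules, (∀ d ∈ r.1, d < K) ∧ (∀ d ∈ r.2.1, d < K) ∧
    (∀ d ∈ r.2.2.1, d < K) ∧ (∀ d ∈ r.2.2.2, d < K)
  halt_lt : ∀ h ∈ hs, h < K
  halt_nodup : hs.Nodup
  pos : 0 < K
  dom_disjoint : rules.Pairwise fun r s => ¬ (Compat r.1 s.1 ∧ Compat r.2.1 s.2.1)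
  img_disjoint : rules.Pairwise fun r s => ¬ (Compat r.2.2.1 s.2.2.1 ∧ Compat r.2.2.2 s.2.2.2)
  not_halt : ∀ r ∈ rules, ∃ h t, r.1 = h :: t ∧ h ∉ hs
  run : ∀ w : List (Fin (M.m + 1)), ∃ run : ℕ → List ℕ × List ℕ, run 0 = ini w ∧
    (∀ k, (∀ d ∈ (run k).1, d < K) ∧ (∀ d ∈ (run k).2, d < K)) ∧
    (∀ k, (∀ j ≤ k, ¬ HaltTop hs (run j)) → ∃ r ∈ rules, RuleStep r (run k) (run (k + 1))) ∧
    (M.Halts w ↔ ∃ k, HaltTop hs (run k))

end Vale.Agent.P113
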