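import Vale.Agent.Lib.P113.Final

/-!
# The path of the particle visits the cells of the successive configurations of the machine
-/

open scoped ContDiff Topology
open Filter

namespace Vale.Agent.P113

namespace Dis

/-- Number of rewriting steps before the `i`-th configuration of the machine is represented. -/
noncomputable def visit (M : Machine) (w : List (Fin (M.m + 1))) : ℕ → ℕ
  | 0 => 0
  | i + 1 => sInf {l | ((nx M.describe)^[l + (visit M w i + 1)] (x0 M w)).f = 0} +
      (visit M w i + 1)

theorem visit_zero (M : Machine) (w : List (Fin (M.m + 1))) : visit M w 0 = 0 := rfl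

theorem visit_strictMono (M : Machine) (w : List (Fin (M.m + 1))) : StrictMono (visit M w) := by
  apply strictMono_nat_of_lt_succ
  intro i
  rw [visit]
  omega

theorem rel_moves {M : Machine} {c : M.Config} {x : X} (h : Rel M c x) (l : ℕ)
    (hl' : ∀ j < l, ((nx M.describe)^[j] x).f ≠ 0) : Rel M c ((nx M.describe)^[l] x) := by
  induction l with
  | zero => exact h
  | succ l ih =>
    rw [Function.iterate_succ_apply']
    exact rel_move (ih fun j hj => hl' j (by omega)) (hl' l (by omega))

theorem visit_spec (M : Machine) (w : List (Fin (M.m + 1))) (i : ℕ)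
    (hi : ∀ j < i, ¬ M.halting (M.step^[j] (M.init w)).state = true) :
    ((nx M.describe)^[visit M w i] (x0 M w)).f = 0 ∧
    Rel M (M.step^[i] (M.init w)) ((nx M.describe)^[visit M w i] (x0 M w)) ∧
    ∀ k < visit M w i, ¬ HaltTop (hs M.describe)
      (((nx M.describe)^[k] (x0 M w)).stacks M.describe) := by
  induction i with
  | zero =>
    refine ⟨rfl, x0_rel M w, ?_⟩
    intro k hk
    rw [visit_zero] at hk
    omega
  | succ i ih =>
    obtain ⟨ih1, ih2, ih3⟩ := ih fun j hj => hi j (by omega)
    have hh := hi i (by omega)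
    set n := visit M w i with hn
    set S := {l | ((nx M.describe)^[l + (n + 1)] (x0 M w)).f = 0} with hS
    have hv : visit M w (i + 1) = sInf S + (n + 1) := by rw [visit]
    have h1 := rel_step ih2 ih1 hh
    rw [← Function.iterate_succ_apply' (nx M.describe) n (x0 M w)] at h1
    obtain ⟨l, hl1, hl2⟩ := progress _ _ h1 le_rfl
    have hne : S.Nonempty := ⟨l, by
      show ((nx M.describe)^[l + (n + 1)] (x0 M w)).f = 0
      rw [Function.iterate_add_apply]; exact hl1⟩
    have hmem := Nat.sInf_mem hne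
    have hlt : ∀ j < sInf S, ((nx M.describe)^[j + (n + 1)] (x0 M w)).f ≠ 0 := by
      intro j hj
      have h2 : j ∉ S := Nat.notMem_of_lt_sInf hj
      exact h2
    have hrel : Rel M (M.step (M.step^[i] (M.init w)))
        ((nx M.describe)^[sInf S + (n + 1)] (x0 M w)) := by
      rw [Function.iterate_add_apply]
      apply rel_moves h1
      intro j hj
      rw [← Function.iterate_add_apply]
      exact hlt j hj
    refine ⟨?_, ?_, ?_⟩
    · rw [hv]; exact hmem
    · rw [hv, Function.iterate_succ_apply']; exact hrel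
    · intro k hk
      rw [hv] at hk
      obtain ⟨c, hc⟩ := back (x0_rel M w) k
      rw [haltTop_iff hc.valid]
      rintro ⟨a1, a2⟩
      rcases lt_trichotomy k n with h | h | h
      · exact ih3 k h ((haltTop_iff hc.valid).2 ⟨a1, a2⟩)
      · subst h
        rw [ih2.state, hl_describe] at a2
        exact hh a2
      · obtain ⟨j, rfl⟩ : ∃ j, k = j + (n + 1) := ⟨k - (n + 1), by omega⟩
        exact hlt j (by omega) a1

end Dis

/-- Window around the points whose first digit is `d`. -/
def window (K d : ℕ) : Set UnitAddCircle :=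
  (fun s : ℝ => (s : UnitAddCircle)) ''
    Set.Ioo (3 / 8 + ((d : ℝ) - 1 / 4) / (4 * K)) (3 / 8 + ((d : ℝ) + 1 / 2) / (4 * K))

theorem window_open (K d : ℕ) : IsOpen (window K d) :=
  QuotientAddGroup.isOpenMap_coe _ isOpen_Ioo

theorem window_sub {K d : ℕ} (hd : d < K) {s : ℝ}
    (hs : s ∈ Set.Ioo (3 / 8 + ((d : ℝ) - 1 / 4) / (4 * K)) (3 / 8 + ((d : ℝ) + 1 / 2) / (4 * K))) :
    s ∈ Set.Ico (0 : ℝ) (0 + 1) := by
  have hK : (0 : ℝ) < K := by exact_mod_cast (lt_of_le_of_lt (Nat.zero_le d) hd)
  have hd' := cast_le_of_lt hd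
  have hK1 : (1 : ℝ) ≤ K := by
    have := lt_of_le_of_lt (Nat.zero_le d) hd
    exact_mod_cast this
  have h0 : (0 : ℝ) ≤ d := Nat.cast_nonneg d
  constructor
  · have h1 : -(1 / 16 : ℝ) ≤ ((d : ℝ) - 1 / 4) / (4 * K) := by
      rw [le_div_iff₀ (by positivity)]
      nlinarith
    linarith [hs.1]
  · have h1 : ((d : ℝ) + 1 / 2) / (4 * K) ≤ 1 / 4 := by
      rw [div_le_iff₀ (by positivity)]
      linarith
    linarith [hs.2]

theorem window_disjoint {K d e : ℕ} (hd : d < K) (he : e < K) (hne : d ≠ e) :
    Disjoint (window K d) (window K e) := by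
  rw [Set.disjoint_left]
  rintro p ⟨s, hs, rfl⟩ ⟨s', hs', h⟩
  have h' : (s' : UnitAddCircle) = (s : UnitAddCircle) := h
  rw [AddCircle.coe_eq_coe_iff_of_mem_Ico (a := 0) (window_sub he hs') (window_sub hd hs)] at h'
  subst h'
  have hK : (0 : ℝ) < 4 * K := by
    have : (0 : ℝ) < K := by exact_mod_cast (lt_of_le_of_lt (Nat.zero_le d) hd)
    positivity
  have a1 := hs.1
  have a2 := hs.2
  have b1 := hs'.1
  have b2 := hs'.2
  have c1 : ((d : ℝ) - 1 / 4) / (4 * K) < ((e : ℝ) + 1 / 2) / (4 * K) := by linarith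
  have c2 : ((e : ℝ) - 1 / 4) / (4 * K) < ((d : ℝ) + 1 / 2) / (4 * K) := by linarith
  rw [div_lt_div_iff_of_pos_right hK] at c1 c2
  rcases lt_or_gt_of_ne hne with h | h
  · have : (d : ℝ) + 1 ≤ e := by exact_mod_cast h
    linarith
  · have : (e : ℝ) + 1 ≤ d := by exact_mod_cast h
    linarith

theorem crd_mem_window {K d : ℕ} {A : List ℕ} (hK : 0 < K) (hA : Dig K A) :
    ((crd K (d :: A) : ℝ) : UnitAddCircle) ∈ window K d := by
  refine ⟨_, ?_, rfl⟩
  have h1 := enc_nonneg K A
  have h2 := enc_le hK hA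
  have hK' : (0 : ℝ) < K := by exact_mod_cast hK
  unfold crd
  rw [enc, bs_cast]
  constructor
  · gcongr
    linarith
  · gcongr
    linarith

/-- The cell of state `q` and scanned symbol `s`. -/
def cell (M : Machine) (q : Fin (M.n + 1)) (s : Fin (M.m + 1)) :
    Set (UnitAddTorus (Fin 3)) :=
  {p | p 0 ∈ window (Dis.num M.describe) (Dis.st M.describe q 0) ∧
    p 1 ∈ window (Dis.num M.describe) (Dis.sw M.blank s)}

theorem cell_open (M : Machine) (q : Fin (M.n + 1)) (s : Fin (M.m + 1)) :
    IsOpen (cell M q s) := by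
  have h0 : Continuous fun p : UnitAddTorus (Fin 3) => p 0 := continuous_apply 0
  have h1 : Continuous fun p : UnitAddTorus (Fin 3) => p 1 := continuous_apply 1
  exact ((window_open _ _).preimage h0).inter ((window_open _ _).preimage h1)

theorem sw_lt_num (M : Machine) (s : Fin (M.m + 1)) :
    Dis.sw M.blank s < Dis.num M.describe := by
  have h1 : Dis.sw (M.blank : ℕ) (s : ℕ) < M.m + 1 := Dis.sw_lt M.blank.2 s.2
  have h2 := Dis.nS_le M.describe
  have h3 := Dis.J0_lt M.describe
  rw [Dis.nS_describe] at h2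
  omega

theorem st_lt_num (M : Machine) (q : Fin (M.n + 1)) :
    Dis.st M.describe q 0 < Dis.num M.describe := by
  have h1 : Dis.st M.describe (q : ℕ) 0 < Dis.J0 M.describe :=
    Dis.st_lt (by rw [Dis.nQ_describe]; exact q.2) (by norm_num)
  have h3 := Dis.J0_lt M.describe
  omega

theorem cell_disjoint (M : Machine) {q q' : Fin (M.n + 1)} {s s' : Fin (M.m + 1)}
    (h : (q, s) ≠ (q', s')) : Disjoint (cell M q s) (cell M q' s') := by
  rw [Set.disjoint_left]
  rintro p ⟨h1, h2⟩ ⟨h3, h4⟩
  by_cases hq : q = q'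
  · have hs : s ≠ s' := fun hs => h (by rw [hq, hs])
    refine Set.disjoint_left.1 (window_disjoint (sw_lt_num M s) (sw_lt_num M s') ?_) h2 h4
    intro he
    apply hs
    have := congrArg (Dis.sw (M.blank : ℕ)) he
    rw [Dis.sw_sw, Dis.sw_sw] at this
    exact Fin.ext this
  · refine Set.disjoint_left.1 (window_disjoint (st_lt_num M q) (st_lt_num M q') ?_) h1 h3
    intro he
    apply hq
    unfold Dis.st at he
    exact Fin.ext (by omega)

theorem itinerary (M : Machine) (w : List (Fin (M.m + 1))) (i : ℕ)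
    (hi : ∀ j < i, ¬ M.halting (M.step^[j] (M.init w)).state = true) :
    toTorus (traj (shears (M.describe, w.map Fin.val)) aStar (2 + 8 * (Dis.visit M w i : ℝ))) ∈
      cell M (M.step^[i] (M.init w)).state
        ((M.step^[i] (M.init w)).tape (M.step^[i] (M.init w)).pos) := by
  have hsim := Dis.simulates M
  have hsafe : safe (Dis.num M.describe) (Dis.rules M.describe) = Dis.rules M.describe :=
    safe_eq fun r hr => hsim.digits_lt r hr
  obtain ⟨v1, v2, v3⟩ := Dis.visit_spec M w i hi
  set run : ℕ → List ℕ × List ℕ := fun k =>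
    ((Dis.nx M.describe)^[k] (Dis.x0 M w)).stacks M.describe with hrun
  have hV : ∀ k, Dis.Valid M.describe ((Dis.nx M.describe)^[k] (Dis.x0 M w)) := fun k =>
    (Dis.back (Dis.x0_rel M w) k).choose_spec.valid
  have hdig : ∀ k, Dig (Dis.num M.describe) (run k).1 ∧ Dig (Dis.num M.describe) (run k).2 := by
    intro k
    have hS := Dis.nS_le M.describe
    have hJ := Dis.J0_lt M.describe
    have lt_num : ∀ d, Dis.GD M.describe d → d < Dis.num M.describe := by
      intro d hd
      rcases hd with hd | hd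
      · omega
      · exact hd.2
    constructor
    · intro d hd
      rcases List.mem_cons.1 hd with rfl | hd
      · exact (Dis.st_lt (hV k).q_lt (hV k).f_lt).trans (by omega)
      · exact lt_num d ((hV k).hA d hd)
    · intro d hd
      exact lt_num d ((hV k).hB d hd)
  have hstep : ∀ k, (∀ j ≤ k, ¬ HaltTop (Dis.hs M.describe) (run j)) →
      ∃ r ∈ Dis.rules M.describe, RuleStep r (run k) (run (k + 1)) := by
    intro k hk
    have hnh := hk k le_rfl
    rw [Dis.haltTop_iff (hV k)] at hnh
    obtain ⟨r, hr, hr2⟩ := Dis.ruleStep_nx (hV k) hnh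
    refine ⟨r, hr, ?_⟩
    simp only [hrun, Function.iterate_succ_apply']
    exact hr2
  have hpos := (run_positions hsim.good hdig hstep (Dis.visit M w i) v3).1
  have hsh : shears (M.describe, w.map Fin.val) =
      shearSeq (Dis.num M.describe) (Dis.rules M.describe) (Dis.hs M.describe)
        (run 0).1 (run 0).2 := by
    funext m
    unfold shears
    simp only [hsafe]
    rfl
  have htime : (2 + 8 * (Dis.visit M w i : ℝ)) = ((2 + 8 * Dis.visit M w i : ℕ) : ℝ) := by
    push_cast; ring
  rw [htime, traj_nat, hsh, hpos]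
  have hd := hdig (Dis.visit M w i)
  have hK : 0 < Dis.num M.describe := num_pos _
  have hr1 : (run (Dis.visit M w i)).1 = Dis.st M.describe (M.step^[i] (M.init w)).state 0 ::
      ((Dis.nx M.describe)^[Dis.visit M w i] (Dis.x0 M w)).A := by
    simp only [hrun, Dis.X.stacks, v1, v2.state]
  have hread : Dis.sw (M.blank : ℕ)
      (((M.step^[i] (M.init w)).tape (M.step^[i] (M.init w)).pos : Fin (M.m + 1)) : ℕ) =
      ((Dis.nx M.describe)^[Dis.visit M w i] (Dis.x0 M w)).B.headD 0 := by
    have h0 := v2.tape 0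
    rw [Dis.tapeOf_zero, Dis.strip_head (v2.valid.top v1), v1] at h0
    simpa [Dis.off] using h0
  have hr2 : crd (Dis.num M.describe) (run (Dis.visit M w i)).2 =
      crd (Dis.num M.describe) (Dis.sw (M.blank : ℕ)
        (((M.step^[i] (M.init w)).tape (M.step^[i] (M.init w)).pos : Fin (M.m + 1)) : ℕ) ::
        ((Dis.nx M.describe)^[Dis.visit M w i] (Dis.x0 M w)).B.tail) := by
    unfold crd
    rw [hread]
    congr 1
    exact enc_padEq _ (Dis.padEq_head _)
  constructor
  · show ((crd (Dis.num M.describe) (run (Dis.visit M w i)).1 : ℝ) : UnitAddCircle) ∈ _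
    have hA := hd.1
    rw [hr1] at hA ⊢
    exact crd_mem_window hK hA.cons.2
  · show ((crd (Dis.num M.describe) (run (Dis.visit M w i)).2 : ℝ) : UnitAddCircle) ∈ _
    rw [hr2]
    refine crd_mem_window hK ?_
    intro d hd'
    exact hd.2 d (List.mem_of_mem_tail hd')

end Vale.Agent.P113
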