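import Vale.Agent.Lib.P113.Flow

/-!
# The four-shear block that performs one step of a two-stack rewriting system
-/

open scoped ContDiff Topology
open Filter

namespace Vale.Agent.P113

/-! ## Arithmetic on codes of rationals -/

def rAdd (p q : RatCode) : RatCode :=
  (p.1 * (q.2.2 + 1) + q.1 * (p.2.2 + 1), p.2.1 * (q.2.2 + 1) + q.2.1 * (p.2.2 + 1),
    (p.2.2 + 1) * (q.2.2 + 1) - 1)

def rNeg (p : RatCode) : RatCode := (p.2.1, p.1, p.2.2)

def rMul (p q : RatCode) : RatCode :=
  (p.1 * q.1 + p.2.1 * q.2.1, p.1 * q.2.1 + p.2.1 * q.1, (p.2.2 + 1) * (q.2.2 + 1) - 1)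

def rNat (n : ℕ) : RatCode := (n, 0, 0)

/-- Code of `1 / n` for positive `n`. -/
def rInv (n : ℕ) : RatCode := (1, 0, n - 1)

theorem cast_mul_sub_one (a b : ℕ) :
    (((a + 1) * (b + 1) - 1 : ℕ) : ℝ) + 1 = ((a : ℝ) + 1) * ((b : ℝ) + 1) := by
  have h : 1 ≤ (a + 1) * (b + 1) := Nat.one_le_iff_ne_zero.2 (by positivity)
  rw [Nat.cast_sub h]; push_cast; ring

theorem ratVal_rAdd (p q : RatCode) : ratVal (rAdd p q) = ratVal p + ratVal q := by
  unfold ratVal rAdd
  simp only [cast_mul_sub_one]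
  have h1 : (p.2.2 : ℝ) + 1 ≠ 0 := by positivity
  have h2 : (q.2.2 : ℝ) + 1 ≠ 0 := by positivity
  push_cast
  field_simp
  ring

theorem ratVal_rNeg (p : RatCode) : ratVal (rNeg p) = - ratVal p := by
  unfold ratVal rNeg
  ring

theorem ratVal_rMul (p q : RatCode) : ratVal (rMul p q) = ratVal p * ratVal q := by
  unfold ratVal rMul
  simp only [cast_mul_sub_one]
  have h1 : (p.2.2 : ℝ) + 1 ≠ 0 := by positivity
  have h2 : (q.2.2 : ℝ) + 1 ≠ 0 := by positivity
  push_cast
  field_simp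
  ring

theorem ratVal_rNat (n : ℕ) : ratVal (rNat n) = n := by
  unfold ratVal rNat; simp

theorem ratVal_rInv {n : ℕ} (hn : 0 < n) : ratVal (rInv n) = 1 / (n : ℝ) := by
  unfold ratVal rInv
  have : ((n - 1 : ℕ) : ℝ) + 1 = n := by
    rw [Nat.cast_sub hn]; push_cast; ring
  simp [this]

/-! ## Encoding stacks -/

/-- The base. -/
def bs (K : ℕ) : ℕ := 4 * K

/-- The real number with digits `l` in base `bs K`. -/
noncomputable def enc (K : ℕ) : List ℕ → ℝ
  | [] => 0
  | d :: l => ((d : ℝ) + enc K l) / (bs K : ℝ)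

def encC (K : ℕ) (l : List ℕ) : RatCode :=
  l.foldr (fun d acc => rMul (rAdd (rNat d) acc) (rInv (bs K))) (rNat 0)

theorem bs_pos {K : ℕ} (hK : 0 < K) : 0 < bs K := by unfold bs; omega

theorem bs_cast (K : ℕ) : (bs K : ℝ) = 4 * (K : ℝ) := by unfold bs; push_cast; ring

theorem ratVal_encC {K : ℕ} (hK : 0 < K) (l : List ℕ) : ratVal (encC K l) = enc K l := by
  induction l with
  | nil => simp [encC, enc, ratVal_rNat]
  | cons d l ih =>
    have : encC K (d :: l) = rMul (rAdd (rNat d) (encC K l)) (rInv (bs K)) := rfl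
    rw [this, ratVal_rMul, ratVal_rAdd, ratVal_rNat, ih, ratVal_rInv (bs_pos hK), enc]
    ring

/-- All digits of `l` are below `K`. -/
def Dig (K : ℕ) (l : List ℕ) : Prop := ∀ d ∈ l, d < K

theorem Dig.cons {K d : ℕ} {l : List ℕ} (h : Dig K (d :: l)) : d < K ∧ Dig K l :=
  ⟨h d (by simp), fun e he => h e (by simp [he])⟩

theorem enc_nonneg (K : ℕ) (l : List ℕ) : 0 ≤ enc K l := by
  induction l with
  | nil => simp [enc]
  | cons d l ih => rw [enc]; positivity

theorem cast_le_of_lt {d K : ℕ} (h : d < K) : (d : ℝ) + 1 ≤ K := by exact_mod_cast h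

theorem enc_le {K : ℕ} {l : List ℕ} (hK : 0 < K) (h : Dig K l) : enc K l ≤ 1 / 4 := by
  induction l with
  | nil => simp [enc]
  | cons d l ih =>
    obtain ⟨h1, h2⟩ := h.cons
    have h3 := ih h2
    have h4 := cast_le_of_lt h1
    have hK' : (0 : ℝ) < K := by exact_mod_cast hK
    rw [enc, bs_cast, div_le_iff₀ (by positivity)]
    linarith

/-- `1 / b ^ length`. -/
noncomputable def gap (K : ℕ) (l : List ℕ) : ℝ := 1 / ((bs K : ℝ) ^ l.length)

theorem gap_nil (K : ℕ) : gap K [] = 1 := by simp [gap]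

theorem gap_cons (K d : ℕ) (l : List ℕ) : gap K (d :: l) = gap K l / (bs K : ℝ) := by
  unfold gap
  rw [List.length_cons, pow_succ]
  rw [div_div]

theorem gap_pos {K : ℕ} (hK : 0 < K) (l : List ℕ) : 0 < gap K l := by
  have : (0 : ℝ) < bs K := by exact_mod_cast bs_pos hK
  unfold gap; positivity

theorem gap_le_one {K : ℕ} (hK : 0 < K) (l : List ℕ) : gap K l ≤ 1 := by
  have : (1 : ℝ) ≤ bs K := by exact_mod_cast bs_pos hK
  unfold gap
  rw [div_le_one (by positivity)]
  exact one_le_pow₀ this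

theorem enc_append (K : ℕ) (u v : List ℕ) : enc K (u ++ v) = enc K u + gap K u * enc K v := by
  induction u with
  | nil => simp [enc, gap_nil]
  | cons d u ih =>
    rw [List.cons_append, enc, enc, ih, gap_cons]
    ring

theorem enc_replicate (K k : ℕ) : enc K (List.replicate k 0) = 0 := by
  induction k with
  | zero => simp [enc]
  | succ k ih => rw [List.replicate_succ, enc, ih]; simp

theorem enc_padEq (K : ℕ) {u v : List ℕ} (h : PadEq u v) : enc K u = enc K v := by
  obtain ⟨k, l, h⟩ := h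
  have h1 := congrArg (enc K) h
  rw [enc_append, enc_append, enc_replicate, enc_replicate] at h1
  simpa using h1

theorem dig_padEq {K : ℕ} (hK : 0 < K) {u v : List ℕ} (h : PadEq u v) (hu : Dig K u) :
    Dig K v := by
  obtain ⟨k, l, h⟩ := h
  intro d hd
  have : d ∈ u ++ List.replicate k 0 := by
    rw [h]; simp [hd]
  rcases List.mem_append.1 this with h1 | h1
  · exact hu d h1
  · rw [List.mem_replicate] at h1
    omega

theorem Dig.append {K : ℕ} {u v : List ℕ} (h : Dig K (u ++ v)) : Dig K u ∧ Dig K v :=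
  ⟨fun d hd => h d (by simp [hd]), fun d hd => h d (by simp [hd])⟩

theorem Dig.append' {K : ℕ} {u v : List ℕ} (hu : Dig K u) (hv : Dig K v) : Dig K (u ++ v) := by
  intro d hd
  rcases List.mem_append.1 hd with h | h
  · exact hu d h
  · exact hv d h

/-- Incompatible words have well separated blocks. -/
theorem enc_separated {K : ℕ} (hK : 0 < K) :
    ∀ {u v A : List ℕ}, Dig K u → Dig K v → Dig K A → ¬ Compat u v →
      enc K (u ++ A) ≤ enc K v - gap K v / 4 ∨ enc K v + gap K v / 2 ≤ enc K (u ++ A) := by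
  intro u
  induction u with
  | nil => intro v A _ _ _ hc; exact absurd (Or.inl List.nil_prefix) hc
  | cons d u ih =>
    intro v A hu hv hA hc
    cases v with
    | nil => exact absurd (Or.inr List.nil_prefix) hc
    | cons e v =>
      have hb : (0 : ℝ) < bs K := by exact_mod_cast bs_pos hK
      obtain ⟨hd, hu'⟩ := hu.cons
      obtain ⟨he, hv'⟩ := hv.cons
      rw [List.cons_append, enc, enc, gap_cons]
      rcases lt_trichotomy d e with h | h | h
      · left
        have h1 : enc K (u ++ A) ≤ 1 / 4 := enc_le hK (hu'.append' hA)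
        have h2 := enc_nonneg K v
        have h3 := gap_le_one hK v
        have h4 := cast_le_of_lt h
        have : ((d : ℝ) + enc K (u ++ A)) ≤ ((e : ℝ) + enc K v) - gap K v / 4 := by linarith
        calc ((d : ℝ) + enc K (u ++ A)) / bs K ≤ (((e : ℝ) + enc K v) - gap K v / 4) / bs K := by
              gcongr
          _ = _ := by ring
      · subst h
        have hc' : ¬ Compat u v := by
          intro h'
          apply hc
          rcases h' with h' | h'
          · exact Or.inl ((List.prefix_cons_inj d).2 h')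
          · exact Or.inr ((List.prefix_cons_inj d).2 h')
        rcases ih hu' hv' hA hc' with h1 | h1
        · left
          calc ((d : ℝ) + enc K (u ++ A)) / bs K ≤ ((d : ℝ) + (enc K v - gap K v / 4)) / bs K := by
                gcongr
            _ = _ := by ring
        · right
          calc ((d : ℝ) + enc K v) / bs K + gap K v / bs K / 2
              = ((d : ℝ) + (enc K v + gap K v / 2)) / bs K := by ring
            _ ≤ _ := by gcongr
      · right
        have h1 : enc K v ≤ 1 / 4 := enc_le hK hv'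
        have h2 := enc_nonneg K (u ++ A)
        have h3 := gap_le_one hK v
        have h4 := cast_le_of_lt h
        calc ((e : ℝ) + enc K v) / bs K + gap K v / bs K / 2
            = ((e : ℝ) + enc K v + gap K v / 2) / bs K := by ring
          _ ≤ ((d : ℝ) + enc K (u ++ A)) / bs K :=
              div_le_div_of_nonneg_right (by linarith) hb.le

theorem enc_add_half_gap_le {K : ℕ} (hK : 0 < K) {u : List ℕ} (hu : Dig K u) :
    enc K u + gap K u / 2 ≤ 1 / 2 := by
  cases u with
  | nil => simp [enc, gap_nil]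
  | cons d u =>
    obtain ⟨hd, hu'⟩ := hu.cons
    have h1 : enc K u ≤ 1 / 4 := enc_le hK hu'
    have h3 := gap_le_one hK u
    have h4 := cast_le_of_lt hd
    have hK' : (0 : ℝ) < K := by exact_mod_cast hK
    rw [enc, gap_cons, bs_cast]
    have : ((d : ℝ) + enc K u) / (4 * K) + gap K u / (4 * K) / 2
        = ((d : ℝ) + enc K u + gap K u / 2) / (4 * K) := by ring
    rw [this, div_le_iff₀ (by positivity)]
    linarith

/-! ## Window factors -/

/-- Code of the offset `3/8`. -/
def offC : RatCode := (3, 0, 7)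

theorem ratVal_offC : ratVal offC = 3 / 8 := by unfold ratVal offC; norm_num

/-- `(bs K) ^ length`. -/
def powC (K : ℕ) (u : List ℕ) : ℕ := (bs K) ^ u.length

theorem powC_pos {K : ℕ} (hK : 0 < K) (u : List ℕ) : 0 < powC K u := pow_pos (bs_pos hK) _

theorem gap_eq (K : ℕ) (u : List ℕ) : gap K u = 1 / (powC K u : ℝ) := by
  unfold gap powC; push_cast; rfl

/-- The factor with affine part `c` and window around the block of `u`. -/
def winC (K : ℕ) (u : List ℕ) (c : RatCode × RatCode) : Fac :=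
  (c.1, c.2, rAdd (rAdd offC (encC K u)) (rNeg (rInv (4 * powC K u))),
    rAdd (rAdd offC (encC K u)) (rInv (2 * powC K u)), 4 * powC K u - 1)

theorem facVal_of_core {F : Fac} {s : ℝ} (h0 : 0 ≤ s) (h1 : s < 1)
    (ha : 1 ≤ (s - ratVal F.2.2.1) * ((F.2.2.2.2 : ℝ) + 1))
    (hb : 1 ≤ (ratVal F.2.2.2.1 - s) * ((F.2.2.2.2 : ℝ) + 1)) :
    facVal F s = ratVal F.1 + ratVal F.2.1 * s := by
  have hf : Int.fract s = s := Int.fract_eq_self.2 ⟨h0, h1⟩
  unfold facVal
  rw [hf, Real.smoothTransition.one_of_one_le ha, Real.smoothTransition.one_of_one_le hb]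
  ring

theorem facVal_of_out {F : Fac} {s : ℝ} (h0 : 0 ≤ s) (h1 : s < 1)
    (h : s ≤ ratVal F.2.2.1 ∨ ratVal F.2.2.2.1 ≤ s) : facVal F s = 0 := by
  have hf : Int.fract s = s := Int.fract_eq_self.2 ⟨h0, h1⟩
  have hN : (0 : ℝ) < (F.2.2.2.2 : ℝ) + 1 := by positivity
  unfold facVal
  rw [hf]
  rcases h with h | h
  · rw [Real.smoothTransition.zero_of_nonpos
      (mul_nonpos_of_nonpos_of_nonneg (by linarith) hN.le)]
    ring
  · rw [Real.smoothTransition.zero_of_nonpos
      (x := (ratVal F.2.2.2.1 - s) * ((F.2.2.2.2 : ℝ) + 1))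
      (mul_nonpos_of_nonpos_of_nonneg (by linarith) hN.le)]
    ring

theorem winC_left {K : ℕ} (hK : 0 < K) (u : List ℕ) (c : RatCode × RatCode) :
    ratVal (winC K u c).2.2.1 = 3 / 8 + enc K u - gap K u / 4 := by
  simp only [winC, ratVal_rAdd, ratVal_rNeg, ratVal_offC, ratVal_encC hK]
  rw [ratVal_rInv (by have := powC_pos hK u; omega), gap_eq]
  push_cast
  have : (powC K u : ℝ) ≠ 0 := by exact_mod_cast (powC_pos hK u).ne'
  field_simp
  ring

theorem winC_right {K : ℕ} (hK : 0 < K) (u : List ℕ) (c : RatCode × RatCode) :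
    ratVal (winC K u c).2.2.2.1 = 3 / 8 + enc K u + gap K u / 2 := by
  simp only [winC, ratVal_rAdd, ratVal_offC, ratVal_encC hK]
  rw [ratVal_rInv (by have := powC_pos hK u; omega), gap_eq]
  push_cast
  have : (powC K u : ℝ) ≠ 0 := by exact_mod_cast (powC_pos hK u).ne'
  field_simp

theorem winC_slope {K : ℕ} (hK : 0 < K) (u : List ℕ) (c : RatCode × RatCode) :
    (((winC K u c).2.2.2.2 : ℕ) : ℝ) + 1 = 4 / gap K u := by
  have h := powC_pos hK u
  have h1 : ((4 * powC K u - 1 : ℕ) : ℝ) + 1 = 4 * (powC K u : ℝ) := by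
    rw [Nat.cast_sub (by omega)]; push_cast; ring
  change ((4 * powC K u - 1 : ℕ) : ℝ) + 1 = _
  rw [h1, gap_eq]
  have : (powC K u : ℝ) ≠ 0 := by exact_mod_cast h.ne'
  field_simp

theorem winC_ok {K : ℕ} (hK : 0 < K) {u : List ℕ} (hu : Dig K u) (c : RatCode × RatCode) :
    FacOK (winC K u c) := by
  constructor
  · rw [winC_left hK]
    have := enc_nonneg K u
    have := gap_le_one hK u
    linarith
  · rw [winC_right hK]
    have := enc_add_half_gap_le hK hu
    linarith

/-- The coordinate of a stack. -/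
noncomputable def crd (K : ℕ) (l : List ℕ) : ℝ := 3 / 8 + enc K l

theorem crd_mem {K : ℕ} (hK : 0 < K) {l : List ℕ} (h : Dig K l) :
    3 / 8 ≤ crd K l ∧ crd K l ≤ 5 / 8 := by
  have h1 := enc_nonneg K l
  have h2 := enc_le hK h
  unfold crd
  constructor <;> linarith

theorem winC_core {K : ℕ} (hK : 0 < K) {u A : List ℕ} (hu : Dig K u) (hA : Dig K A)
    (c : RatCode × RatCode) :
    facVal (winC K u c) (crd K (u ++ A)) = ratVal c.1 + ratVal c.2 * crd K (u ++ A) := by
  have hmem := crd_mem hK (hu.append' hA)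
  have hg := gap_pos hK u
  have h1 := enc_nonneg K A
  have h2 := enc_le hK hA
  have h3 : gap K u * enc K A ≤ gap K u / 4 := by nlinarith
  have h4 : 0 ≤ gap K u * enc K A := by positivity
  have hF : (winC K u c).1 = c.1 ∧ (winC K u c).2.1 = c.2 := ⟨rfl, rfl⟩
  rw [facVal_of_core (by linarith [hmem.1]) (by linarith [hmem.2]), hF.1, hF.2]
  · rw [winC_left hK, winC_slope hK, crd, enc_append]
    rw [show (3 / 8 + (enc K u + gap K u * enc K A) - (3 / 8 + enc K u - gap K u / 4)) =
      gap K u / 4 + gap K u * enc K A by ring]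
    rw [mul_div_assoc', le_div_iff₀ hg]
    linarith
  · rw [winC_right hK, winC_slope hK, crd, enc_append]
    rw [show (3 / 8 + enc K u + gap K u / 2 - (3 / 8 + (enc K u + gap K u * enc K A))) =
      gap K u / 2 - gap K u * enc K A by ring]
    rw [mul_div_assoc', le_div_iff₀ hg]
    linarith

theorem winC_out {K : ℕ} (hK : 0 < K) {u v A : List ℕ} (hu : Dig K u) (hv : Dig K v)
    (hA : Dig K A) (hc : ¬ Compat u v) (c : RatCode × RatCode) :
    facVal (winC K v c) (crd K (u ++ A)) = 0 := by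
  have hmem := crd_mem hK (hu.append' hA)
  apply facVal_of_out (by linarith [hmem.1]) (by linarith [hmem.2])
  rw [winC_left hK, winC_right hK]
  unfold crd
  rcases enc_separated hK hu hv hA hc with h | h
  · left; linarith
  · right; linarith

/-! ## Height factors -/

def hC (R i : ℕ) : RatCode := rAdd (1, 0, 7) (rMul (rNat i) (rInv (2 * R)))

noncomputable def ht (R i : ℕ) : ℝ := 1 / 8 + (i : ℝ) / (2 * R)

theorem ratVal_hC {R : ℕ} (hR : 0 < R) (i : ℕ) : ratVal (hC R i) = ht R i := by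
  unfold hC ht
  rw [ratVal_rAdd, ratVal_rMul, ratVal_rNat, ratVal_rInv (by omega)]
  push_cast
  unfold ratVal
  push_cast
  ring

def zetaC (R i : ℕ) (c : RatCode × RatCode) : Fac :=
  (c.1, c.2, rAdd (hC R i) (rInv (16 * R)), rAdd (hC R i) (rMul (rNat 7) (rInv (16 * R))),
    8 * R - 1)

theorem zetaC_left {R : ℕ} (hR : 0 < R) (i : ℕ) (c : RatCode × RatCode) :
    ratVal (zetaC R i c).2.2.1 = ht R i + 1 / (2 * R) / 8 := by
  simp only [zetaC, ratVal_rAdd, ratVal_hC hR]
  rw [ratVal_rInv (by omega)]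
  push_cast
  have : (R : ℝ) ≠ 0 := by exact_mod_cast hR.ne'
  field_simp
  ring

theorem zetaC_right {R : ℕ} (hR : 0 < R) (i : ℕ) (c : RatCode × RatCode) :
    ratVal (zetaC R i c).2.2.2.1 = ht R i + 7 / 8 * (1 / (2 * R)) := by
  simp only [zetaC, ratVal_rAdd, ratVal_rMul, ratVal_hC hR, ratVal_rNat]
  rw [ratVal_rInv (by omega)]
  push_cast
  have : (R : ℝ) ≠ 0 := by exact_mod_cast hR.ne'
  field_simp
  ring

theorem zetaC_slope {R : ℕ} (hR : 0 < R) (i : ℕ) (c : RatCode × RatCode) :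
    (((zetaC R i c).2.2.2.2 : ℕ) : ℝ) + 1 = 8 * R := by
  change ((8 * R - 1 : ℕ) : ℝ) + 1 = _
  rw [Nat.cast_sub (by omega)]; push_cast; ring

theorem ht_le {R i : ℕ} (hi : i < R) : ht R i + 1 / (2 * R) ≤ 5 / 8 := by
  have hR : (0 : ℝ) < R := by exact_mod_cast (lt_of_le_of_lt (Nat.zero_le i) hi)
  have h1 : (i : ℝ) + 1 ≤ R := by exact_mod_cast hi
  unfold ht
  have : (1 / 8 + (i : ℝ) / (2 * R) + 1 / (2 * R)) = 1 / 8 + ((i : ℝ) + 1) / (2 * R) := by ring
  rw [this]
  have : ((i : ℝ) + 1) / (2 * R) ≤ 1 / 2 := by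
    rw [div_le_iff₀ (by positivity)]; linarith
  linarith

theorem ht_nonneg (R i : ℕ) : 1 / 8 ≤ ht R i := by
  unfold ht
  have : (0 : ℝ) ≤ (i : ℝ) / (2 * R) := by positivity
  linarith

theorem zetaC_ok {R i : ℕ} (hi : i < R) (c : RatCode × RatCode) : FacOK (zetaC R i c) := by
  have hR : 0 < R := lt_of_le_of_lt (Nat.zero_le i) hi
  have hR' : (0 : ℝ) < R := by exact_mod_cast hR
  have h1 : (0 : ℝ) < 1 / (2 * R) := by positivity
  constructor
  · rw [zetaC_left hR]
    have := ht_nonneg R i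
    linarith
  · rw [zetaC_right hR]
    have := ht_le hi
    linarith

theorem zetaC_core {R i : ℕ} (hi : i < R) {x : ℝ} (hx : 3 / 8 ≤ x ∧ x ≤ 5 / 8)
    (c : RatCode × RatCode) :
    facVal (zetaC R i c) (ht R i + 1 / (2 * R) * x) =
      ratVal c.1 + ratVal c.2 * (ht R i + 1 / (2 * R) * x) := by
  have hR : 0 < R := lt_of_le_of_lt (Nat.zero_le i) hi
  have hR' : (0 : ℝ) < R := by exact_mod_cast hR
  have hd : (0 : ℝ) < 1 / (2 * R) := by positivity
  set δ : ℝ := 1 / (2 * R) with hδ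
  have h8 : (8 * (R : ℝ)) = 4 / δ := by rw [hδ]; field_simp; ring
  have h1 := ht_nonneg R i
  have h2 := ht_le hi
  have h3 : δ * (3 / 8) ≤ δ * x := by nlinarith [hx.1]
  have h4 : δ * x ≤ δ * (5 / 8) := by nlinarith [hx.2]
  have hF : (zetaC R i c).1 = c.1 ∧ (zetaC R i c).2.1 = c.2 := ⟨rfl, rfl⟩
  rw [facVal_of_core (by nlinarith) (by nlinarith), hF.1, hF.2]
  · rw [zetaC_left hR, zetaC_slope hR, h8, mul_div_assoc', le_div_iff₀ hd]
    nlinarith
  · rw [zetaC_right hR, zetaC_slope hR, h8, mul_div_assoc', le_div_iff₀ hd]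
    nlinarith

theorem zetaC_out {R i j : ℕ} (hi : i < R) (hij : i ≠ j) {x : ℝ}
    (hx : 3 / 8 ≤ x ∧ x ≤ 5 / 8) (c : RatCode × RatCode) :
    facVal (zetaC R j c) (ht R i + 1 / (2 * R) * x) = 0 := by
  have hR : 0 < R := lt_of_le_of_lt (Nat.zero_le i) hi
  have hR' : (0 : ℝ) < R := by exact_mod_cast hR
  have hd : (0 : ℝ) < 1 / (2 * R) := by positivity
  set δ : ℝ := 1 / (2 * R) with hδ
  have e1 : ht R i = 1 / 8 + i * δ := by unfold ht; rw [hδ]; ring
  have e2 : ht R j = 1 / 8 + j * δ := by unfold ht; rw [hδ]; ring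
  have h1 := ht_nonneg R i
  have h2 := ht_le hi
  have h3 : δ * (3 / 8) ≤ δ * x := by nlinarith [hx.1]
  have h4 : δ * x ≤ δ * (5 / 8) := by nlinarith [hx.2]
  apply facVal_of_out (by nlinarith) (by nlinarith)
  rw [zetaC_left hR, zetaC_right hR, e1, e2]
  rcases lt_or_gt_of_ne hij with h | h
  · left
    have : (i : ℝ) + 1 ≤ j := by exact_mod_cast h
    have h5 : ((i : ℝ) + 1) * δ ≤ j * δ := by gcongr
    nlinarith
  · right
    have : (j : ℝ) + 1 ≤ i := by exact_mod_cast h
    have h5 : ((j : ℝ) + 1) * δ ≤ i * δ := by gcongr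
    nlinarith

end Vale.Agent.P113
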