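import Vale.Agent.Lib.P113.Step

/-!
# The particle path simulates the two-stack system
-/

open scoped ContDiff Topology
open Filter

namespace Vale.Agent.P113

/-- The shears of one period: a rewriting step followed by the exchange of the two stacks. -/
def perList (K : ℕ) (rules : List Rule) (hs : List ℕ) : List ShearData :=
  blockOf K rules hs ++ blockOf K [ruleD] []

/-- The constant field with value `c` in direction `d`. -/
def constShear (d : Fin 3) (c : RatCode) : ShearData := (d, [(c, none, none, none)])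

/-- All shears: two translations that load the input, then the periodic part. -/
def shearSeq (K : ℕ) (rules : List Rule) (hs : List ℕ) (A B : List ℕ) (m : ℕ) : ShearData :=
  if m = 0 then constShear 0 (encC K A)
  else if m = 1 then constShear 1 (encC K B)
  else (perList K rules hs).getD ((m - 2) % 8) (0, [])

theorem perList_length (K : ℕ) (rules : List Rule) (hs : List ℕ) :
    (perList K rules hs).length = 8 := by
  simp [perList, blockOf]

theorem goodRules_id {K : ℕ} (hK : 0 < K) : GoodRules K [ruleD] [] where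
  pos := hK
  dig := by
    intro r hr
    simp only [List.mem_singleton] at hr
    subst hr
    refine ⟨?_, ?_, ?_, ?_⟩ <;> intro d hd <;> simp [ruleD] at hd
  hdig := by intro h hh; simp at hh
  nodup := List.nodup_nil
  dom := List.pairwise_singleton _ _
  img := List.pairwise_singleton _ _
  nh := by intro r _ h hh; simp at hh

theorem profile_constShear (d : Fin 3) (c : RatCode) (x : V3) :
    profile (constShear d c) x = ratVal c := by
  simp [profile, constShear, termVal, optFac]

theorem constShear_ok (d : Fin 3) (c : RatCode) : ShearOK (constShear d c) := by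
  intro T hT
  simp only [constShear, List.mem_singleton] at hT
  subst hT
  refine ⟨trivial, trivial, trivial, ?_⟩
  fin_cases d <;> rfl

theorem shearSeq_ok {K : ℕ} {rules : List Rule} {hs : List ℕ} (g : GoodRules K rules hs)
    (A B : List ℕ) (m : ℕ) : ShearOK (shearSeq K rules hs A B m) := by
  unfold shearSeq
  split_ifs
  · exact constShear_ok _ _
  · exact constShear_ok _ _
  · have hl : (m - 2) % 8 < (perList K rules hs).length := by
      rw [perList_length]; exact Nat.mod_lt _ (by norm_num)
    rw [List.getD_eq_getElem _ _ hl]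
    have := List.getElem_mem hl
    rcases List.mem_append.1 this with h | h
    · exact blockOf_ok g _ h
    · exact blockOf_ok (goodRules_id g.pos) _ h

theorem shearSeq_add (K : ℕ) (rules : List Rule) (hs : List ℕ) (A B : List ℕ) (k j : ℕ)
    (hj : j < 8) : shearSeq K rules hs A B (2 + 8 * k + j) =
      (perList K rules hs).getD j (0, []) := by
  unfold shearSeq
  rw [if_neg (by omega), if_neg (by omega)]
  congr 1
  omega

/-- The height is in the allowed range. -/
def zOK (p : V3) : Prop := 0 ≤ p 2 ∧ p 2 ≤ 5 / 8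

theorem zOK_pt {x y z : ℝ} (h : 0 ≤ z ∧ z ≤ 5 / 8) : zOK (pt x y z) := by
  simpa [zOK, pt] using h

theorem positions_succ (sh : ℕ → ShearData) (a : V3) (m : ℕ) :
    positions sh a (m + 1) = positions sh a m + shearField (sh m) (positions sh a m) := rfl

theorem height_bounds {K R i : ℕ} (hK : 0 < K) (hi : i < R) {l : List ℕ} (hl : Dig K l) :
    0 ≤ ht R i + 1 / (2 * (R : ℝ)) * crd K l ∧ ht R i + 1 / (2 * (R : ℝ)) * crd K l ≤ 5 / 8 := by
  have hR : (0 : ℝ) < R := by exact_mod_cast (lt_of_le_of_lt (Nat.zero_le i) hi)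
  have h1 := crd_mem hK hl
  have h2 := ht_nonneg R i
  have h3 := ht_le hi
  have hd : (0 : ℝ) < 1 / (2 * R) := by positivity
  constructor
  · nlinarith [h1.1]
  · nlinarith [h1.2]

/-- Four consecutive shears of a block. -/
theorem block_run {K : ℕ} {rules : List Rule} {hs : List ℕ} (g : GoodRules K rules hs)
    {sh : ℕ → ShearData} {a : V3} {m : ℕ}
    (h : ∀ k, k < 4 → sh (m + k) = (blockOf K rules hs).getD k (0, []))
    {i : ℕ} (hi : i < rules.length) {A B : List ℕ} (hA : Dig K A) (hB : Dig K B)
    (hP : positions sh a m = pt (crd K (rules[i].1 ++ A)) (crd K (rules[i].2.1 ++ B)) 0) :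
    positions sh a (m + 4) =
        pt (crd K (rules[i].2.2.2 ++ B)) (crd K (rules[i].2.2.1 ++ A)) 0 ∧
      ∀ k, k ≤ 4 → zOK (positions sh a (m + k)) := by
  set Z := ht rules.length i + 1 / (2 * (rules.length : ℝ)) * crd K (rules[i].2.2.1 ++ A)
    with hZ
  obtain ⟨d1, d2, d3, d4⟩ := g.dig rules[i] (List.getElem_mem hi)
  have hZb : 0 ≤ Z ∧ Z ≤ 5 / 8 := height_bounds g.pos hi (d3.append' hA)
  have p1 : positions sh a (m + 1) =
      pt (crd K (rules[i].1 ++ A)) (crd K (rules[i].2.1 ++ B)) Z := by
    have e : sh m = (2, allTerms (t1 K rules.length) rules ++ hs.map (tH K)) := h 0 (by norm_num)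
    rw [positions_succ, hP, e, shear_pt2, step1 g hi hA hB, zero_add]
  have p2 : positions sh a (m + 2) =
      pt (crd K (rules[i].2.2.2 ++ B)) (crd K (rules[i].2.1 ++ B)) Z := by
    have e : sh (m + 1) = (0, allTerms (t2 K rules.length) rules) := h 1 (by norm_num)
    rw [show m + 2 = (m + 1) + 1 from rfl, positions_succ, p1, e, shear_pt0, step2 g hi hA hB]
    congr 1
    ring
  have p3 : positions sh a (m + 3) =
      pt (crd K (rules[i].2.2.2 ++ B)) (crd K (rules[i].2.2.1 ++ A)) Z := by
    have e : sh (m + 2) = (1, allTerms (t3 K rules.length) rules) := h 2 (by norm_num)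
    rw [show m + 3 = (m + 2) + 1 from rfl, positions_succ, p2, e, shear_pt1, step3 g hi hA hB]
    congr 1
    ring
  have p4 : positions sh a (m + 4) =
      pt (crd K (rules[i].2.2.2 ++ B)) (crd K (rules[i].2.2.1 ++ A)) 0 := by
    have e : sh (m + 3) = (2, allTerms (t4 K rules.length) rules) := h 3 (by norm_num)
    rw [show m + 4 = (m + 3) + 1 from rfl, positions_succ, p3, e, shear_pt2, step4 g hi hA hB]
    congr 1
    rw [hZ]
    ring
  refine ⟨p4, ?_⟩
  intro k hk
  interval_cases k
  · rw [Nat.add_zero, hP]; exact zOK_pt ⟨le_rfl, by norm_num⟩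
  · rw [p1]; exact zOK_pt hZb
  · rw [p2]; exact zOK_pt hZb
  · rw [p3]; exact zOK_pt hZb
  · rw [p4]; exact zOK_pt ⟨le_rfl, by norm_num⟩

/-- The starting point of the particle. -/
noncomputable def aStar : V3 := pt (3 / 8) (3 / 8) 0

/-- The detection region `{x₃ ∈ (3/4, 1)}`. -/
def region : Set (UnitAddTorus (Fin 3)) :=
  {p | p 2 ∈ (fun s : ℝ => (s : UnitAddCircle)) '' Set.Ioo (3 / 4 : ℝ) 1}

theorem region_open : IsOpen region := by
  have h1 : IsOpen ((fun s : ℝ => (s : UnitAddCircle)) '' Set.Ioo (3 / 4 : ℝ) 1) :=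
    QuotientAddGroup.isOpenMap_coe _ isOpen_Ioo
  exact h1.preimage (continuous_apply (2 : Fin 3))

theorem not_mem_region {x : V3} (h : zOK x) : toTorus x ∉ region := by
  rintro ⟨s, hs, hsx⟩
  have h1 : ((s : ℝ) : UnitAddCircle) = ((x 2 : ℝ) : UnitAddCircle) := hsx
  rw [AddCircle.coe_eq_coe_iff_of_mem_Ico (a := 0)] at h1
  · have h2 := hs.1
    have h3 := h.2
    rw [← h1] at h3
    linarith
  · exact ⟨by have := hs.1; linarith, by have := hs.2; simpa using this⟩
  · exact ⟨h.1, by have := h.2; simp only [zero_add]; linarith⟩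

theorem mem_region {x : V3} (h : x 2 = 7 / 8) : toTorus x ∈ region := by
  refine ⟨7 / 8, ⟨by norm_num, by norm_num⟩, ?_⟩
  simp [toTorus, h]

section run

variable {K : ℕ} {rules : List Rule} {hs : List ℕ} (g : GoodRules K rules hs)
  {run : ℕ → List ℕ × List ℕ}
  (hdig : ∀ k, Dig K (run k).1 ∧ Dig K (run k).2)
  (hstep : ∀ k, (∀ j ≤ k, ¬ HaltTop hs (run j)) → ∃ r ∈ rules, RuleStep r (run k) (run (k + 1)))
include g hdig hstep

theorem run_positions (k : ℕ) (hk : ∀ j < k, ¬ HaltTop hs (run j)) :
    positions (shearSeq K rules hs (run 0).1 (run 0).2) aStar (2 + 8 * k) =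
        pt (crd K (run k).1) (crd K (run k).2) 0 ∧
      ∀ m ≤ 2 + 8 * k,
        zOK (positions (shearSeq K rules hs (run 0).1 (run 0).2) aStar m) := by
  have hK := g.pos
  set sh := shearSeq K rules hs (run 0).1 (run 0).2 with hsh
  induction k with
  | zero =>
    have p0 : positions sh aStar 0 = pt (3 / 8) (3 / 8) 0 := rfl
    have p1 : positions sh aStar 1 = pt (crd K (run 0).1) (3 / 8) 0 := by
      have e : sh 0 = constShear 0 (encC K (run 0).1) := rfl
      have e1 : positions sh aStar 1 = positions sh aStar 0 + shearField (sh 0)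
        (positions sh aStar 0) := rfl
      rw [e1, p0, e]
      have := shear_pt0 [(encC K (run 0).1, none, none, none)] (3 / 8) (3 / 8) 0
      have h2 := profile_constShear 0 (encC K (run 0).1) (pt (3 / 8) (3 / 8) 0)
      unfold constShear at h2 ⊢
      rw [this, h2, ratVal_encC hK]
      rfl
    have p2 : positions sh aStar 2 = pt (crd K (run 0).1) (crd K (run 0).2) 0 := by
      have e : sh 1 = constShear 1 (encC K (run 0).2) := rfl
      have e1 : positions sh aStar 2 = positions sh aStar 1 + shearField (sh 1)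
        (positions sh aStar 1) := rfl
      rw [e1, p1, e]
      have := shear_pt1 [(encC K (run 0).2, none, none, none)] (crd K (run 0).1) (3 / 8) 0
      have h2 := profile_constShear 1 (encC K (run 0).2) (pt (crd K (run 0).1) (3 / 8) 0)
      unfold constShear at h2 ⊢
      rw [this, h2, ratVal_encC hK]
      rfl
    refine ⟨p2, ?_⟩
    intro m hm
    interval_cases m
    · rw [p0]; exact zOK_pt ⟨le_rfl, by norm_num⟩
    · rw [p1]; exact zOK_pt ⟨le_rfl, by norm_num⟩
    · rw [p2]; exact zOK_pt ⟨le_rfl, by norm_num⟩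
  | succ k ih =>
    obtain ⟨ih1, ih2⟩ := ih (fun j hj => hk j (by omega))
    obtain ⟨r, hr, A, B, e1, e2, e3, e4⟩ := hstep k (fun j hj => hk j (by omega))
    obtain ⟨i, hi, rfl⟩ := List.getElem_of_mem hr
    have dA : Dig K A := (dig_padEq hK e1 (hdig k).1).append.2
    have dB : Dig K B := (dig_padEq hK e2 (hdig k).2).append.2
    have c1 : crd K (run k).1 = crd K (rules[i].1 ++ A) := by unfold crd; rw [enc_padEq K e1]
    have c2 : crd K (run k).2 = crd K (rules[i].2.1 ++ B) := by unfold crd; rw [enc_padEq K e2]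
    have c3 : crd K (run (k + 1)).1 = crd K (rules[i].2.2.1 ++ A) := by
      unfold crd; rw [enc_padEq K e3]
    have c4 : crd K (run (k + 1)).2 = crd K (rules[i].2.2.2 ++ B) := by
      unfold crd; rw [enc_padEq K e4]
    rw [c1, c2] at ih1
    have hb1 : ∀ j, j < 4 → sh (2 + 8 * k + j) = (blockOf K rules hs).getD j (0, []) := by
      intro j hj
      rw [hsh, shearSeq_add _ _ _ _ _ _ _ (by omega)]
      unfold perList
      rw [List.getD_append _ _ _ _ (by simpa [blockOf] using hj)]
    have r1 := block_run g hb1 hi dA dB ih1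
    have hb2 : ∀ j, j < 4 → sh (2 + 8 * k + 4 + j) = (blockOf K [ruleD] []).getD j (0, []) := by
      intro j hj
      rw [hsh, show 2 + 8 * k + 4 + j = 2 + 8 * k + (4 + j) by ring,
        shearSeq_add _ _ _ _ _ _ _ (by omega)]
      unfold perList
      rw [List.getD_append_right _ _ _ _ (by simp [blockOf])]
      congr 1
      simp [blockOf]
    have d3 : Dig K (rules[i].2.2.1 ++ A) := (g.dig _ (List.getElem_mem hi)).2.2.1.append' dA
    have d4 : Dig K (rules[i].2.2.2 ++ B) := (g.dig _ (List.getElem_mem hi)).2.2.2.append' dB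
    have r2 := block_run (goodRules_id hK) hb2 (i := 0) (by simp) (A := rules[i].2.2.2 ++ B)
      (B := rules[i].2.2.1 ++ A) d4 d3 r1.1
    have r2' : positions sh aStar (2 + 8 * k + 4 + 4) =
        pt (crd K (rules[i].2.2.1 ++ A)) (crd K (rules[i].2.2.2 ++ B)) 0 := r2.1
    refine ⟨?_, ?_⟩
    · rw [c3, c4, ← r2']
      congr 1
    · intro m hm
      rcases le_or_gt m (2 + 8 * k) with h | h
      · exact ih2 m h
      · rcases le_or_gt m (2 + 8 * k + 4) with h' | h'
        · obtain ⟨j, rfl⟩ : ∃ j, m = 2 + 8 * k + j := ⟨m - (2 + 8 * k), by omega⟩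
          exact r1.2 j (by omega)
        · obtain ⟨j, rfl⟩ : ∃ j, m = 2 + 8 * k + 4 + j := ⟨m - (2 + 8 * k + 4), by omega⟩
          exact r2.2 j (by omega)

/-- The path enters the region exactly when the rewriting system reaches a halting digit. -/
theorem run_main :
    (∃ t : ℝ, 0 ≤ t ∧
        toTorus (traj (shearSeq K rules hs (run 0).1 (run 0).2) aStar t) ∈ region) ↔
      ∃ k, HaltTop hs (run k) := by
  classical
  have hK := g.pos
  set sh := shearSeq K rules hs (run 0).1 (run 0).2 with hsh
  constructor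
  · rintro ⟨t, ht, hmem⟩
    by_contra hno
    push Not at hno
    have hall : ∀ m, zOK (positions sh aStar m) := fun m =>
      (run_positions g hdig hstep m (fun j _ => hno j)).2 m (by omega)
    apply not_mem_region _ hmem
    have h1 := hall ⌊t⌋₊
    have h2 := hall (⌊t⌋₊ + 1)
    rw [positions_succ] at h2
    have h3 := theta_nonneg (t - (⌊t⌋₊ : ℝ))
    have h4 := theta_le_one (t - (⌊t⌋₊ : ℝ))
    unfold traj zOK
    unfold zOK at h1 h2
    simp only [Pi.add_apply, Pi.smul_apply, smul_eq_mul] at h2 ⊢
    constructor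
    · nlinarith [h1.1, h2.1]
    · nlinarith [h1.2, h2.2]
  · intro hex
    obtain ⟨h, hh, A, hpad⟩ := Nat.find_spec hex
    set k := Nat.find hex with hkdef
    have hpos := (run_positions g hdig hstep k (fun j hj => Nat.find_min hex hj)).1
    have dA : Dig K A := (dig_padEq hK hpad (hdig k).1).cons.2
    have c1 : crd K (run k).1 = crd K (h :: A) := by unfold crd; rw [enc_padEq K hpad]
    have hs1 : sh (2 + 8 * k) = (2, allTerms (t1 K rules.length) rules ++ hs.map (tH K)) := by
      have := shearSeq_add K rules hs (run 0).1 (run 0).2 k 0 (by norm_num)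
      rw [hsh]
      exact this
    have hnext : positions sh aStar (2 + 8 * k + 1) =
        pt (crd K (run k).1) (crd K (run k).2) (7 / 8) := by
      rw [positions_succ, hpos, hs1, shear_pt2, c1, stepH g hh dA, zero_add]
    refine ⟨((2 + 8 * k + 1 : ℕ) : ℝ), Nat.cast_nonneg _, ?_⟩
    rw [traj_nat, hnext]
    apply mem_region
    simp [pt]

end run

end Vale.Agent.P113
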