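import Vale.Agent.Lib.P113.Defs

/-!
# Statement-level definitions for P113: force compilers and global solutions
-/

open scoped ContDiff

namespace Vale.Agent.P113

/-- `compile` is a force compiler with loading time `T₀`: it is an algorithm which turns (the
description of) a machine `M` and an input `w` into a program for an effective smooth force
`f M w` on `ℝ × (ℝ/ℤ)³`; for times `t ≥ T₀` this force is periodic in time with period `τ` and
depends on `M` only. -/
structure IsForceCompiler (T₀ τ : ℝ) (compile : Desc × List ℕ → Nat.Partrec.Code)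
    (f : (M : Machine) → List (Fin (M.m + 1)) → ℝ → V3 → V3) : Prop where
  algorithm : Computable compile
  smooth : ∀ M w, ContDiff ℝ ∞ (fun z : ℝ × V3 => f M w z.1 z.2)
  on_torus : ∀ M w t, Periodic3 (f M w t)
  effective : ∀ M w, Computes (compile (M.describe, w.map Fin.val)) (f M w)
  time_periodic : ∀ M w t, T₀ ≤ t → f M w (t + τ) = f M w t
  machine_only : ∀ M w w' t, T₀ ≤ t → f M w t = f M w' t

/-- `(u, p)` is a global smooth solution of the Navier-Stokes system with force `f` from rest, and
for each `T > 0` it is the only classical solution on `[0,T]`. -/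
structure IsGlobalSolution (ν : ℝ) (f : ℝ → V3 → V3) (u : ℝ → V3 → V3) (p : ℝ → V3 → ℝ) :
    Prop where
  smooth_u : ContDiff ℝ ∞ (fun z : ℝ × V3 => u z.1 z.2)
  smooth_p : ContDiff ℝ ∞ (fun z : ℝ × V3 => p z.1 z.2)
  classical : ∀ T, 0 < T → IsClassicalSolution ν f T u p
  unique : ∀ T, 0 < T → ∀ v q, IsClassicalSolution ν f T v q →
    ∀ t ∈ Set.Icc 0 T, ∀ x, v t x = u t x ∧ q t x = p t x

end Vale.Agent.P113
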