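import Vale.Agent.Lib.P113.Macro

/-!
# One rewriting step performed by four shears
-/

open scoped ContDiff Topology
open Filter

namespace Vale.Agent.P113

/-! ## Affine maps between blocks -/

/-- The affine map `s ↦ c.1 + c.2 s` that maps the block of `u` onto the block of `v`. -/
def affC (K : ℕ) (u v : List ℕ) : RatCode × RatCode :=
  (rAdd (rAdd offC (encC K v)) (rNeg (rMul (rMul (rNat (powC K u)) (rInv (powC K v)))
    (rAdd offC (encC K u)))), rMul (rNat (powC K u)) (rInv (powC K v)))

noncomputable def affVal (c : RatCode × RatCode) (s : ℝ) : ℝ := ratVal c.1 + ratVal c.2 * s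

theorem affVal_affC {K : ℕ} (hK : 0 < K) (u v A : List ℕ) :
    affVal (affC K u v) (crd K (u ++ A)) = crd K (v ++ A) := by
  have hu : (powC K u : ℝ) ≠ 0 := by exact_mod_cast (powC_pos hK u).ne'
  have hv : (powC K v : ℝ) ≠ 0 := by exact_mod_cast (powC_pos hK v).ne'
  unfold affVal affC crd
  simp only [ratVal_rAdd, ratVal_rNeg, ratVal_rMul, ratVal_rNat, ratVal_offC, ratVal_encC hK,
    ratVal_rInv (powC_pos hK v)]
  rw [enc_append, enc_append, gap_eq, gap_eq]
  field_simp
  ring

/-- `p + q * c`. -/
def postC (p q : RatCode) (c : RatCode × RatCode) : RatCode × RatCode :=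
  (rAdd p (rMul q c.1), rMul q c.2)

theorem affVal_postC (p q : RatCode) (c : RatCode × RatCode) (s : ℝ) :
    affVal (postC p q c) s = ratVal p + ratVal q * affVal c s := by
  unfold affVal postC
  simp only [ratVal_rAdd, ratVal_rMul]
  ring

/-- The affine map `c` applied to `(z - h) / δ`, `δ = 1 / (2R)`, `h = ht R i`. -/
def preC (R i : ℕ) (c : RatCode × RatCode) : RatCode × RatCode :=
  (rAdd c.1 (rNeg (rMul (rMul c.2 (rNat (2 * R))) (hC R i))), rMul c.2 (rNat (2 * R)))

theorem affVal_preC {R : ℕ} (hR : 0 < R) (i : ℕ) (c : RatCode × RatCode) (x : ℝ) :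
    affVal (preC R i c) (ht R i + 1 / (2 * R) * x) = affVal c x := by
  have hR' : (R : ℝ) ≠ 0 := by exact_mod_cast hR.ne'
  unfold affVal preC
  simp only [ratVal_rAdd, ratVal_rNeg, ratVal_rMul, ratVal_hC hR, ratVal_rNat]
  push_cast
  field_simp
  ring

def oneC : RatCode × RatCode := (rNat 1, rNat 0)
def idC : RatCode × RatCode := (rNat 0, rNat 1)

theorem affVal_oneC (s : ℝ) : affVal oneC s = 1 := by
  unfold affVal oneC; simp [ratVal_rNat]

theorem affVal_idC (s : ℝ) : affVal idC s = s := by
  unfold affVal idC; simp [ratVal_rNat]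

/-! ## The terms -/

def t1 (K R i : ℕ) (r : Rule) : List Term :=
  [(rNat 1, some (winC K r.1 (postC (hC R i) (rInv (2 * R)) (affC K r.1 r.2.2.1))),
    some (winC K r.2.1 oneC), none)]

def t2 (K R i : ℕ) (r : Rule) : List Term :=
  [(rNat 1, none, some (winC K r.2.1 (affC K r.2.1 r.2.2.2)), some (zetaC R i oneC)),
   (rNeg (rNat 1), none, none, some (zetaC R i (preC R i (affC K r.2.2.1 r.1))))]

def t3 (K R i : ℕ) (r : Rule) : List Term :=
  [(rNat 1, none, none, some (zetaC R i (preC R i idC))),
   (rNeg (rNat 1), some (winC K r.2.2.2 (affC K r.2.2.2 r.2.1)), none, some (zetaC R i oneC))]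

def t4 (K R i : ℕ) (r : Rule) : List Term :=
  [(rNeg (rNat 1), some (winC K r.2.2.2 oneC), some (winC K r.2.2.1 (hC R i, rInv (2 * R))),
    none)]

def tH (K h : ℕ) : Term := ((7, 0, 7), some (winC K [h] oneC), none, none)

def ruleD : Rule := ([], [], [], [])

/-- Sum over all rules. -/
def allTerms (t : ℕ → Rule → List Term) (rules : List Rule) : List Term :=
  (List.range rules.length).flatMap fun i => t i (rules.getD i ruleD)

/-- The four shears of a rewriting step. -/
def blockOf (K : ℕ) (rules : List Rule) (hs : List ℕ) : List ShearData :=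
  [(2, allTerms (t1 K rules.length) rules ++ hs.map (tH K)),
   (0, allTerms (t2 K rules.length) rules),
   (1, allTerms (t3 K rules.length) rules),
   (2, allTerms (t4 K rules.length) rules)]

theorem profile_append (d : Fin 3) (l l' : List Term) (x : V3) :
    profile (d, l ++ l') x = profile (d, l) x + profile (d, l') x := by
  simp [profile]

theorem profile_flatMap_range (d : Fin 3) (n : ℕ) (g : ℕ → List Term) (x : V3) :
    profile (d, (List.range n).flatMap g) x = ∑ i ∈ Finset.range n, profile (d, g i) x := by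
  induction n with
  | zero => simp [profile]
  | succ n ih =>
    rw [List.range_succ, List.flatMap_append, profile_append, ih, Finset.sum_range_succ]
    simp

theorem profile_allTerms {d : Fin 3} {t : ℕ → Rule → List Term} {rules : List Rule} {x : V3}
    {i : ℕ} (hi : i < rules.length)
    (h : ∀ j, j < rules.length → i ≠ j → profile (d, t j (rules.getD j ruleD)) x = 0) :
    profile (d, allTerms t rules) x = profile (d, t i rules[i]) x := by
  unfold allTerms
  rw [profile_flatMap_range, Finset.sum_eq_single i]
  · rw [List.getD_eq_getElem _ _ hi]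
  · intro j hj hji
    exact h j (Finset.mem_range.1 hj) (Ne.symm hji)
  · intro hi'
    exact absurd (Finset.mem_range.2 hi) hi'

theorem profile_allTerms_zero {d : Fin 3} {t : ℕ → Rule → List Term} {rules : List Rule} {x : V3}
    (h : ∀ j, j < rules.length → profile (d, t j (rules.getD j ruleD)) x = 0) :
    profile (d, allTerms t rules) x = 0 := by
  unfold allTerms
  rw [profile_flatMap_range]
  exact Finset.sum_eq_zero fun j hj => h j (Finset.mem_range.1 hj)

/-! ## Hypotheses on the rules -/

/-- Digits of a rule. -/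
def RDig (K : ℕ) (r : Rule) : Prop := Dig K r.1 ∧ Dig K r.2.1 ∧ Dig K r.2.2.1 ∧ Dig K r.2.2.2

structure GoodRules (K : ℕ) (rules : List Rule) (hs : List ℕ) : Prop where
  pos : 0 < K
  dig : ∀ r ∈ rules, RDig K r
  hdig : ∀ h ∈ hs, h < K
  nodup : hs.Nodup
  dom : rules.Pairwise fun r s => ¬ (Compat r.1 s.1 ∧ Compat r.2.1 s.2.1)
  img : rules.Pairwise fun r s => ¬ (Compat r.2.2.1 s.2.2.1 ∧ Compat r.2.2.2 s.2.2.2)
  nh : ∀ r ∈ rules, ∀ h ∈ hs, ¬ Compat r.1 [h]

theorem compat_comm {u v : List ℕ} : Compat u v ↔ Compat v u := Or.comm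

theorem pairwise_ne {α : Type*} {R : α → α → Prop} (hsymm : ∀ a b, R a b → R b a) {l : List α}
    (h : l.Pairwise R) {i j : ℕ} (hi : i < l.length) (hj : j < l.length) (hij : i ≠ j) :
    R l[i] l[j] := by
  rcases lt_or_gt_of_ne hij with h1 | h1
  · exact List.pairwise_iff_getElem.1 h i j hi hj h1
  · exact hsymm _ _ (List.pairwise_iff_getElem.1 h j i hj hi h1)

theorem GoodRules.dom' {K : ℕ} {rules : List Rule} {hs : List ℕ} (g : GoodRules K rules hs)
    {i j : ℕ} (hi : i < rules.length) (hj : j < rules.length) (hij : i ≠ j) :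
    ¬ (Compat rules[i].1 rules[j].1 ∧ Compat rules[i].2.1 rules[j].2.1) :=
  pairwise_ne (R := fun r s : Rule => ¬ (Compat r.1 s.1 ∧ Compat r.2.1 s.2.1))
    (fun a b h h' => h ⟨compat_comm.1 h'.1, compat_comm.1 h'.2⟩) g.dom hi hj hij

theorem GoodRules.img' {K : ℕ} {rules : List Rule} {hs : List ℕ} (g : GoodRules K rules hs)
    {i j : ℕ} (hi : i < rules.length) (hj : j < rules.length) (hij : i ≠ j) :
    ¬ (Compat rules[i].2.2.1 rules[j].2.2.1 ∧ Compat rules[i].2.2.2 rules[j].2.2.2) :=
  pairwise_ne (R := fun r s : Rule => ¬ (Compat r.2.2.1 s.2.2.1 ∧ Compat r.2.2.2 s.2.2.2))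
    (fun a b h h' => h ⟨compat_comm.1 h'.1, compat_comm.1 h'.2⟩) g.img hi hj hij

/-- A point with given coordinates. -/
def pt (x y z : ℝ) : V3 := ![x, y, z]

theorem termVal_pt (c : RatCode) (F G H : Option Fac) (x y z : ℝ) :
    termVal (c, F, G, H) (pt x y z) = ratVal c * (optFac F x * optFac G y * optFac H z) := by
  simp [termVal, pt]

theorem shear_pt2 (l : List Term) (x y z : ℝ) :
    pt x y z + shearField (2, l) (pt x y z) = pt x y (z + profile (2, l) (pt x y z)) := by
  funext i
  fin_cases i <;> simp [pt, shearField]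

theorem shear_pt0 (l : List Term) (x y z : ℝ) :
    pt x y z + shearField (0, l) (pt x y z) = pt (x + profile (0, l) (pt x y z)) y z := by
  funext i
  fin_cases i <;> simp [pt, shearField]

theorem shear_pt1 (l : List Term) (x y z : ℝ) :
    pt x y z + shearField (1, l) (pt x y z) = pt x (y + profile (1, l) (pt x y z)) z := by
  funext i
  fin_cases i <;> simp [pt, shearField]

section steps

variable {K : ℕ} {rules : List Rule} {hs : List ℕ} (g : GoodRules K rules hs)
include g

theorem getD_mem {i : ℕ} (hi : i < rules.length) : rules.getD i ruleD ∈ rules := by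
  rw [List.getD_eq_getElem _ _ hi]; exact List.getElem_mem hi

/-- Height reached by the first shear. -/
theorem step1 {i : ℕ} (hi : i < rules.length) {A B : List ℕ} (hA : Dig K A) (hB : Dig K B)
    (z : ℝ) :
    profile (2, allTerms (t1 K rules.length) rules ++ hs.map (tH K))
      (pt (crd K (rules[i].1 ++ A)) (crd K (rules[i].2.1 ++ B)) z) =
    ht rules.length i + 1 / (2 * (rules.length : ℝ)) * crd K (rules[i].2.2.1 ++ A) := by
  have hR : 0 < rules.length := lt_of_le_of_lt (Nat.zero_le i) hi
  have hK := g.pos
  obtain ⟨d1, d2, d3, d4⟩ := g.dig rules[i] (List.getElem_mem hi)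
  have hH : profile (2, hs.map (tH K))
      (pt (crd K (rules[i].1 ++ A)) (crd K (rules[i].2.1 ++ B)) z) = 0 := by
    unfold profile
    apply List.sum_eq_zero
    intro v hv
    simp only [List.map_map, List.mem_map, Function.comp] at hv
    obtain ⟨h, hh, rfl⟩ := hv
    unfold tH
    rw [termVal_pt]
    have h1 : facVal (winC K [h] oneC) (crd K (rules[i].1 ++ A)) = 0 :=
      winC_out hK d1 (by intro d hd; simp at hd; rw [hd]; exact g.hdig h hh) hA
        (g.nh _ (List.getElem_mem hi) h hh) _
    simp [optFac, h1]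
  rw [profile_append, hH, add_zero, profile_allTerms hi]
  · unfold t1
    rw [profile_cons, profile_nil, add_zero, termVal_pt]
    simp only [optFac]
    rw [winC_core hK d1 hA, winC_core hK d2 hB]
    have e1 : ratVal (postC (hC rules.length i) (rInv (2 * rules.length))
        (affC K rules[i].1 rules[i].2.2.1)).1 +
        ratVal (postC (hC rules.length i) (rInv (2 * rules.length))
        (affC K rules[i].1 rules[i].2.2.1)).2 * crd K (rules[i].1 ++ A) =
        affVal (postC (hC rules.length i) (rInv (2 * rules.length))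
          (affC K rules[i].1 rules[i].2.2.1)) (crd K (rules[i].1 ++ A)) := rfl
    have e2 : ratVal oneC.1 + ratVal oneC.2 * crd K (rules[i].2.1 ++ B) = 1 := affVal_oneC _
    rw [e1, e2, affVal_postC, affVal_affC hK, ratVal_hC hR, ratVal_rNat,
      ratVal_rInv (by omega)]
    push_cast
    ring
  · intro j hj hij
    obtain ⟨f1, f2, f3, f4⟩ := g.dig rules[j] (List.getElem_mem hj)
    rw [List.getD_eq_getElem _ _ hj]
    unfold t1
    rw [profile_cons, profile_nil, add_zero, termVal_pt]
    simp only [optFac]
    have hn := g.dom' hi hj hij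
    by_cases hc : Compat rules[i].1 rules[j].1
    · have hc2 : ¬ Compat rules[i].2.1 rules[j].2.1 := fun h => hn ⟨hc, h⟩
      rw [winC_out hK d2 f2 hB hc2]; ring
    · rw [winC_out hK d1 f1 hA hc]; ring

/-- The second shear: `x` becomes the new second stack. -/
theorem step2 {i : ℕ} (hi : i < rules.length) {A B : List ℕ} (hA : Dig K A) (hB : Dig K B)
    (x : ℝ) :
    profile (0, allTerms (t2 K rules.length) rules)
      (pt x (crd K (rules[i].2.1 ++ B))
        (ht rules.length i + 1 / (2 * (rules.length : ℝ)) * crd K (rules[i].2.2.1 ++ A))) =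
    crd K (rules[i].2.2.2 ++ B) - crd K (rules[i].1 ++ A) := by
  have hR : 0 < rules.length := lt_of_le_of_lt (Nat.zero_le i) hi
  have hK := g.pos
  obtain ⟨d1, d2, d3, d4⟩ := g.dig rules[i] (List.getElem_mem hi)
  have hx := crd_mem hK (d3.append' hA)
  rw [profile_allTerms hi]
  · unfold t2
    rw [profile_cons, profile_cons, profile_nil, add_zero, termVal_pt, termVal_pt]
    simp only [optFac]
    rw [winC_core hK d2 hB, zetaC_core hi hx, zetaC_core hi hx]
    have e1 : ratVal (affC K rules[i].2.1 rules[i].2.2.2).1 +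
        ratVal (affC K rules[i].2.1 rules[i].2.2.2).2 * crd K (rules[i].2.1 ++ B) =
        affVal (affC K rules[i].2.1 rules[i].2.2.2) (crd K (rules[i].2.1 ++ B)) := rfl
    have e2 : ratVal oneC.1 + ratVal oneC.2 * (ht rules.length i +
      1 / (2 * (rules.length : ℝ)) * crd K (rules[i].2.2.1 ++ A)) = 1 := affVal_oneC _
    have e3 : ratVal (preC rules.length i (affC K rules[i].2.2.1 rules[i].1)).1 +
        ratVal (preC rules.length i (affC K rules[i].2.2.1 rules[i].1)).2 *
          (ht rules.length i + 1 / (2 * (rules.length : ℝ)) * crd K (rules[i].2.2.1 ++ A)) =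
        affVal (preC rules.length i (affC K rules[i].2.2.1 rules[i].1))
          (ht rules.length i + 1 / (2 * (rules.length : ℝ)) * crd K (rules[i].2.2.1 ++ A)) := rfl
    rw [e1, e2, e3, affVal_preC hR, affVal_affC hK, affVal_affC hK, ratVal_rNeg, ratVal_rNat]
    push_cast
    ring
  · intro j hj hij
    rw [List.getD_eq_getElem _ _ hj]
    unfold t2
    rw [profile_cons, profile_cons, profile_nil, add_zero, termVal_pt, termVal_pt]
    simp only [optFac]
    rw [zetaC_out hi hij hx, zetaC_out hi hij hx]
    ring

/-- The third shear: `y` becomes the new first stack. -/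
theorem step3 {i : ℕ} (hi : i < rules.length) {A B : List ℕ} (hA : Dig K A) (hB : Dig K B)
    (y : ℝ) :
    profile (1, allTerms (t3 K rules.length) rules)
      (pt (crd K (rules[i].2.2.2 ++ B)) y
        (ht rules.length i + 1 / (2 * (rules.length : ℝ)) * crd K (rules[i].2.2.1 ++ A))) =
    crd K (rules[i].2.2.1 ++ A) - crd K (rules[i].2.1 ++ B) := by
  have hR : 0 < rules.length := lt_of_le_of_lt (Nat.zero_le i) hi
  have hK := g.pos
  obtain ⟨d1, d2, d3, d4⟩ := g.dig rules[i] (List.getElem_mem hi)
  have hx := crd_mem hK (d3.append' hA)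
  rw [profile_allTerms hi]
  · unfold t3
    rw [profile_cons, profile_cons, profile_nil, add_zero, termVal_pt, termVal_pt]
    simp only [optFac]
    rw [winC_core hK d4 hB, zetaC_core hi hx, zetaC_core hi hx]
    have e1 : ratVal (affC K rules[i].2.2.2 rules[i].2.1).1 +
        ratVal (affC K rules[i].2.2.2 rules[i].2.1).2 * crd K (rules[i].2.2.2 ++ B) =
        affVal (affC K rules[i].2.2.2 rules[i].2.1) (crd K (rules[i].2.2.2 ++ B)) := rfl
    have e2 : ratVal oneC.1 + ratVal oneC.2 * (ht rules.length i +
      1 / (2 * (rules.length : ℝ)) * crd K (rules[i].2.2.1 ++ A)) = 1 := affVal_oneC _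
    have e3 : ratVal (preC rules.length i idC).1 +
        ratVal (preC rules.length i idC).2 *
          (ht rules.length i + 1 / (2 * (rules.length : ℝ)) * crd K (rules[i].2.2.1 ++ A)) =
        affVal (preC rules.length i idC)
          (ht rules.length i + 1 / (2 * (rules.length : ℝ)) * crd K (rules[i].2.2.1 ++ A)) := rfl
    rw [e1, e2, e3, affVal_preC hR, affVal_affC hK, affVal_idC, ratVal_rNeg, ratVal_rNat]
    push_cast
    ring
  · intro j hj hij
    rw [List.getD_eq_getElem _ _ hj]
    unfold t3
    rw [profile_cons, profile_cons, profile_nil, add_zero, termVal_pt, termVal_pt]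
    simp only [optFac]
    rw [zetaC_out hi hij hx, zetaC_out hi hij hx]
    ring

/-- The fourth shear: `z` returns to zero. -/
theorem step4 {i : ℕ} (hi : i < rules.length) {A B : List ℕ} (hA : Dig K A) (hB : Dig K B)
    (z : ℝ) :
    profile (2, allTerms (t4 K rules.length) rules)
      (pt (crd K (rules[i].2.2.2 ++ B)) (crd K (rules[i].2.2.1 ++ A)) z) =
    - (ht rules.length i + 1 / (2 * (rules.length : ℝ)) * crd K (rules[i].2.2.1 ++ A)) := by
  have hR : 0 < rules.length := lt_of_le_of_lt (Nat.zero_le i) hi
  have hK := g.pos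
  obtain ⟨d1, d2, d3, d4⟩ := g.dig rules[i] (List.getElem_mem hi)
  rw [profile_allTerms hi]
  · unfold t4
    rw [profile_cons, profile_nil, add_zero, termVal_pt]
    simp only [optFac]
    rw [winC_core hK d4 hB, winC_core hK d3 hA]
    have e2 : ratVal oneC.1 + ratVal oneC.2 * crd K (rules[i].2.2.2 ++ B) = 1 := affVal_oneC _
    rw [e2, ratVal_hC hR, ratVal_rNeg, ratVal_rNat, ratVal_rInv (by omega)]
    push_cast
    ring
  · intro j hj hij
    obtain ⟨f1, f2, f3, f4⟩ := g.dig rules[j] (List.getElem_mem hj)
    rw [List.getD_eq_getElem _ _ hj]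
    unfold t4
    rw [profile_cons, profile_nil, add_zero, termVal_pt]
    simp only [optFac]
    have hn := g.img' hi hj hij
    by_cases hc : Compat rules[i].2.2.1 rules[j].2.2.1
    · have hc2 : ¬ Compat rules[i].2.2.2 rules[j].2.2.2 := fun h => hn ⟨hc, h⟩
      rw [winC_out hK d4 f4 hB hc2]; ring
    · rw [winC_out hK d3 f3 hA hc]; ring

/-- The first shear at a halting configuration. -/
theorem stepH {h : ℕ} (hh : h ∈ hs) {A : List ℕ} (hA : Dig K A) (y z : ℝ) :
    profile (2, allTerms (t1 K rules.length) rules ++ hs.map (tH K))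
      (pt (crd K (h :: A)) y z) = 7 / 8 := by
  have hK := g.pos
  have hdh : Dig K [h] := by intro d hd; simp at hd; rw [hd]; exact g.hdig h hh
  have hcons : h :: A = [h] ++ A := rfl
  rw [profile_append, profile_allTerms_zero, zero_add]
  · have key : ∀ l : List ℕ, l.Nodup → (∀ e ∈ l, e < K) →
        profile (2, l.map (tH K)) (pt (crd K (h :: A)) y z) = if h ∈ l then 7 / 8 else 0 := by
      intro l
      induction l with
      | nil => intro _ _; simp [profile]
      | cons e l ih =>
        intro hnd hlt
        rw [List.map_cons, profile_cons, ih (List.nodup_cons.1 hnd).2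
          (fun d hd => hlt d (by simp [hd]))]
        have he : e < K := hlt e (by simp)
        have hde : Dig K [e] := by intro d hd; simp at hd; rw [hd]; exact he
        unfold tH
        rw [termVal_pt]
        simp only [optFac]
        by_cases heq : h = e
        · subst heq
          have hnot : h ∉ l := (List.nodup_cons.1 hnd).1
          rw [hcons, winC_core hK hdh hA]
          have e2 : ratVal oneC.1 + ratVal oneC.2 * crd K ([h] ++ A) = 1 := affVal_oneC _
          rw [e2]
          simp only [hnot, if_false, List.mem_cons, true_or, if_true]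
          unfold ratVal; norm_num
        · have hc : ¬ Compat [h] [e] := by
            rintro (h1 | h1)
            · have := (List.cons_prefix_cons.1 h1).1; exact heq this
            · have := (List.cons_prefix_cons.1 h1).1; exact heq this.symm
          rw [hcons, winC_out hK hdh hde hA hc]
          simp only [List.mem_cons, heq, false_or]
          ring
    rw [key hs g.nodup g.hdig, if_pos hh]
  · intro j hj
    obtain ⟨f1, f2, f3, f4⟩ := g.dig rules[j] (List.getElem_mem hj)
    rw [List.getD_eq_getElem _ _ hj]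
    unfold t1
    rw [profile_cons, profile_nil, add_zero, termVal_pt]
    simp only [optFac]
    have hc : ¬ Compat [h] rules[j].1 := fun h1 =>
      g.nh _ (List.getElem_mem hj) h hh (compat_comm.1 h1)
    rw [hcons, winC_out hK hdh f1 hA hc]; ring

end steps

/-! ## The shears are OK -/

theorem allTerms_ok {d : Fin 3} {t : ℕ → Rule → List Term} {rules : List Rule}
    (h : ∀ j, (hj : j < rules.length) → ShearOK (d, t j rules[j])) :
    ShearOK (d, allTerms t rules) := by
  intro T hT
  simp only [allTerms, List.mem_flatMap, List.mem_range] at hT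
  obtain ⟨j, hj, hT⟩ := hT
  rw [List.getD_eq_getElem _ _ hj] at hT
  exact h j hj T hT

theorem blockOf_ok {K : ℕ} {rules : List Rule} {hs : List ℕ} (g : GoodRules K rules hs) :
    ∀ sh ∈ blockOf K rules hs, ShearOK sh := by
  have hK := g.pos
  intro sh hsh
  simp only [blockOf, List.mem_cons, List.not_mem_nil, or_false] at hsh
  rcases hsh with rfl | rfl | rfl | rfl
  · intro T hT
    simp only [List.mem_append] at hT
    rcases hT with hT | hT
    · refine allTerms_ok (d := 2) (t := t1 K rules.length) (rules := rules) ?_ T hT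
      intro j hj T hT
      obtain ⟨f1, f2, f3, f4⟩ := g.dig rules[j] (List.getElem_mem hj)
      simp only [t1, List.mem_cons, List.not_mem_nil, or_false] at hT
      subst hT
      exact ⟨winC_ok hK f1 _, winC_ok hK f2 _, trivial, rfl⟩
    · simp only [List.mem_map] at hT
      obtain ⟨h, hh, rfl⟩ := hT
      refine ⟨winC_ok hK ?_ _, trivial, trivial, rfl⟩
      intro d hd; simp at hd; rw [hd]; exact g.hdig h hh
  · apply allTerms_ok
    intro j hj T hT
    obtain ⟨f1, f2, f3, f4⟩ := g.dig rules[j] (List.getElem_mem hj)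
    simp only [t2, List.mem_cons, List.not_mem_nil, or_false] at hT
    rcases hT with rfl | rfl
    · exact ⟨trivial, winC_ok hK f2 _, zetaC_ok hj _, rfl⟩
    · exact ⟨trivial, trivial, zetaC_ok hj _, rfl⟩
  · apply allTerms_ok
    intro j hj T hT
    obtain ⟨f1, f2, f3, f4⟩ := g.dig rules[j] (List.getElem_mem hj)
    simp only [t3, List.mem_cons, List.not_mem_nil, or_false] at hT
    rcases hT with rfl | rfl
    · exact ⟨trivial, trivial, zetaC_ok hj _, rfl⟩
    · exact ⟨winC_ok hK f4 _, trivial, zetaC_ok hj _, rfl⟩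
  · apply allTerms_ok
    intro j hj T hT
    obtain ⟨f1, f2, f3, f4⟩ := g.dig rules[j] (List.getElem_mem hj)
    simp only [t4, List.mem_cons, List.not_mem_nil, or_false] at hT
    subst hT
    exact ⟨winC_ok hK f4 _, winC_ok hK f3 _, trivial, rfl⟩

end Vale.Agent.P113
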